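import Vale.Agent.P200d.Vars

/-!
The algebra generated by the coefficient ring and the twisted operators, free over its centre.
-/

noncomputable section

namespace Vale.Agent.P200d

open MvPolynomial

variable {K : Type*} [Field K] {p N : ℕ} [hp : Fact p.Prime] [CharP K p]

/-- The index of the variables of the coefficient ring. -/
abbrev PVar (p N : ℕ) : Type := {s : Var p N // lev s.2 + 1 < p}

/-- The base ring attached to `m` directions. -/
abbrev Base (K : Type*) [CommSemiring K] (p N m : ℕ) : Type _ := MvPolynomial (PVar p N ⊕ Fin m) K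

/-- The variable of the coefficient ring. -/
def rX (K : Type*) [CommSemiring K] (s : PVar p N) : Pol K p N := X (Sum.inl s.1)

theorem rX_mem (s : PVar p N) : rX K s ∈ Rs K p N :=
  Algebra.subset_adjoin ⟨_, ⟨s.1.1, s.1.2, s.2, rfl⟩, rfl⟩

theorem del_pow_p (k : Fin N) (r : Pol K p N) : del k (r ^ p) = 0 := by
  rw [Derivation.leibniz_pow, ← Nat.cast_smul_eq_nsmul K, CharP.cast_eq_zero, zero_smul]

variable (f : Fin N → MvPolynomial (Fin N) K) {m : ℕ}

/-- The base ring inside the polynomial ring. -/
def base (v : Fin m → Fin N → K) : Base K p N m →ₐ[K] Pol K p N :=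
  aeval (Sum.elim (fun s => rX K s ^ p) (fun j => zetav f (v j)))

theorem del_zeta (k j : Fin N) : del k (zeta (p := p) f j) = 0 := by
  rw [zeta, map_add, del_pow_p, del_pow_p, add_zero]

theorem delv_base (v : Fin m → Fin N → K) (w : Fin N → K) (c : Base K p N m) :
    delv w (base f v c) = 0 := by
  have h : ∀ k, del k (base f v c) = 0 := by
    intro k
    induction c using MvPolynomial.induction_on with
    | C a => rw [← algebraMap_eq, AlgHom.commutes, Derivation.map_algebraMap]
    | add x y hx hy => rw [map_add, map_add, hx, hy, add_zero]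
    | mul_X q s hq =>
      rw [map_mul, Derivation.leibniz, hq, smul_zero, add_zero]
      have : del k (base f v (X s)) = 0 := by
        rw [base, aeval_X]
        rcases s with s | j
        · exact del_pow_p k _
        · simp [zetav, del_zeta, Derivation.map_smul]
      rw [this, smul_zero]
  rw [delv_apply]
  simp [h]

theorem lop_comm_base (v : Fin m → Fin N → K) (w : Fin N → K) (c : Base K p N m) :
    lop (p := p) f w * mlt (base f v c) = mlt (base f v c) * lop f w := by
  rw [lop_mlt, delv_base, map_zero, add_zero]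

/-- The generators. -/
def gens (v : Fin m → Fin N → K) : Set (Op K p N) :=
  Set.range (fun s => mlt (rX K s)) ∪ Set.range (fun c => mlt (base f v c)) ∪
    Set.range (fun j => lop f (v j))

/-- The algebra. -/
def alg (v : Fin m → Fin N → K) : Subalgebra K (Op K p N) := Algebra.adjoin K (gens f v)

theorem base_mem_alg (v : Fin m → Fin N → K) (c : Base K p N m) : mlt (base f v c) ∈ alg f v :=
  Algebra.subset_adjoin (Or.inl (Or.inr ⟨c, rfl⟩))

theorem lop_mem_alg (v : Fin m → Fin N → K) (j : Fin m) : lop (p := p) f (v j) ∈ alg f v :=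
  Algebra.subset_adjoin (Or.inr ⟨j, rfl⟩)

theorem mlt_mem_alg (v : Fin m → Fin N → K) {r : Pol K p N} (hr : r ∈ Rs K p N) :
    mlt r ∈ alg f v := by
  induction hr using Algebra.adjoin_induction with
  | mem x hx =>
    obtain ⟨_, ⟨t, β, h, rfl⟩, rfl⟩ := hx
    exact Algebra.subset_adjoin (Or.inl (Or.inl ⟨⟨(t, β), h⟩, rfl⟩))
  | algebraMap a => rw [AlgHom.commutes]; exact Subalgebra.algebraMap_mem _ a
  | add x y _ _ hx hy => rw [map_add]; exact add_mem hx hy
  | mul x y _ _ hx hy => rw [map_mul]; exact mul_mem hx hy

theorem base_commute (v : Fin m → Fin N → K) (c : Base K p N m) {u : Op K p N}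
    (hu : u ∈ alg f v) : Commute (mlt (base f v c)) u := by
  induction hu using Algebra.adjoin_induction with
  | mem x hx =>
    rcases hx with (⟨s, rfl⟩ | ⟨c', rfl⟩) | ⟨j, rfl⟩
    · show mlt _ * mlt _ = mlt _ * mlt _
      rw [← map_mul, ← map_mul, mul_comm]
    · show mlt _ * mlt _ = mlt _ * mlt _
      rw [← map_mul (mlt (K := K) (p := p) (N := N)), ← map_mul (mlt (K := K) (p := p) (N := N)), mul_comm]
    · exact (lop_comm_base f v (v j) c).symm
  | algebraMap a => exact (Algebra.commutes a _).symm
  | add x y _ _ hx hy => exact hx.add_right hy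
  | mul x y _ _ hx hy => exact hx.mul_right hy

/-- Brackets with a twisted operator preserve the algebra. -/
theorem bracket_mem (v : Fin m → Fin N → K) (w : Fin N → K) {u : Op K p N} (hu : u ∈ alg f v) :
    lop f w * u - u * lop f w ∈ alg f v := by
  induction hu using Algebra.adjoin_induction with
  | mem x hx =>
    rcases hx with (⟨s, rfl⟩ | ⟨c, rfl⟩) | ⟨j, rfl⟩
    · rw [lop_mlt, add_sub_cancel_left]
      exact mlt_mem_alg f v (delv_mem_Rs w (rX_mem s))
    · rw [lop_comm_base, sub_self]; exact zero_mem _
    · rw [lop_lop f w (v j), add_sub_cancel_left]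
      exact mlt_mem_alg f v (curv_mem f _ _)
  | algebraMap a => rw [← Algebra.commutes, sub_self]; exact zero_mem _
  | add x y _ _ hx hy =>
    rw [mul_add, add_mul, add_sub_add_comm]
    exact add_mem hx hy
  | mul x y hx' hy' hx hy =>
    have e : lop f w * (x * y) - x * y * lop f w =
        (lop f w * x - x * lop f w) * y + x * (lop f w * y - y * lop f w) := by
      simp only [mul_sub, sub_mul, mul_assoc]; abel
    rw [e]
    exact add_mem (mul_mem hx hy') (mul_mem hx' hy)

/-- Ordered products of powers of the operators. -/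
def lmon : ∀ {m : ℕ}, (Fin m → Fin N → K) → (Fin m → Fin p) → Op K p N
  | 0, _, _ => 1
  | m + 1, v, a => lmon (fun j : Fin m => v j.castSucc) (fun j => a j.castSucc) *
      lop f (v (Fin.last m)) ^ (a (Fin.last m) : ℕ)

/-- Monomials of the coefficient ring with exponents below `p`. -/
def xb (K : Type*) [CommSemiring K] (b : PVar p N → Fin p) : Pol K p N :=
  ∏ s, rX K s ^ (b s : ℕ)

/-- The index of the basis. -/
abbrev Idx (p N m : ℕ) : Type := (PVar p N → Fin p) × (Fin m → Fin p)

/-- The basis elements. -/
def gen (v : Fin m → Fin N → K) (x : Idx p N m) : Op K p N := mlt (xb K x.1) * lmon f v x.2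

/-- The combinations of the basis elements. -/
def spanW (v : Fin m → Fin N → K) : Submodule K (Op K p N) :=
  Submodule.span K (Set.range fun q : Base K p N m × Idx p N m => mlt (base f v q.1) * gen f v q.2)

theorem lmon_mem_alg : ∀ {m : ℕ} (v : Fin m → Fin N → K) (a : Fin m → Fin p),
    lmon f v a ∈ alg f v
  | 0, v, a => one_mem _
  | m + 1, v, a => by
    refine mul_mem ?_ (pow_mem (lop_mem_alg f v _) _)
    have h : alg (p := p) f (fun j : Fin m => v j.castSucc) ≤ alg f v := by
      refine Algebra.adjoin_le ?_
      rintro _ ((⟨s, rfl⟩ | ⟨c, rfl⟩) | ⟨j, rfl⟩)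
      · exact Algebra.subset_adjoin (Or.inl (Or.inl ⟨s, rfl⟩))
      · refine Algebra.subset_adjoin (Or.inl (Or.inr ⟨rename (Sum.map id Fin.castSucc) c, ?_⟩))
        show mlt _ = mlt _
        congr 1
        rw [base, aeval_rename]
        congr 2
        funext s
        rcases s with s | j <;> rfl
      · exact lop_mem_alg f v j.castSucc
    exact h (lmon_mem_alg _ _)

theorem gen_mem_alg (v : Fin m → Fin N → K) (x : Idx p N m) : gen f v x ∈ alg f v :=
  mul_mem (mlt_mem_alg f v (prod_mem fun s _ => pow_mem (rX_mem s) _)) (lmon_mem_alg f v x.2)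

theorem base_mul_spanW (v : Fin m → Fin N → K) (c : Base K p N m) {u : Op K p N}
    (hu : u ∈ spanW f v) : mlt (base f v c) * u ∈ spanW f v := by
  induction hu using Submodule.span_induction with
  | mem x hx =>
    obtain ⟨⟨c', x⟩, rfl⟩ := hx
    refine Submodule.subset_span ⟨(c * c', x), ?_⟩
    show mlt (base f v (c * c')) * _ = mlt (base f v c) * (mlt (base f v c') * _)
    rw [map_mul, map_mul, mul_assoc]
  | zero => simp
  | add x y _ _ hx hy => rw [mul_add]; exact add_mem hx hy
  | smul a x _ hx => rw [mul_smul_comm]; exact Submodule.smul_mem _ a hx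

theorem rX_mul_spanW (v : Fin m → Fin N → K) (s : PVar p N) {u : Op K p N}
    (hu : u ∈ spanW f v) : mlt (rX K s) * u ∈ spanW f v := by
  classical
  induction hu using Submodule.span_induction with
  | mem x hx =>
    obtain ⟨⟨c, b, a⟩, rfl⟩ := hx
    show mlt (rX K s) * (mlt (base f v c) * (mlt (xb K b) * lmon f v a)) ∈ _
    rw [← mul_assoc, ← mul_assoc, ← map_mul, ← map_mul]
    by_cases hb : (b s : ℕ) + 1 < p
    · refine Submodule.subset_span ⟨(c, Function.update b s ⟨(b s : ℕ) + 1, hb⟩, a), ?_⟩
      show mlt (base f v c) * (mlt (xb K (Function.update b s ⟨(b s : ℕ) + 1, hb⟩)) * lmon f v a) = _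
      rw [← mul_assoc, ← map_mul]
      congr 2
      unfold xb
      rw [← Finset.mul_prod_erase _ _ (Finset.mem_univ s),
        ← Finset.mul_prod_erase _ (fun t => rX K t ^ (b t : ℕ)) (Finset.mem_univ s),
        Finset.prod_congr rfl fun t ht => by rw [Function.update_of_ne (Finset.ne_of_mem_erase ht)]]
      simp only [Function.update_self]
      ring
    · refine Submodule.subset_span ⟨(c * X (Sum.inl s), Function.update b s 0, a), ?_⟩
      show mlt (base f v (c * X (Sum.inl s))) * (mlt (xb K (Function.update b s 0)) * lmon f v a) = _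
      rw [← mul_assoc, ← map_mul]
      congr 2
      unfold xb
      rw [map_mul, ← Finset.mul_prod_erase _ _ (Finset.mem_univ s),
        ← Finset.mul_prod_erase _ (fun t => rX K t ^ (b t : ℕ)) (Finset.mem_univ s),
        Finset.prod_congr rfl fun t ht => by rw [Function.update_of_ne (Finset.ne_of_mem_erase ht)]]
      simp only [Function.update_self, Fin.val_zero, pow_zero, one_mul]
      have hs : rX K s ^ p = rX K s * rX K s ^ (b s : ℕ) := by
        rw [← pow_succ']
        congr 1
        have := (b s).2
        omega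
      rw [base, aeval_X, Sum.elim_inl, hs]
      ring
  | zero => simp
  | add x y _ _ hx hy => rw [mul_add]; exact add_mem hx hy
  | smul a x _ hx => rw [mul_smul_comm]; exact Submodule.smul_mem _ a hx

theorem mem_spanW_of_closed {v : Fin m → Fin N → K}
    (h1 : ∀ j, ∀ u ∈ spanW f v, lop f (v j) * u ∈ spanW (p := p) f v)
    (hone : (1 : Op K p N) ∈ spanW f v) {x : Op K p N} (hx : x ∈ alg f v) :
    ∀ u ∈ spanW f v, x * u ∈ spanW f v := by
  induction hx using Algebra.adjoin_induction with
  | mem x hx =>
    rcases hx with (⟨s, rfl⟩ | ⟨c, rfl⟩) | ⟨j, rfl⟩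
    · exact fun u hu => rX_mul_spanW f v s hu
    · exact fun u hu => base_mul_spanW f v c hu
    · exact h1 j
  | algebraMap a =>
    intro u hu
    rw [← Algebra.smul_def]
    exact Submodule.smul_mem _ a hu
  | add x y _ _ hx hy => intro u hu; rw [add_mul]; exact add_mem (hx u hu) (hy u hu)
  | mul x y _ _ hx hy => intro u hu; rw [mul_assoc]; exact hx _ (hy u hu)

theorem one_mem_spanW : ∀ {m : ℕ} (v : Fin m → Fin N → K), (1 : Op K p N) ∈ spanW f v := by
  intro m v
  refine Submodule.subset_span ⟨(1, fun _ => 0, fun _ => 0), ?_⟩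
  have h : ∀ {m : ℕ} (v : Fin m → Fin N → K), lmon (p := p) f v (fun _ => 0) = 1 := by
    intro m
    induction m with
    | zero => intro v; rfl
    | succ m ih => intro v; simp [lmon, ih]
  simp [gen, xb, h]

theorem alg_le_spanW (hf : ∀ t, (f t).IsHomogeneous p) : ∀ {m : ℕ} (v : Fin m → Fin N → K),
    ∀ x ∈ alg (p := p) f v, x ∈ spanW f v := by
  intro m
  induction m with
  | zero =>
    intro v x hx
    have := mem_spanW_of_closed f (fun j => j.elim0) (one_mem_spanW f v) hx 1 (one_mem_spanW f v)
    rwa [mul_one] at this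
  | succ m ih =>
    intro v
    set v' : Fin m → Fin N → K := fun j => v j.castSucc
    set T : Op K p N := lop f (v (Fin.last m))
    have hle : alg (p := p) f v' ≤ alg f v := by
      refine Algebra.adjoin_le ?_
      rintro _ ((⟨s, rfl⟩ | ⟨c, rfl⟩) | ⟨j, rfl⟩)
      · exact Algebra.subset_adjoin (Or.inl (Or.inl ⟨s, rfl⟩))
      · refine Algebra.subset_adjoin (Or.inl (Or.inr ⟨rename (Sum.map id Fin.castSucc) c, ?_⟩))
        show mlt _ = mlt _
        congr 1
        rw [base, aeval_rename]
        congr 2
        funext s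
        rcases s with s | j <;> rfl
      · exact lop_mem_alg f v j.castSucc
    have hbase' : ∀ c, ∃ c', base f v c' = base (p := p) f v' c := fun c =>
      ⟨rename (Sum.map id Fin.castSucc) c, by
        rw [base, aeval_rename]
        congr 2
        funext s
        rcases s with s | j <;> rfl⟩
    have hpiece : ∀ u ∈ alg f v', ∀ i : ℕ, i < p → u * T ^ i ∈ spanW (p := p) f v := by
      intro u hu i hi
      have hu' := ih v' u hu
      clear hu
      induction hu' using Submodule.span_induction with
      | mem x hx =>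
        obtain ⟨⟨c, b, a⟩, rfl⟩ := hx
        obtain ⟨c', hc'⟩ := hbase' c
        refine Submodule.subset_span ⟨(c', b, Fin.snoc a ⟨i, hi⟩), ?_⟩
        show mlt (base f v c') * (mlt (xb K b) * lmon f v (Fin.snoc a ⟨i, hi⟩)) = _
        rw [hc', lmon]
        simp [gen, v', T, mul_assoc]
      | zero => simp
      | add x y _ _ hx hy => rw [add_mul]; exact add_mem hx hy
      | smul a x _ hx => rw [smul_mul_assoc]; exact Submodule.smul_mem _ a hx
    have hT : T ^ p = mlt (Fv f (v (Fin.last m))) * mlt 1 + mlt (base f v (X (Sum.inr (Fin.last m)))) := by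
      rw [map_one, mul_one, ← map_add, lop_pow f hf, base, aeval_X, Sum.elim_inr]
    have hFv : Fv (p := p) f (v (Fin.last m)) ∈ Rs K p N :=
      sum_mem fun t _ => Subalgebra.smul_mem _ (tX_mem_Rs t) _
    have hclosed : ∀ j, ∀ u ∈ spanW f v, lop f (v j) * u ∈ spanW (p := p) f v := by
      intro j u hu
      induction hu using Submodule.span_induction with
      | mem x hx =>
        obtain ⟨⟨c, b, a⟩, rfl⟩ := hx
        show lop f (v j) * (mlt (base f v c) * (mlt (xb K b) * lmon f v a)) ∈ _
        rw [← mul_assoc, lop_comm_base, mul_assoc, lmon, ← mul_assoc (mlt (xb K b))]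
        refine base_mul_spanW f v c ?_
        set u' := mlt (xb K b) * lmon f v' (fun i => a i.castSucc)
        have hu' : u' ∈ alg f v' := gen_mem_alg f v' (b, fun i => a i.castSucc)
        induction j using Fin.lastCases with
        | cast j =>
          rw [← mul_assoc]
          exact hpiece _ (mul_mem (lop_mem_alg f v' j) hu') _ (a (Fin.last m)).2
        | last =>
          have e : T * (u' * T ^ (a (Fin.last m) : ℕ)) = u' * T ^ ((a (Fin.last m) : ℕ) + 1) +
              (T * u' - u' * T) * T ^ (a (Fin.last m) : ℕ) := by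
            rw [pow_succ', sub_mul]; simp only [mul_assoc]; abel
          rw [e]
          refine add_mem ?_ (hpiece _ (bracket_mem f v' _ hu') _ (a (Fin.last m)).2)
          by_cases h : (a (Fin.last m) : ℕ) + 1 < p
          · exact hpiece _ hu' _ h
          · have h' : (a (Fin.last m) : ℕ) + 1 = p := by have := (a (Fin.last m)).2; omega
            rw [h', hT, map_one, mul_one, mul_add,
              ← (base_commute f v (X (Sum.inr (Fin.last m))) (hle hu')).eq]
            refine add_mem ?_ (base_mul_spanW f v _ ?_)
            · simpa using hpiece _ (mul_mem hu' (mlt_mem_alg f v' hFv)) 0 hp.1.pos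
            · simpa using hpiece _ hu' 0 hp.1.pos
      | zero => simp
      | add x y _ _ hx hy => rw [mul_add]; exact add_mem hx hy
      | smul a x _ hx => rw [mul_smul_comm]; exact Submodule.smul_mem _ a hx
    intro x hx
    have := mem_spanW_of_closed f hclosed (one_mem_spanW f v) hx 1 (one_mem_spanW f v)
    rwa [mul_one] at this

/-- Independence of the powers of an operator over elements commuting with a variable. -/
theorem pow_indep {E : Type*} [Ring E] (y T : E) (hT : T * y = y * T + 1) :
    ∀ (k : ℕ), (∀ i, 0 < i → i < k → IsUnit (i : E)) → ∀ P : ℕ → E, (∀ i, Commute (P i) y) →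
      ∑ i ∈ Finset.range k, P i * T ^ i = 0 → ∀ i < k, P i = 0 := by
  have hpow : ∀ i : ℕ, T ^ (i + 1) * y = y * T ^ (i + 1) + ((i + 1 : ℕ) : E) * T ^ i := by
    intro i
    induction i with
    | zero => simpa using hT
    | succ i ih =>
      rw [pow_succ' T (i + 1), mul_assoc, ih, mul_add, ← mul_assoc T y, hT, ← mul_assoc T,
        ← (Nat.cast_commute (i + 1) T).eq, mul_assoc _ T, ← pow_succ', Nat.cast_add_one (i + 1),
        add_mul, add_mul, one_mul]
      simp only [one_mul, mul_assoc, ← pow_succ']
      abel
  intro k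
  induction k with
  | zero => intro _ _ _ _ i hi; omega
  | succ k ih =>
    intro hu P hc h i hi
    have hd : ∑ i ∈ Finset.range k, P (i + 1) * ((i + 1 : ℕ) : E) * T ^ i = 0 := by
      have h1 : (∑ i ∈ Finset.range (k + 1), P i * T ^ i) * y -
          y * (∑ i ∈ Finset.range (k + 1), P i * T ^ i) = 0 := by rw [h]; simp
      rw [Finset.sum_range_succ', pow_zero, mul_one, add_mul, mul_add, (hc 0).eq, Finset.sum_mul,
        Finset.mul_sum, add_sub_add_right_eq_sub, ← Finset.sum_sub_distrib] at h1
      rw [← h1]
      refine Finset.sum_congr rfl fun i _ => ?_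
      rw [mul_assoc (P (i + 1)) _ y, hpow, mul_add, ← mul_assoc y, ← mul_assoc (P (i + 1)) y,
        (hc (i + 1)).eq, add_sub_cancel_left, mul_assoc]
    have hz := ih (fun i h0 hi => hu i h0 (by omega)) (fun i => P (i + 1) * ((i + 1 : ℕ) : E))
      (fun i => (hc _).mul_left (Nat.cast_commute (i + 1) y)) hd
    have hs : ∀ i < k, P (i + 1) = 0 := fun i hik =>
      (hu (i + 1) (by omega) (by omega)).mul_left_eq_zero.1 (hz i hik)
    cases i with
    | zero =>
      rw [Finset.sum_range_succ', Finset.sum_eq_zero fun i hi => by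
        rw [hs i (Finset.mem_range.1 hi), zero_mul]] at h
      simpa using h
    | succ i => exact hs i (by omega)

theorem lmon_indep : ∀ {m : ℕ} (v : Fin m → Fin N → K), LinearIndependent K v →
    ∀ r : (Fin m → Fin p) → Pol K p N, ∑ a, mlt (r a) * lmon f v a = 0 → ∀ a, r a = 0 := by
  intro m
  induction m with
  | zero =>
    intro v _ r h a
    rw [Finset.sum_eq_single a (fun b _ hb => absurd (funext fun i => i.elim0) hb)
      (fun ha => absurd (Finset.mem_univ a) ha)] at h
    simp only [lmon, mul_one] at h
    exact mlt_injective (h.trans (map_zero _).symm)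
  | succ m ih =>
    intro v hv r h
    have hv' : LinearIndependent K (fun j : Fin m => v j.castSucc) :=
      hv.comp _ (Fin.castSucc_injective m)
    obtain ⟨A, hA⟩ := LinearMap.exists_leftInverse_of_injective (Fintype.linearCombination K v)
      (LinearMap.ker_eq_bot.2 hv.fintypeLinearCombination_injective)
    let c : Fin N → K := fun k => A (Pi.single k 1) (Fin.last m)
    let y : Pol K p N := ∑ k, c k • yX K p k
    have hy : ∀ j, delv (v j) y = algebraMap K _ (if j = Fin.last m then 1 else 0) := by
      intro j
      have e : A (v j) (Fin.last m) = if j = Fin.last m then 1 else 0 := by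
        have := congrFun (LinearMap.congr_fun hA (Pi.single j 1)) (Fin.last m)
        simpa [Pi.single_apply, eq_comm] using this
      have e2 : A (v j) (Fin.last m) = ∑ k, v j k * c k := by
        conv_lhs => rw [pi_eq_sum_univ' (v j), map_sum]
        simp [c, Finset.sum_apply]
      rw [← e, e2, delv_apply, map_sum]
      refine Finset.sum_congr rfl fun k _ => ?_
      simp [y, Derivation.map_smul, del_yX, Algebra.smul_def, mul_comm]
    have hTy : lop (p := p) f (v (Fin.last m)) * mlt y = mlt y * lop f (v (Fin.last m)) + 1 := by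
      rw [lop_mlt, hy, if_pos rfl, map_one, map_one]
    have hlmon : ∀ a, Commute (lmon (p := p) f (fun j : Fin m => v j.castSucc) a) (mlt y) := by
      have key : ∀ {k : ℕ} (w : Fin k → Fin N → K), (∀ j, delv (p := p) (w j) y = 0) →
          ∀ a, Commute (lmon (p := p) f w a) (mlt y) := by
        intro k
        induction k with
        | zero => intro w _ a; exact Commute.one_left _
        | succ k ihk =>
          intro w hw a
          refine (ihk _ (fun j => hw _) _).mul_left (Commute.pow_left ?_ _)
          rw [Commute, SemiconjBy, lop_mlt, hw, map_zero, add_zero]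
      exact key _ fun j => by rw [hy, if_neg (Fin.castSucc_lt_last j).ne, map_zero]
    let P : ℕ → Op K p N := fun i => if hi : i < p then
      ∑ a : Fin m → Fin p, mlt (r (Fin.snoc a ⟨i, hi⟩)) * lmon f (fun j : Fin m => v j.castSucc) a
      else 0
    have hPc : ∀ i, Commute (P i) (mlt y) := by
      intro i
      simp only [P]
      split_ifs
      · exact Commute.sum_left _ _ _ fun a _ => Commute.mul_left
          (by rw [Commute, SemiconjBy, ← map_mul, ← map_mul, mul_comm]) (hlmon a)
      · exact Commute.zero_left _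
    have hsum : ∑ i ∈ Finset.range p, P i * lop f (v (Fin.last m)) ^ i = 0 := by
      rw [← Fin.sum_univ_eq_sum_range (fun i => P i * lop f (v (Fin.last m)) ^ i) p]
      rw [← (Fin.snocEquiv fun _ => Fin p).sum_comp, Fintype.sum_prod_type] at h
      rw [← h]
      refine Finset.sum_congr rfl fun i _ => ?_
      simp only [P, dif_pos i.2, Finset.sum_mul]
      refine Finset.sum_congr rfl fun a _ => ?_
      simp [lmon, Fin.snocEquiv, mul_assoc]
    have hunit : ∀ i, 0 < i → i < p → IsUnit ((i : ℕ) : Op K p N) := by
      intro i h0 hi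
      have : IsUnit (i : K) := by
        rw [isUnit_iff_ne_zero, Ne, CharP.cast_eq_zero_iff K p]
        exact fun hd => by have := Nat.le_of_dvd h0 hd; omega
      simpa using this.map (algebraMap K (Op K p N))
    intro a
    have h0 := pow_indep (mlt y) (lop f (v (Fin.last m))) hTy p hunit P hPc hsum _ (a (Fin.last m)).2
    simp only [P, dif_pos (a (Fin.last m)).2] at h0
    have := ih _ hv' (fun a' => r (Fin.snoc a' (a (Fin.last m)))) h0 (fun j => a j.castSucc)
    simpa [Fin.snoc_init_self] using (show r (Fin.snoc (Fin.init a) (a (Fin.last m))) = 0 from this)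

theorem base_indep (v : Fin m → Fin N → K) (hv : LinearIndependent K v)
    (c : (PVar p N → Fin p) → Base K p N m) (h : ∑ b, base f v (c b) * xb K b = 0) :
    ∀ b, c b = 0 := by
  classical
  obtain ⟨A, hA⟩ := LinearMap.exists_leftInverse_of_injective (Fintype.linearCombination K v)
    (LinearMap.ker_eq_bot.2 hv.fintypeLinearCombination_injective)
  let g : VS p N → Base K p N m := Sum.elim
    (fun s => if hs : lev s.2 + 1 < p then X (Sum.inl ⟨s, hs⟩) else 0)
    (Sum.elim (fun _ => 0) (fun k => ∑ i, A (Pi.single k 1) i • X (Sum.inr i)))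
  let ψ : Pol K p N →ₐ[K] Base K p N m := aeval g
  have hψX : ∀ s, ψ (rX K s) = X (Sum.inl s) := by
    intro s
    simp [ψ, rX, g, s.2]
  have hψphi : ∀ k, ψ (phi f k) = 0 := by
    intro k
    simp only [phi, map_neg, map_sum, neg_eq_zero]
    refine Finset.sum_eq_zero fun t _ => Finset.sum_eq_zero fun α _ => ?_
    split_ifs with hα
    · have := (lev_lowExp (p := p) hα.2.1 hα.2.2).2
      simp [ψ, vX, g, show ¬ lev (lowExp (p := p) k α) + 1 < p by omega]
    · exact map_zero _
  have hψz : ∀ j, ψ (zetav f (v j)) = (X (Sum.inr j) : Base K p N m) ^ p := by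
    intro j
    have e : A (v j) = Pi.single j 1 := by
      have := LinearMap.congr_fun hA (Pi.single j 1)
      simpa using this
    have e1 : ψ (∑ k, v j k • zX K p k) = X (Sum.inr j) := by
      simp only [map_sum, map_smul]
      have : ∀ k, ψ (zX K p k) = ∑ i, A (Pi.single k 1) i • X (Sum.inr i) := fun k => by
        simp [ψ, zX, g]
      simp only [this, Finset.smul_sum, smul_smul]
      rw [Finset.sum_comm]
      simp only [← Finset.sum_smul]
      rw [Finset.sum_eq_single j]
      · have e3 : ∑ k, v j k * A (Pi.single k 1) j = A (v j) j := by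
          conv_rhs => rw [pi_eq_sum_univ' (v j), map_sum]
          simp [Finset.sum_apply]
        rw [e3, e, Pi.single_eq_same, one_smul]
      · intro i _ hi
        have e3 : ∑ k, v j k * A (Pi.single k 1) i = A (v j) i := by
          conv_rhs => rw [pi_eq_sum_univ' (v j), map_sum]
          simp [Finset.sum_apply]
        rw [e3, e, Pi.single_eq_of_ne hi, zero_smul]
      · simp
    rw [← e1, map_sum, sum_pow_char, zetav, map_sum]
    refine Finset.sum_congr rfl fun k _ => ?_
    rw [map_smul, map_smul, smul_pow, zeta, map_add, map_pow, map_pow, hψphi,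
      zero_pow hp.1.ne_zero, add_zero]
  have hψbase : ∀ c, ψ (base f v c) = expand p c := by
    intro c
    rw [base, ← AlgHom.comp_apply, comp_aeval]
    congr 1
    refine algHom_ext fun s => ?_
    rcases s with s | j
    · rw [aeval_X, expand_X]; simp [hψX]
    · rw [aeval_X, expand_X]; simp [hψz]
  let ee : (PVar p N → Fin p) → (PVar p N ⊕ Fin m →₀ ℕ) :=
    fun b => ∑ s, Finsupp.single (Sum.inl s) (b s : ℕ)
  have hee : ∀ b s, ee b s = Sum.elim (fun t => (b t : ℕ)) (fun _ => 0) s := by
    intro b s
    simp only [ee, Finsupp.finsetSum_apply, Finsupp.single_apply]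
    rcases s with t | j
    · simp [Finset.sum_ite_eq']
    · simp
  have h' : ∑ b, expand p (c b) * monomial (ee b) 1 = 0 := by
    have h1 := congrArg ψ h
    rw [map_sum, map_zero] at h1
    rw [← h1]
    refine Finset.sum_congr rfl fun b _ => ?_
    rw [map_mul, hψbase]
    congr 1
    simp only [xb, map_prod, map_pow, hψX, ee, monomial_sum_one]
    exact Finset.prod_congr rfl fun s _ => by rw [X_pow_eq_monomial]
  intro b
  ext d
  rw [coeff_zero]
  have h2 := congrArg (coeff (p • d + ee b)) h'
  rw [coeff_sum, coeff_zero, Finset.sum_eq_single b] at h2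
  · rwa [coeff_mul_monomial, mul_one, coeff_expand_smul _ hp.1.ne_zero] at h2
  · intro b' _ hb'
    rw [coeff_mul_monomial', mul_one]
    split_ifs with hle
    · obtain ⟨s0, hs0⟩ : ∃ i, ¬ p ∣ (p • d + ee b - ee b') i := by
        by_contra hall
        apply hb'
        funext s
        have hs : p ∣ (p • d + ee b - ee b') (Sum.inl s) := by
          by_contra hh
          exact hall ⟨_, hh⟩
        have hle' := hle (Sum.inl s)
        simp only [Finsupp.tsub_apply, Finsupp.add_apply, Finsupp.smul_apply, smul_eq_mul, hee,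
          Sum.elim_inl] at hs hle'
        obtain ⟨q, hq⟩ := hs
        refine Fin.ext ?_
        have e1 : (b' s : ℕ) + p * q = p * d (Sum.inl s) + b s := by omega
        have e2 := congrArg (· % p) e1
        simpa [Nat.add_mul_mod_self_left, Nat.mod_eq_of_lt (b s).2, Nat.mod_eq_of_lt (b' s).2,
          Nat.add_comm (p * d (Sum.inl s))] using e2
      exact coeff_expand_of_not_dvd _ hs0
    · rfl
  · simp

instance algebraBase (v : Fin m → Fin N → K) : Algebra (Base K p N m) (alg (p := p) f v) :=
  RingHom.toAlgebra' (((mlt.comp (base f v)).codRestrict (alg f v) (base_mem_alg f v)).toRingHom)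
    fun c u => Subtype.ext (base_commute f v c u.2).eq

theorem smul_coe (v : Fin m → Fin N → K) (c : Base K p N m) (u : alg (p := p) f v) :
    ((c • u : alg f v) : Op K p N) = mlt (base f v c) * u := rfl

/-- The basis elements as members of the algebra. -/
def gvec (v : Fin m → Fin N → K) (x : Idx p N m) : alg (p := p) f v := ⟨gen f v x, gen_mem_alg f v x⟩

theorem gvec_li (v : Fin m → Fin N → K) (hv : LinearIndependent K v)
    (g g' : Idx p N m → Base K p N m) (hg : ∑ x, g x • gvec f v x = ∑ x, g' x • gvec f v x) :
    ∀ x, g x = g' x := by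
  have h : ∑ x, mlt (base f v (g x - g' x)) * gen f v x = 0 := by
    have h0 := congrArg (alg (p := p) f v).val hg
    rw [map_sum, map_sum] at h0
    simp only [map_sub, sub_mul, Finset.sum_sub_distrib]
    exact sub_eq_zero.2 h0
  have h1 : ∑ a, mlt (∑ b, base f v (g (b, a) - g' (b, a)) * xb K b) * lmon f v a = 0 := by
    rw [Fintype.sum_prod_type, Finset.sum_comm] at h
    rw [← h]
    refine Finset.sum_congr rfl fun a _ => ?_
    simp only [map_sum, Finset.sum_mul, map_mul, mul_assoc, gen]
  rintro ⟨b, a⟩
  exact sub_eq_zero.1 (base_indep f v hv (fun b => g (b, a) - g' (b, a)) (lmon_indep f v hv _ h1 a) b)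

theorem exists_coe_of_mem_spanW (v : Fin m → Fin N → K) {u : Op K p N} (hu : u ∈ spanW f v) :
    ∃ w : alg (p := p) f v, w ∈ Submodule.span (Base K p N m) (Set.range (gvec f v)) ∧
      (w : Op K p N) = u := by
  induction hu using Submodule.span_induction with
  | mem x hx =>
    obtain ⟨⟨c, x⟩, rfl⟩ := hx
    exact ⟨c • gvec f v x, Submodule.smul_mem _ c (Submodule.subset_span ⟨x, rfl⟩), rfl⟩
  | zero => exact ⟨0, zero_mem _, rfl⟩
  | add x y _ _ hx hy =>
    obtain ⟨w, hw, rfl⟩ := hx
    obtain ⟨w', hw', rfl⟩ := hy
    exact ⟨w + w', add_mem hw hw', rfl⟩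
  | smul a x _ hx =>
    obtain ⟨w, hw, rfl⟩ := hx
    refine ⟨algebraMap K (Base K p N m) a • w, Submodule.smul_mem _ _ hw, ?_⟩
    rw [smul_coe, AlgHom.commutes, AlgHom.commutes, Algebra.smul_def]

theorem gvec_span (hf : ∀ t, (f t).IsHomogeneous p) (v : Fin m → Fin N → K) :
    ⊤ ≤ Submodule.span (Base K p N m) (Set.range (gvec (p := p) f v)) := by
  rintro u -
  obtain ⟨w, hw, he⟩ := exists_coe_of_mem_spanW f v (alg_le_spanW f hf v u u.2)
  rwa [← Subtype.ext he]

/-- The basis of the algebra over the base ring. -/
def genBasis (hf : ∀ t, (f t).IsHomogeneous p) (v : Fin m → Fin N → K)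
    (hv : LinearIndependent K v) : Module.Basis (Idx p N m) (Base K p N m) (alg (p := p) f v) :=
  Module.Basis.mk (Fintype.linearIndependent_iffₛ.2 fun g g' hg => gvec_li f v hv g g' hg) (gvec_span f hf v)

end Vale.Agent.P200d
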