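import Vale.Agent.P200d.Alg

/-!
Change of base for the twisted algebra, its augmentation, and nilpotence of the augmentation ideal
over the residue field.
-/

noncomputable section

namespace Vale.Agent.P200d

open MvPolynomial TensorProduct

section Lift

variable {R A U C : Type*} [CommRing R] [CommRing A] [Ring U] [Ring C] [Algebra R A] [Algebra R U]

/-- A homomorphism out of a change of base. -/
def bcLift (a : A →+* C) (b : U →+* C) (h : ∀ r, a (algebraMap R A r) = b (algebraMap R U r))
    (hc : ∀ r c, Commute (a (algebraMap R A r)) c) (comm : ∀ x y, Commute (a x) (b y)) :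
    A ⊗[R] U →+* C :=
  letI : Algebra R C := (a.comp (algebraMap R A)).toAlgebra' fun r c => hc r c
  (Algebra.TensorProduct.lift (S := R) (⟨a, fun _ => rfl⟩ : A →ₐ[R] C)
    (⟨b, fun r => (h r).symm⟩ : U →ₐ[R] C) comm).toRingHom

theorem bcLift_tmul (a : A →+* C) (b : U →+* C) (h : ∀ r, a (algebraMap R A r) = b (algebraMap R U r))
    (hc : ∀ r c, Commute (a (algebraMap R A r)) c) (comm : ∀ x y, Commute (a x) (b y)) (x : A) (y : U) :
    bcLift a b h hc comm (x ⊗ₜ[R] y) = a x * b y := by
  simp [bcLift]

theorem bc_ext {g g' : A ⊗[R] U →+* C} (ha : ∀ x, g (x ⊗ₜ[R] 1) = g' (x ⊗ₜ[R] 1))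
    (hb : ∀ y, g (1 ⊗ₜ[R] y) = g' (1 ⊗ₜ[R] y)) : g = g' := by
  refine RingHom.ext fun z => ?_
  induction z using TensorProduct.induction_on with
  | zero => rw [map_zero, map_zero]
  | tmul x y =>
    have e : (x ⊗ₜ[R] y : A ⊗[R] U) = (x ⊗ₜ[R] 1) * (1 ⊗ₜ[R] y) := by
      rw [Algebra.TensorProduct.tmul_mul_tmul, mul_one, one_mul]
    rw [e, map_mul, map_mul, ha, hb]
  | add z z' hz hz' => rw [map_add, map_add, hz, hz']

theorem bc_commute_left (x : A) (z : A ⊗[R] U) : Commute (x ⊗ₜ[R] (1 : U)) z := by
  induction z using TensorProduct.induction_on with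
  | zero => exact Commute.zero_right _
  | tmul a u =>
    rw [Commute, SemiconjBy, Algebra.TensorProduct.tmul_mul_tmul, Algebra.TensorProduct.tmul_mul_tmul,
      one_mul, mul_one, mul_comm]
  | add z z' hz hz' => exact hz.add_right hz'

end Lift

variable {K : Type*} [Field K] {p N : ℕ} [hp : Fact p.Prime] [CharP K p]
  (f : Fin N → MvPolynomial (Fin N) K) {m : ℕ}

/-- The change of base of the twisted algebra. -/
abbrev BC (A : Type*) [CommRing A] [Algebra (Base K p N m) A] (v : Fin m → Fin N → K) : Type _ :=
  A ⊗[Base K p N m] alg (p := p) f v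

/-- The basis after a change of base. -/
def bcBasis (A : Type*) [CommRing A] [Algebra (Base K p N m) A] (hf : ∀ t, (f t).IsHomogeneous p)
    (v : Fin m → Fin N → K) (hv : LinearIndependent K v) :
    Module.Basis (Idx p N m) A (BC (p := p) f A v) :=
  Algebra.TensorProduct.basis A (genBasis f hf v hv)

theorem bcBasis_apply (A : Type*) [CommRing A] [Algebra (Base K p N m) A]
    (hf : ∀ t, (f t).IsHomogeneous p) (v : Fin m → Fin N → K) (hv : LinearIndependent K v)
    (x : Idx p N m) : bcBasis f A hf v hv x = 1 ⊗ₜ gvec f v x := by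
  rw [bcBasis, Algebra.TensorProduct.basis_apply]
  congr 1
  exact Module.Basis.mk_apply _ _ x

/-- The polynomials free of the coordinate variables. -/
def Sfree (K : Type*) [Field K] (p N : ℕ) : Subalgebra K (Pol K p N) :=
  supported K {s | ∀ j, s ≠ Sum.inr (Sum.inl j)}

theorem vX_free (t : Fin N) (β : Fin N → Fin p) : vX K t β ∈ Sfree K p N :=
  Algebra.subset_adjoin ⟨_, fun j => by simp, rfl⟩

theorem zX_free (j : Fin N) : zX K p j ∈ Sfree K p N :=
  Algebra.subset_adjoin ⟨_, fun j => by simp, rfl⟩

theorem phi_free (k : Fin N) : phi f k ∈ Sfree K p N := by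
  refine neg_mem (sum_mem fun t _ => sum_mem fun α _ => ?_)
  split_ifs
  · exact Subalgebra.smul_mem _ (vX_free _ _) _
  · exact zero_mem _

theorem constantCoeff_phi (k : Fin N) : constantCoeff (phi (p := p) f k) = 0 := by
  simp only [phi, map_neg, map_sum, neg_eq_zero]
  refine Finset.sum_eq_zero fun t _ => Finset.sum_eq_zero fun α _ => ?_
  split_ifs <;> simp [vX]

theorem del_free (k : Fin N) {x : Pol K p N} (hx : x ∈ Sfree K p N) :
    del k x ∈ Sfree K p N ∧ constantCoeff (del k x) = 0 := by
  induction hx using Algebra.adjoin_induction with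
  | mem x hx =>
    obtain ⟨s, hs, rfl⟩ := hx
    rcases s with ⟨t, β⟩ | j | j
    · show del k (vX K t β) ∈ _ ∧ constantCoeff (del k (vX K t β)) = 0
      by_cases h : lev β < p
      · rw [del_vX k t h]
        exact ⟨mul_mem (natCast_mem _ _) (vX_free _ _), by simp [vX]⟩
      · rw [del_vX_big k t h]
        exact ⟨zero_mem _, map_zero _⟩
    · exact absurd rfl (hs j)
    · show del k (zX K p j) ∈ _ ∧ constantCoeff (del k (zX K p j)) = 0
      rw [del_zX]
      exact ⟨zero_mem _, map_zero _⟩
  | algebraMap a => rw [Derivation.map_algebraMap]; exact ⟨zero_mem _, map_zero _⟩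
  | add x y _ _ hx hy =>
    rw [map_add]
    exact ⟨add_mem hx.1 hy.1, by rw [map_add, hx.2, hy.2, add_zero]⟩
  | mul x y hx hy hx' hy' =>
    rw [Derivation.leibniz, smul_eq_mul, smul_eq_mul]
    exact ⟨add_mem (mul_mem hx hy'.1) (mul_mem hy hx'.1),
      by rw [map_add, map_mul, map_mul, hx'.2, hy'.2, mul_zero, mul_zero, add_zero]⟩

theorem Rs_le_free : Rs K p N ≤ Sfree K p N :=
  Algebra.adjoin_mono (Set.image_mono fun s ⟨t, β, _, hs⟩ j => by rw [hs]; simp)

theorem base_free (v : Fin m → Fin N → K) (c : Base K p N m) :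
    base f v c ∈ Sfree K p N ∧ constantCoeff (base f v c) = constantCoeff c := by
  have hz : ∀ j, constantCoeff (zetav (p := p) f (v j)) = 0 ∧ zetav f (v j) ∈ Sfree K p N := by
    intro j
    refine ⟨?_, sum_mem fun k _ => Subalgebra.smul_mem _
      (add_mem (pow_mem (zX_free k) _) (pow_mem (phi_free f k) _)) _⟩
    simp [zetav, zeta, constantCoeff_phi, zX, hp.1.ne_zero]
  induction c using MvPolynomial.induction_on with
  | C a =>
    rw [← algebraMap_eq, AlgHom.commutes]
    exact ⟨Subalgebra.algebraMap_mem _ a, by simp⟩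
  | add x y hx hy =>
    rw [map_add]
    exact ⟨add_mem hx.1 hy.1, by rw [map_add, map_add, hx.2, hy.2]⟩
  | mul_X q s hq =>
    rw [map_mul, map_mul, map_mul, constantCoeff_X, mul_zero]
    have hs : base f v (X s) ∈ Sfree K p N ∧ constantCoeff (base f v (X s)) = 0 := by
      rw [base, aeval_X]
      rcases s with s | j
      · exact ⟨pow_mem (Rs_le_free (rX_mem s)) _, by simp [rX, hp.1.ne_zero]⟩
      · exact ⟨(hz j).2, (hz j).1⟩
    exact ⟨mul_mem hq.1 hs.1, by rw [hs.2, mul_zero]⟩

theorem alg_free (v : Fin m → Fin N → K) {u : Op K p N} (hu : u ∈ alg f v) :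
    ∀ x ∈ Sfree K p N, u x ∈ Sfree K p N ∧
      constantCoeff (u x) = constantCoeff (u 1) * constantCoeff x := by
  induction hu using Algebra.adjoin_induction with
  | mem u hu =>
    intro x hx
    rcases hu with (⟨s, rfl⟩ | ⟨c, rfl⟩) | ⟨j, rfl⟩
    · exact ⟨mul_mem (Rs_le_free (rX_mem s)) hx, by simp [mlt_apply]⟩
    · exact ⟨mul_mem (base_free f v c).1 hx, by simp [mlt_apply]⟩
    · have h1 : ∀ y ∈ Sfree K p N, lop f (v j) y ∈ Sfree K p N ∧
          constantCoeff (lop f (v j) y) = 0 := by
        intro y hy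
        have hpz : phiv f (v j) + zv (v j) ∈ Sfree K p N :=
          add_mem (sum_mem fun k _ => Subalgebra.smul_mem _ (phi_free f k) _)
            (sum_mem fun k _ => Subalgebra.smul_mem _ (zX_free k) _)
        have hd : delv (v j) y ∈ Sfree K p N ∧ constantCoeff (delv (v j) y) = 0 := by
          rw [delv_apply]
          refine ⟨sum_mem fun k _ => Subalgebra.smul_mem _ (del_free k hy).1 _, ?_⟩
          simp [(del_free _ hy).2]
        show delv (v j) y + (phiv f (v j) + zv (v j)) * y ∈ _ ∧
          constantCoeff (delv (v j) y + (phiv f (v j) + zv (v j)) * y) = 0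
        refine ⟨add_mem hd.1 (mul_mem hpz hy), ?_⟩
        simp [hd.2, phiv, zv, constantCoeff_phi, zX]
      exact ⟨(h1 x hx).1, by rw [(h1 x hx).2, (h1 1 (one_mem _)).2, zero_mul]⟩
  | algebraMap a =>
    intro x hx
    refine ⟨Subalgebra.smul_mem _ hx a, ?_⟩
    simp [Module.algebraMap_end_apply]
  | add u w _ _ hu hw =>
    intro x hx
    refine ⟨add_mem (hu x hx).1 (hw x hx).1, ?_⟩
    rw [LinearMap.add_apply, map_add, (hu x hx).2, (hw x hx).2, LinearMap.add_apply, map_add, add_mul]
  | mul u w _ _ hu hw =>
    intro x hx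
    refine ⟨(hu _ (hw x hx).1).1, ?_⟩
    rw [Module.End.mul_apply, Module.End.mul_apply, (hu _ (hw x hx).1).2,
      (hu _ (hw 1 (one_mem _)).1).2, (hw x hx).2, mul_assoc]

/-- The augmentation of the twisted algebra. -/
def epsAlg (v : Fin m → Fin N → K) : alg (p := p) f v →+* K where
  toFun u := constantCoeff ((u : Op K p N) 1)
  map_zero' := by simp
  map_one' := by simp
  map_add' u w := by simp
  map_mul' u w := by
    show constantCoeff ((u : Op K p N) ((w : Op K p N) 1)) = _
    exact (alg_free f v u.2 _ (alg_free f v w.2 1 (one_mem _)).1).2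

theorem epsAlg_algebraMap (v : Fin m → Fin N → K) (c : Base K p N m) :
    epsAlg f v (algebraMap _ _ c) = constantCoeff c := by
  show constantCoeff (mlt (base f v c) 1) = _
  rw [mlt_apply, mul_one, (base_free f v c).2]

theorem epsAlg_lop (v : Fin m → Fin N → K) (j : Fin m) :
    epsAlg (p := p) f v ⟨lop f (v j), lop_mem_alg f v j⟩ = 0 := by
  show constantCoeff (delv (v j) 1 + (phiv f (v j) + zv (v j)) * 1) = 0
  simp [phiv, zv, constantCoeff_phi, zX]

/-- The augmentation after a change of base. -/
def augBC {A : Type*} [CommRing A] [Algebra (Base K p N m) A] (εA : A →+* K)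
    (hε : ∀ c, εA (algebraMap (Base K p N m) A c) = constantCoeff c) (v : Fin m → Fin N → K) :
    BC (p := p) f A v →+* K :=
  bcLift (R := Base K p N m) (U := alg (p := p) f v) εA (epsAlg (p := p) f v) (fun c => (hε c).trans (epsAlg_algebraMap (p := p) f v c).symm) (fun _ _ => Commute.all _ _)
    (fun _ _ => Commute.all _ _)

theorem augBC_tmul {A : Type*} [CommRing A] [Algebra (Base K p N m) A] (εA : A →+* K)
    (hε : ∀ c, εA (algebraMap (Base K p N m) A c) = constantCoeff c) (v : Fin m → Fin N → K)
    (a : A) (u : alg (p := p) f v) :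
    augBC f εA hε v (a ⊗ₜ u) = εA a * epsAlg f v u := by
  unfold augBC
  rw [bcLift_tmul]

/-! ### Nilpotence over the residue field -/

/-- The residue field as an algebra over the base ring. -/
instance algResidue : Algebra (Base K p N m) K :=
  (constantCoeff : Base K p N m →+* K).toAlgebra

/-- The augmentation over the residue field. -/
def augRes (v : Fin m → Fin N → K) : BC (p := p) f K v →+* K :=
  augBC f (RingHom.id K) (fun _ => rfl) v

section Step

variable {F E : Type*} [Field F] [Ring E] [Algebra F E]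

/-- A subspace stable under multiplication by everything, with a vanishing power. -/
def NilIdeal (I : Submodule F E) : Prop :=
  ⊤ * I ≤ I ∧ I * ⊤ ≤ I ∧ ∃ k, 0 < k ∧ I ^ k = ⊥

theorem nilIdeal_step {I : Submodule F E} (hI : NilIdeal I) (T : E) {q : ℕ} (hT : T ^ q ∈ I)
    (hq : 0 < q) (G : Set E) (hG : Algebra.adjoin F G = ⊤) (hbr : ∀ g ∈ G, g * T - T * g ∈ I) :
    NilIdeal (I ⊔ Submodule.span F {T} * ⊤) := by
  obtain ⟨hl, hr, k, hk, hnil⟩ := hI
  set P := Submodule.span F {T} * (⊤ : Submodule F E)
  have hPr : P * ⊤ ≤ P := by rw [mul_assoc]; exact mul_le_mul' le_rfl le_top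
  have hTmem : T ∈ P := by
    have := Submodule.mul_mem_mul (Submodule.mem_span_singleton_self T)
      (Submodule.mem_top : (1 : E) ∈ (⊤ : Submodule F E))
    simpa using this
  have hIl : ∀ e, ∀ x ∈ I, e * x ∈ I := fun e x hx =>
    hl (Submodule.mul_mem_mul Submodule.mem_top hx)
  have hIr : ∀ e, ∀ x ∈ I, x * e ∈ I := fun e x hx =>
    hr (Submodule.mul_mem_mul hx Submodule.mem_top)
  have hTw : ∀ w, T * w ∈ P := fun w =>
    Submodule.mul_mem_mul (Submodule.mem_span_singleton_self T) Submodule.mem_top
  have hcl : ∀ e : E, ∃ e', e * T - T * e' ∈ I := by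
    intro e
    have he : e ∈ Algebra.adjoin F G := by rw [hG]; trivial
    induction he using Algebra.adjoin_induction with
    | mem g hg => exact ⟨g, hbr g hg⟩
    | algebraMap a => exact ⟨algebraMap F E a, by rw [Algebra.commutes, sub_self]; exact zero_mem _⟩
    | add x y _ _ hx hy =>
      obtain ⟨x', hx'⟩ := hx
      obtain ⟨y', hy'⟩ := hy
      exact ⟨x' + y', by rw [add_mul, mul_add, add_sub_add_comm]; exact add_mem hx' hy'⟩
    | mul x y _ _ hx hy =>
      obtain ⟨x', hx'⟩ := hx
      obtain ⟨y', hy'⟩ := hy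
      refine ⟨x' * y', ?_⟩
      have e : x * y * T - T * (x' * y') = x * (y * T - T * y') + (x * T - T * x') * y' := by
        simp only [mul_sub, sub_mul, mul_assoc]; abel
      rw [e]
      exact add_mem (hIl _ _ hy') (hIr _ _ hx')
  have hTP : ⊤ * P ≤ I ⊔ P := by
    rw [Submodule.mul_le]
    intro e _ x hx
    refine Submodule.mul_induction_on hx (fun t ht w _ => ?_) (fun a b ha hb => by
      rw [mul_add]; exact add_mem ha hb)
    obtain ⟨c, rfl⟩ := Submodule.mem_span_singleton.1 ht
    rw [smul_mul_assoc, mul_smul_comm]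
    refine Submodule.smul_mem _ c ?_
    obtain ⟨e', he'⟩ := hcl e
    have : e * (T * w) = (e * T - T * e') * w + T * (e' * w) := by
      rw [sub_mul, mul_assoc, mul_assoc]; abel
    rw [this]
    exact add_mem (Submodule.mem_sup_left (hIr _ _ he')) (Submodule.mem_sup_right (hTw _))
  refine ⟨?_, ?_, q * k, Nat.mul_pos hq hk, ?_⟩
  · rw [Submodule.mul_sup]
    exact sup_le (hl.trans le_sup_left) hTP
  · rw [Submodule.sup_mul]
    exact sup_le (hr.trans le_sup_left) (hPr.trans le_sup_right)
  · have hpow : ∀ j, 0 < j → (I ⊔ P) ^ j ≤ I ⊔ Submodule.span F {T ^ j} * ⊤ := by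
      intro j
      induction j with
      | zero => intro h; omega
      | succ j ih =>
        intro _
        rcases Nat.eq_zero_or_pos j with rfl | hj
        · rw [zero_add, pow_one, pow_one]
        · rw [pow_succ]
          refine (mul_le_mul' (ih hj) le_rfl).trans ?_
          rw [Submodule.sup_mul]
          refine sup_le ((mul_le_mul' le_rfl le_top).trans (hr.trans le_sup_left)) ?_
          rw [mul_assoc]
          refine (mul_le_mul' le_rfl (show ⊤ * (I ⊔ P) ≤ I ⊔ P by
            rw [Submodule.mul_sup]; exact sup_le (hl.trans le_sup_left) hTP)).trans ?_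
          rw [Submodule.mul_sup]
          refine sup_le (((mul_le_mul' le_top le_rfl).trans hl).trans le_sup_left) ?_
          rw [← mul_assoc, Submodule.span_mul_span, Set.singleton_mul_singleton, ← pow_succ]
          exact le_sup_right
    have hqI : (I ⊔ P) ^ q ≤ I := by
      refine (hpow q hq).trans (sup_le le_rfl ?_)
      refine le_trans (mul_le_mul' ?_ le_rfl) hr
      rw [Submodule.span_le, Set.singleton_subset_iff]
      exact hT
    rw [pow_mul, eq_bot_iff, ← hnil]
    exact pow_le_pow_left' hqI k

end Step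

theorem constantCoeff_Fv (w : Fin N → K) : constantCoeff (Fv (p := p) f w) = 0 := by
  simp [Fv, tX, vX]

/-- The inclusion into the change of base over the residue field. -/
def resIn (v : Fin m → Fin N → K) : alg (p := p) f v →+* BC (p := p) f K v :=
  (Algebra.TensorProduct.includeRight : alg (p := p) f v →ₐ[Base K p N m] BC (p := p) f K v).toRingHom

/-- The residue classes of the variables. -/
def resR (v : Fin m → Fin N → K) (s : PVar p N) : BC (p := p) f K v :=
  resIn f v ⟨mlt (rX K s), mlt_mem_alg f v (rX_mem s)⟩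

/-- The residue classes of the operators. -/
def resL (v : Fin m → Fin N → K) (j : Fin m) : BC (p := p) f K v :=
  resIn f v ⟨lop f (v j), lop_mem_alg f v j⟩

/-- The generators over the residue field. -/
def resGens (v : Fin m → Fin N → K) : Set (BC (p := p) f K v) :=
  Set.range (resR f v) ∪ Set.range (resL f v)

theorem resIn_base (v : Fin m → Fin N → K) (c : Base K p N m) :
    resIn f v (algebraMap (Base K p N m) (alg (p := p) f v) c) =
      algebraMap K (BC (p := p) f K v) (constantCoeff c) := by
  show (1 : K) ⊗ₜ[Base K p N m] algebraMap (Base K p N m) (alg (p := p) f v) c =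
    constantCoeff c ⊗ₜ[Base K p N m] (1 : alg (p := p) f v)
  rw [Algebra.algebraMap_eq_smul_one, ← TensorProduct.smul_tmul, Algebra.smul_def, mul_one]
  rfl

theorem algebraMap_alg (v : Fin m → Fin N → K) (a : K)
    (h : algebraMap K (Op K p N) a ∈ alg (p := p) f v) :
    (⟨algebraMap K (Op K p N) a, h⟩ : alg (p := p) f v) = algebraMap (Base K p N m) _ (C a) :=
  Subtype.ext (by
    show algebraMap K (Op K p N) a = mlt (base f v (C a))
    rw [← algebraMap_eq, AlgHom.commutes, AlgHom.commutes])

theorem adjoin_resGens (v : Fin m → Fin N → K) : Algebra.adjoin K (resGens (p := p) f v) = ⊤ := by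
  rw [eq_top_iff]
  have key : ∀ x (hx : x ∈ alg (p := p) f v),
      resIn f v ⟨x, hx⟩ ∈ Algebra.adjoin K (resGens f v) := by
    intro x hx
    induction hx using Algebra.adjoin_induction with
    | mem x hx =>
      rcases hx with (⟨s, rfl⟩ | ⟨c, rfl⟩) | ⟨j, rfl⟩
      · exact Algebra.subset_adjoin (Or.inl ⟨s, rfl⟩)
      · exact (resIn_base f v c).symm ▸ Subalgebra.algebraMap_mem _ _
      · exact Algebra.subset_adjoin (Or.inr ⟨j, rfl⟩)
    | algebraMap b =>
      have h : algebraMap K (Op K p N) b ∈ alg (p := p) f v := Subalgebra.algebraMap_mem _ b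
      show resIn f v ⟨algebraMap K (Op K p N) b, h⟩ ∈ _
      rw [algebraMap_alg f v b h, resIn_base]
      exact Subalgebra.algebraMap_mem _ _
    | add x y hx hy hx' hy' =>
      have := add_mem hx' hy'
      rwa [← map_add] at this
    | mul x y hx hy hx' hy' =>
      have := mul_mem hx' hy'
      rwa [← map_mul] at this
  rintro z -
  induction z using TensorProduct.induction_on with
  | zero => exact zero_mem _
  | tmul a u =>
    have e : (a ⊗ₜ[Base K p N m] u : BC (p := p) f K v) = a • resIn f v u := by
      show _ = a • ((1 : K) ⊗ₜ[Base K p N m] u)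
      rw [TensorProduct.smul_tmul', smul_eq_mul, mul_one]
    rw [e]
    exact Subalgebra.smul_mem _ (key u.1 u.2) a
  | add a b ha hb => exact add_mem ha hb

theorem resIn_mlt_mem (v : Fin m → Fin N → K) (S : Finset (PVar p N))
    (I : Submodule K (BC (p := p) f K v)) (hIr : I * ⊤ ≤ I) (hS : ∀ s ∈ S, resR f v s ∈ I)
    (r : Pol K p N) (hr : r ∈ Algebra.adjoin K ((fun s => rX K s) '' (S : Set (PVar p N))))
    (h0 : constantCoeff r = 0) (h : mlt r ∈ alg f v) : resIn f v ⟨mlt r, h⟩ ∈ I := by
  suffices H : ∃ h : mlt r ∈ alg f v,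
      resIn f v ⟨mlt r, h⟩ - algebraMap K _ (constantCoeff r) ∈ I by
    obtain ⟨h', h''⟩ := H
    rwa [h0, map_zero, sub_zero] at h''
  clear h0 h
  induction hr using Algebra.adjoin_induction with
  | mem x hx =>
    obtain ⟨s, hs, rfl⟩ := hx
    refine ⟨mlt_mem_alg f v (rX_mem s), ?_⟩
    have : constantCoeff (rX K s) = (0 : K) := by simp [rX]
    rw [this, map_zero, sub_zero]
    exact hS s hs
  | algebraMap a =>
    refine ⟨by rw [AlgHom.commutes]; exact Subalgebra.algebraMap_mem _ a, ?_⟩
    have : ∀ h, (⟨mlt (algebraMap K (Pol K p N) a), h⟩ : alg (p := p) f v) =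
        algebraMap (Base K p N m) _ (C a) := by
      rw [AlgHom.commutes]; exact algebraMap_alg f v a
    rw [this, resIn_base]
    simp
  | add x y _ _ hx hy =>
    obtain ⟨hx, hx'⟩ := hx
    obtain ⟨hy, hy'⟩ := hy
    refine ⟨by rw [map_add]; exact add_mem hx hy, ?_⟩
    have h2 := add_mem hx' hy'
    rw [← add_sub_add_comm, ← map_add, ← map_add, ← map_add] at h2
    convert h2 using 3
    exact Subtype.ext (map_add mlt x y)
  | mul x y _ _ hx hy =>
    obtain ⟨hx, hx'⟩ := hx
    obtain ⟨hy, hy'⟩ := hy
    refine ⟨by rw [map_mul]; exact mul_mem hx hy, ?_⟩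
    have h2 := add_mem (hIr (Submodule.mul_mem_mul hx' (Submodule.mem_top :
        resIn f v ⟨mlt y, hy⟩ ∈ (⊤ : Submodule K _))))
      (Submodule.smul_mem _ (constantCoeff x) hy')
    rw [Algebra.smul_def, sub_mul, mul_sub, sub_add_sub_cancel, ← map_mul, ← map_mul, ← map_mul] at h2
    convert h2 using 3
    exact Subtype.ext (map_mul mlt x y)

theorem stage_vars (v : Fin m → Fin N → K) : ∀ L, ∃ I : Submodule K (BC (p := p) f K v),
    NilIdeal I ∧ ∀ s : PVar p N, lev s.1.2 < L → resR f v s ∈ I := by
  classical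
  have hlev : ∀ (j : Fin m) (s : PVar p N) (L : ℕ), lev s.1.2 ≤ L →
      delv (v j) (rX K s) ∈ Algebra.adjoin K ((fun s => rX K s) ''
          ((Finset.univ.filter fun t : PVar p N => lev t.1.2 < L) : Set (PVar p N))) ∧
        constantCoeff (delv (v j) (rX K s)) = 0 := by
    intro j s L hS
    refine ⟨?_, ?_⟩
    · rw [delv_apply]
      refine sum_mem fun k _ => Subalgebra.smul_mem _ ?_ _
      show del k (vX K s.1.1 s.1.2) ∈ _
      have h2 := s.2
      rw [del_vX k _ (by omega)]
      by_cases hk : (s.1.2 k : ℕ) = 0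
      · simp [hk]
      · have := lev_low hk
        refine mul_mem (natCast_mem _ _) (Algebra.subset_adjoin
          ⟨⟨(s.1.1, low k s.1.2), by show lev (low k s.1.2) + 1 < p; omega⟩, ?_, rfl⟩)
        simp only [Finset.coe_filter, Set.mem_ofPred_eq, Finset.mem_univ, true_and]
        omega
    · rw [delv_apply]
      simp [(del_free _ (Rs_le_free (rX_mem s))).2]
  intro L
  induction L with
  | zero =>
    exact ⟨⊥, ⟨by simp, by simp, 1, one_pos, pow_one _⟩, fun s h => absurd h (Nat.not_lt_zero _)⟩
  | succ L ih =>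
    obtain ⟨I0, hI0, hI0'⟩ := ih
    suffices H : ∀ S : Finset (PVar p N), (∀ s ∈ S, lev s.1.2 = L) →
        ∃ I, NilIdeal I ∧ I0 ≤ I ∧ ∀ s ∈ S, resR f v s ∈ I by
      obtain ⟨I, hI, hle, hS⟩ := H (Finset.univ.filter fun s => lev s.1.2 = L) (by simp)
      refine ⟨I, hI, fun s hs => ?_⟩
      rcases Nat.lt_succ_iff_lt_or_eq.1 hs with h | h
      · exact hle (hI0' s h)
      · exact hS s (by simp [h])
    intro S
    induction S using Finset.induction with
    | empty => intro _; exact ⟨I0, hI0, le_rfl, by simp⟩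
    | insert s S _ ihS =>
      intro hS
      obtain ⟨I, hI, hle, hmem⟩ := ihS fun t ht => hS t (Finset.mem_insert_of_mem ht)
      refine ⟨I ⊔ Submodule.span K {resR f v s} * ⊤,
        nilIdeal_step hI (resR f v s) (q := p) ?_ hp.1.pos (resGens f v) (adjoin_resGens f v) ?_,
        hle.trans le_sup_left, fun t ht => ?_⟩
      · rw [resR, ← map_pow]
        have : (⟨mlt (rX K s), mlt_mem_alg f v (rX_mem s)⟩ : alg (p := p) f v) ^ p =
            algebraMap (Base K p N m) _ (X (Sum.inl s)) := Subtype.ext (by
          show mlt (rX K s) ^ p = mlt (base f v (X (Sum.inl s)))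
          rw [← map_pow, base, aeval_X, Sum.elim_inl])
        rw [this, resIn_base, constantCoeff_X, map_zero]
        exact zero_mem _
      · rintro g (⟨s', rfl⟩ | ⟨j, rfl⟩)
        · have : resR f v s' * resR f v s - resR f v s * resR f v s' = 0 := by
            rw [resR, resR, ← map_mul, ← map_mul, sub_eq_zero]
            congr 1
            exact Subtype.ext (by
              show mlt (rX K s') * mlt (rX K s) = mlt (rX K s) * mlt (rX K s')
              rw [← map_mul, ← map_mul, mul_comm])
          rw [this]; exact zero_mem _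
        · refine hle ?_
          obtain ⟨h1, h2⟩ := hlev j s L (le_of_eq (hS s (Finset.mem_insert_self _ _)))
          have hmem' : mlt (delv (v j) (rX K s)) ∈ alg f v :=
            mlt_mem_alg f v (delv_mem_Rs _ (rX_mem s))
          have h := resIn_mlt_mem f v _ I0 hI0.2.1 (fun t ht => hI0' t (by simpa using ht)) _ h1 h2 hmem'
          convert h using 1
          rw [resR, resL, ← map_mul, ← map_mul, ← map_sub]
          congr 1
          exact Subtype.ext (by
            show lop f (v j) * mlt (rX K s) - mlt (rX K s) * lop f (v j) = _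
            rw [lop_mlt]; exact add_sub_cancel_left _ _)
      · rcases Finset.mem_insert.1 ht with rfl | ht
        · refine Submodule.mem_sup_right ?_
          have := Submodule.mul_mem_mul (Submodule.mem_span_singleton_self (R := K) (resR f v t))
            (Submodule.mem_top : (1 : BC (p := p) f K v) ∈ (⊤ : Submodule K _))
          simpa using this
        · exact Submodule.mem_sup_left (hmem t ht)

/-- The ideal of the augmentation over the residue field is nilpotent. -/
theorem nil_augRes (hf : ∀ t, (f t).IsHomogeneous p) (v : Fin m → Fin N → K) :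
    ∃ I : Submodule K (BC (p := p) f K v), NilIdeal I ∧
      ∀ x, augRes f v x = 0 → x ∈ I := by
  classical
  obtain ⟨I0, hI0, hI0'⟩ := stage_vars f v p
  have hrs : ∀ r ∈ Rs K p N, constantCoeff r = 0 → ∀ h : mlt r ∈ alg f v, resIn f v ⟨mlt r, h⟩ ∈ I0 := by
    intro r hr h0 h
    refine resIn_mlt_mem f v Finset.univ I0 hI0.2.1 (fun s _ => hI0' s (by have := s.2; omega)) r ?_ h0 h
    have hle : Rs K p N ≤ Algebra.adjoin K ((fun s => rX K s) '' (Finset.univ : Finset (PVar p N))) := by
      refine Algebra.adjoin_mono ?_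
      rintro _ ⟨_, ⟨t, β, hb, rfl⟩, rfl⟩
      exact ⟨⟨(t, β), hb⟩, by simp, rfl⟩
    exact hle hr
  have stageL : ∀ i, i ≤ m → ∃ I, NilIdeal I ∧ I0 ≤ I ∧ ∀ j : Fin m, j.1 < i → resL f v j ∈ I := by
    intro i
    induction i with
    | zero => intro _; exact ⟨I0, hI0, le_rfl, fun j h => absurd h (Nat.not_lt_zero _)⟩
    | succ i ih =>
      intro hi
      obtain ⟨I, hI, hle, hmem⟩ := ih (by omega)
      set j0 : Fin m := ⟨i, hi⟩
      refine ⟨I ⊔ Submodule.span K {resL f v j0} * ⊤, nilIdeal_step hI (resL f v j0) (q := p) ?_ hp.1.pos (resGens f v) (adjoin_resGens f v) ?_,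
        hle.trans le_sup_left, fun j hj => ?_⟩
      · rw [resL, ← map_pow]
        have e : (⟨lop f (v j0), lop_mem_alg f v j0⟩ : alg (p := p) f v) ^ p =
            ⟨mlt (Fv f (v j0)), mlt_mem_alg f v
              (sum_mem fun t _ => Subalgebra.smul_mem _ (tX_mem_Rs t) _)⟩ +
              algebraMap (Base K p N m) _ (X (Sum.inr j0)) := Subtype.ext (by
          show lop f (v j0) ^ p = mlt (Fv f (v j0)) + mlt (base f v (X (Sum.inr j0)))
          rw [lop_pow f hf, base, aeval_X, Sum.elim_inr, map_add])
        rw [e, map_add, resIn_base, constantCoeff_X, map_zero, add_zero]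
        exact hle (hrs _ (sum_mem fun t _ => Subalgebra.smul_mem _ (tX_mem_Rs t) _)
          (constantCoeff_Fv f _) _)
      · rintro g (⟨s', rfl⟩ | ⟨j, rfl⟩)
        · refine hle ?_
          have h := hrs _ (neg_mem (delv_mem_Rs (v j0) (rX_mem s')))
            (by rw [map_neg, delv_apply]; simp [(del_free _ (Rs_le_free (rX_mem s'))).2])
            (mlt_mem_alg f v (neg_mem (delv_mem_Rs (v j0) (rX_mem s'))))
          convert h using 1
          simp only [resR, resL, ← map_mul, ← map_sub]
          congr 1
          exact Subtype.ext (by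
            show mlt (rX K s') * lop f (v j0) - lop f (v j0) * mlt (rX K s') = mlt (-(delv (v j0)) (rX K s'))
            rw [lop_mlt, map_neg, sub_add_cancel_left])
        · refine hle ?_
          have hc : constantCoeff (delv (v j) (phiv (p := p) f (v j0)) -
              delv (v j0) (phiv f (v j))) = 0 := by
            simp only [phiv, map_sub, map_sum, Derivation.map_smul, delv_apply]
            simp [(del_free _ (phi_free f _)).2]
          have h := hrs _ (curv_mem f (v j) (v j0)) hc (mlt_mem_alg f v (curv_mem f _ _))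
          convert h using 1
          simp only [resR, resL, ← map_mul, ← map_sub]
          congr 1
          exact Subtype.ext (by
            show lop f (v j) * lop f (v j0) - lop f (v j0) * lop f (v j) = _
            rw [lop_lop f (v j) (v j0)]; exact add_sub_cancel_left _ _)
      · rcases Nat.lt_succ_iff_lt_or_eq.1 hj with h | h
        · exact Submodule.mem_sup_left (hmem j h)
        · obtain rfl : j = j0 := Fin.ext h
          refine Submodule.mem_sup_right ?_
          have := Submodule.mul_mem_mul (Submodule.mem_span_singleton_self (R := K) (resL f v j0))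
            (Submodule.mem_top : (1 : BC (p := p) f K v) ∈ (⊤ : Submodule K _))
          simpa using this
  obtain ⟨I, hI, hle, hl⟩ := stageL m le_rfl
  refine ⟨I, hI, fun x hx => ?_⟩
  suffices H : ∀ x, x - algebraMap K _ (augRes f v x) ∈ I by
    have := H x
    rwa [hx, map_zero, sub_zero] at this
  intro x
  have hx' : x ∈ Algebra.adjoin K (resGens f v) := by rw [adjoin_resGens]; trivial
  induction hx' using Algebra.adjoin_induction with
  | mem g hg =>
    rcases hg with ⟨s, rfl⟩ | ⟨j, rfl⟩
    · have : augRes f v (resR f v s) = 0 := by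
        show augBC f (RingHom.id K) _ v ((1 : K) ⊗ₜ _) = 0
        rw [augBC_tmul]
        show _ * constantCoeff (mlt (rX K s) (1 : Pol K p N)) = 0
        simp [mlt_apply, rX]
      rw [this, map_zero, sub_zero]
      exact hle (hI0' s (by have := s.2; omega))
    · have : augRes f v (resL f v j) = 0 := by
        show augBC f (RingHom.id K) _ v ((1 : K) ⊗ₜ _) = 0
        rw [augBC_tmul, epsAlg_lop, mul_zero]
      rw [this, map_zero, sub_zero]
      exact hl j j.2
  | algebraMap a =>
    have : augRes f v (algebraMap K _ a) = a := by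
      show augBC f (RingHom.id K) _ v (a ⊗ₜ 1) = a
      rw [augBC_tmul, map_one, mul_one]; rfl
    rw [this, sub_self]; exact zero_mem _
  | add a b _ _ ha hb =>
    rw [map_add, map_add, add_sub_add_comm]; exact add_mem ha hb
  | mul a b _ _ ha hb =>
    have e : a * b - algebraMap K _ (augRes f v (a * b)) =
        (a - algebraMap K _ (augRes f v a)) * b +
          algebraMap K _ (augRes f v a) * (b - algebraMap K _ (augRes f v b)) := by
      rw [map_mul, map_mul, sub_mul, mul_sub]; abel
    rw [e]
    refine add_mem (hI.2.1 (Submodule.mul_mem_mul ha Submodule.mem_top)) ?_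
    exact hI.1 (Submodule.mul_mem_mul Submodule.mem_top hb)

end Vale.Agent.P200d
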