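import Vale.Agent.P200d.Res

/-!
Deformation of a free resolution along a central element: the mapping cone over the deformed ring,
and the bijectivity it forces on the degree-two operators.
-/

noncomputable section

namespace Vale.Agent.P200d

open Matrix

universe u

theorem mem_jG_pi {R : Type u} [Ring R] {K : Type*} [Semiring K] (ε : R →+* K) {ι : Type*} [Fintype ι]
    (x : ι → R) : x ∈ jG (augSet ε) (ι → R) ↔ ∀ a, ε (x a) = 0 := by
  classical
  constructor
  · intro hx
    induction hx using AddSubgroup.closure_induction with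
    | mem y hy =>
      obtain ⟨j, hj, g, rfl⟩ := hy
      intro a
      rw [Pi.smul_apply, smul_eq_mul, map_mul, show ε j = 0 from hj, zero_mul]
    | zero => intro a; exact map_zero ε
    | add y z _ _ hy hz => intro a; rw [Pi.add_apply, map_add, hy, hz, add_zero]
    | neg y _ hy =>
      intro a
      have h := map_add ε (y a) (-(y a))
      rw [add_neg_cancel, map_zero, hy, zero_add] at h
      exact h.symm
  · intro h
    rw [pi_eq_sum_univ' x]
    exact sum_mem fun a _ => smul_mem_jG (show x a ∈ augSet ε from h a) _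

theorem mem_jG_prod {R : Type u} [Ring R] (J : Set R) {G G' : Type*} [AddCommGroup G] [Module R G]
    [AddCommGroup G'] [Module R G'] (x : G × G') :
    x ∈ jG J (G × G') ↔ x.1 ∈ jG J G ∧ x.2 ∈ jG J G' := by
  refine ⟨fun h => ⟨map_jG (LinearMap.fst R G G') h, map_jG (LinearMap.snd R G G') h⟩, fun h => ?_⟩
  have : x = LinearMap.inl R G G' x.1 + LinearMap.inr R G G' x.2 := by simp
  rw [this]
  exact add_mem (map_jG _ h.1) (map_jG _ h.2)

/-- A free resolution by finite free modules, given by matrices. -/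
structure MRes (R : Type u) [Ring R] (M : Type u) [AddCommGroup M] [Module R M] where
  /-- the ranks -/
  g : ℕ → ℕ
  /-- the matrices -/
  D : ∀ i, Matrix (Fin (g (i + 1))) (Fin (g i)) R
  /-- the augmentation -/
  π : (Fin (g 0) → R) →ₗ[R] M
  surj : Function.Surjective π
  ex0 : ∀ x, π x = 0 ↔ ∃ c, c ᵥ* D 0 = x
  ex : ∀ i x, x ᵥ* D i = 0 ↔ ∃ c, c ᵥ* D (i + 1) = x

variable {R : Type u} [Ring R] {M : Type u} [AddCommGroup M] [Module R M]

/-- The linear map of a matrix. -/
def rowMap {a b : ℕ} (D : Matrix (Fin a) (Fin b) R) : (Fin a → R) →ₗ[R] (Fin b → R) where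
  toFun x := x ᵥ* D
  map_add' x y := Matrix.add_vecMul _ _ _
  map_smul' r x := Matrix.smul_vecMul _ _ _

theorem rowMap_apply {a b : ℕ} (D : Matrix (Fin a) (Fin b) R) (x : Fin a → R) :
    rowMap D x = x ᵥ* D := rfl

/-- The resolution of a matrix resolution. -/
def MRes.toRsl (P : MRes R M) : Rsl R M where
  G i := Fin (P.g i) → R
  proj _ := inferInstance
  d i := rowMap (P.D i)
  π := P.π
  surj := P.surj
  ex0 := by ext x; exact (P.ex0 x).symm
  ex i := by ext x; exact (P.ex i x).symm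

/-- Finitely generated modules over noetherian rings have matrix resolutions. -/
theorem exists_mres [IsNoetherianRing R] [Module.Finite R M] : Nonempty (MRes R M) := by
  classical
  have cover : ∀ {a : ℕ} (S : Submodule R (Fin a → R)),
      ∃ (b : ℕ) (D : Matrix (Fin b) (Fin a) R), ∀ x, x ∈ S ↔ ∃ c, c ᵥ* D = x := by
    intro a S
    obtain ⟨b, s, hs⟩ := Submodule.fg_iff_exists_fin_generating_family.1 (IsNoetherian.noetherian S)
    refine ⟨b, Matrix.of s, fun x => ?_⟩
    rw [← hs, Submodule.mem_span_range_iff_exists_fun]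
    refine exists_congr fun c => ?_
    have : c ᵥ* Matrix.of s = ∑ i, c i • s i := by
      funext k
      simp [Matrix.vecMul, dotProduct, Finset.sum_apply]
    rw [this]
  obtain ⟨g0, s0, hs0⟩ := Module.Finite.exists_fin (R := R) (M := M)
  let π : (Fin g0 → R) →ₗ[R] M := Fintype.linearCombination R s0
  have hπ : Function.Surjective π := by
    rw [← LinearMap.range_eq_top, Fintype.range_linearCombination, hs0]
  choose b D hD using fun (a : ℕ) (S : Submodule R (Fin a → R)) => cover S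
  let seq : ℕ → Σ a : ℕ, Submodule R (Fin a → R) := fun i => Nat.rec
    ⟨g0, LinearMap.ker π⟩ (fun _ s => ⟨b s.1 s.2, LinearMap.ker (rowMap (D s.1 s.2))⟩) i
  refine ⟨⟨fun i => (seq i).1, fun i => D (seq i).1 (seq i).2, π, hπ, fun x => ?_, fun i x => ?_⟩⟩
  · exact Iff.trans Iff.rfl (hD g0 (LinearMap.ker π) x)
  · exact Iff.trans Iff.rfl (hD _ (LinearMap.ker (rowMap (D (seq i).1 (seq i).2))) x)

/-- The previous rank. -/
@[reducible] def MRes.g' (P : MRes R M) : ℕ → ℕ
  | 0 => 0
  | i + 1 => P.g i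

/-- The data deforming a resolution along a central regular element. -/
structure Deform (P : MRes R M) (U : Type u) [Ring U] where
  /-- the specialisation -/
  sp : U →+* R
  sp_surj : Function.Surjective sp
  /-- the parameter -/
  z : U
  z_comm : ∀ u, Commute z u
  z_reg : ∀ u, z * u = 0 → u = 0
  z_ker : ∀ u, sp u = 0 → ∃ w, u = z * w
  /-- the lifted matrices -/
  L : ∀ i, Matrix (Fin (P.g (i + 1))) (Fin (P.g i)) U
  L_sp : ∀ i, (L i).map sp = P.D i
  /-- the degree two operators -/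
  S : ∀ i, Matrix (Fin (P.g (i + 1 + 1))) (Fin (P.g i)) U
  L_L : ∀ i, L (i + 1) * L i = (S i).map (z * ·)

variable {U : Type u} [Ring U] {P : MRes R M} (F : Deform P U)

theorem Deform.sp_z : F.sp F.z * 1 = F.sp F.z := mul_one _

theorem Deform.vecMul_zmap {a b : ℕ} (x : Fin a → U) (A : Matrix (Fin a) (Fin b) U) :
    x ᵥ* A.map (F.z * ·) = F.z • (x ᵥ* A) := by
  funext k
  simp only [Matrix.vecMul, dotProduct, Matrix.map_apply, Pi.smul_apply, smul_eq_mul, Finset.mul_sum]
  refine Finset.sum_congr rfl fun i _ => ?_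
  rw [← mul_assoc, ← (F.z_comm (x i)).eq, mul_assoc]

theorem Deform.reg_vec {a : ℕ} {x : Fin a → U} (h : F.z • x = 0) : x = 0 :=
  funext fun k => F.z_reg _ (congrFun h k)

theorem Deform.smul_vecMul {a b : ℕ} (x : Fin a → U) (A : Matrix (Fin a) (Fin b) U) :
    (F.z • x) ᵥ* A = F.z • (x ᵥ* A) := Matrix.smul_vecMul _ _ _

theorem Deform.sp_vecMul {a b : ℕ} (x : Fin a → U) (A : Matrix (Fin a) (Fin b) U) :
    (fun k => F.sp ((x ᵥ* A) k)) = (fun j => F.sp (x j)) ᵥ* A.map F.sp := by
  funext k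
  simp [Matrix.vecMul, dotProduct]

theorem Deform.sp_smul {a : ℕ} (x : Fin a → U) (hz : F.sp F.z = 0) :
    (fun k => F.sp ((F.z • x) k)) = 0 := by
  funext k
  simp [hz]

theorem Deform.L_S (i : ℕ) : F.L (i + 1 + 1) * F.S i = F.S (i + 1) * F.L i := by
  have h1 : ∀ x : Fin (P.g (i + 1 + 1 + 1)) → U, x ᵥ* (F.L (i + 1 + 1) * F.S i) = x ᵥ* (F.S (i + 1) * F.L i) := by
    intro x
    refine sub_eq_zero.1 (F.reg_vec ?_)
    rw [smul_sub, ← Matrix.vecMul_vecMul, ← Matrix.vecMul_vecMul, ← F.vecMul_zmap,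
      ← F.smul_vecMul, ← F.vecMul_zmap, ← F.L_L, ← F.L_L]
    simp only [Matrix.vecMul_vecMul, Matrix.mul_assoc, sub_self]
  classical
  ext a b
  have := congrFun (h1 (Pi.single a 1)) b
  simpa [Matrix.single_vecMul] using this

/-- The matrices entering the second component. -/
def Deform.L' : ∀ i, Matrix (Fin (P.g i)) (Fin (P.g' i)) U
  | 0 => 0
  | i + 1 => F.L i

/-- The operators entering the second component. -/
def Deform.S' : ∀ i, Matrix (Fin (P.g (i + 1))) (Fin (P.g' i)) U
  | 0 => 0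
  | i + 1 => F.S i

/-- The differential of the cone. -/
def Deform.coneD (i : ℕ) : (Fin (P.g (i + 1)) → U) × (Fin (P.g i) → U) →ₗ[U]
    (Fin (P.g i) → U) × (Fin (P.g' i) → U) where
  toFun x := (x.1 ᵥ* F.L i + F.z • x.2, -(x.1 ᵥ* F.S' i) - x.2 ᵥ* F.L' i)
  map_add' x y := by
    ext <;> simp only [Prod.fst_add, Prod.snd_add, Matrix.add_vecMul, smul_add, Pi.add_apply,
      Pi.neg_apply, Pi.sub_apply] <;> abel
  map_smul' r x := by
    ext k
    · simp only [Prod.smul_fst, Prod.smul_snd, Matrix.smul_vecMul, Pi.add_apply, Pi.smul_apply,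
        smul_eq_mul, RingHom.id_apply, mul_add]
      rw [← mul_assoc F.z, (F.z_comm r).eq, mul_assoc]
    · simp only [Prod.smul_fst, Prod.smul_snd, Matrix.smul_vecMul, Pi.sub_apply, Pi.neg_apply,
        Pi.smul_apply, smul_eq_mul, RingHom.id_apply, mul_sub, mul_neg]

theorem Deform.coneD_apply (i : ℕ) (a : Fin (P.g (i + 1)) → U) (b : Fin (P.g i) → U) :
    F.coneD i (a, b) = (a ᵥ* F.L i + F.z • b, -(a ᵥ* F.S' i) - b ᵥ* F.L' i) := rfl

theorem Deform.coneD_coneD (i : ℕ) (x : (Fin (P.g (i + 1 + 1)) → U) × (Fin (P.g (i + 1)) → U)) :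
    F.coneD i (F.coneD (i + 1) x) = 0 := by
  obtain ⟨a, b⟩ := x
  rw [Deform.coneD_apply, Deform.coneD_apply]
  refine Prod.ext ?_ ?_
  · show (a ᵥ* F.L (i + 1) + F.z • b) ᵥ* F.L i + F.z • (-(a ᵥ* F.S i) - b ᵥ* F.L i) = 0
    rw [Matrix.add_vecMul, Matrix.vecMul_vecMul, F.L_L, F.vecMul_zmap, F.smul_vecMul, smul_sub,
      smul_neg]
    abel
  · cases i with
    | zero => exact funext fun k => k.elim0
    | succ i =>
      show -((a ᵥ* F.L (i + 1 + 1) + F.z • b) ᵥ* F.S i) -
        (-(a ᵥ* F.S (i + 1)) - b ᵥ* F.L (i + 1)) ᵥ* F.L i = 0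
      rw [Matrix.add_vecMul, Matrix.sub_vecMul, Matrix.neg_vecMul, Matrix.vecMul_vecMul,
        Matrix.vecMul_vecMul, Matrix.vecMul_vecMul, F.L_S, F.L_L, F.smul_vecMul, F.vecMul_zmap]
      abel

/-- The cone resolution over the deformed ring. -/
def Deform.cone (hz : F.sp F.z = 0) [Module U M] (hM : ∀ (u : U) (m : M), u • m = F.sp u • m) :
    Rsl U M where
  G i := (Fin (P.g i) → U) × (Fin (P.g' i) → U)
  proj _ := inferInstance
  d i := F.coneD i
  π :=
    { toFun := fun x => P.π fun k => F.sp (x.1 k)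
      map_add' := fun x y => by
        rw [← map_add]; congr 1; funext k; simp
      map_smul' := fun r x => by
        rw [RingHom.id_apply, hM, ← map_smul]; congr 1; funext k; simp }
  surj m := by
    obtain ⟨x, rfl⟩ := P.surj m
    choose y hy using fun k => F.sp_surj (x k)
    exact ⟨(y, 0), by simp [hy]⟩
  ex0 := by
    ext ⟨a, b⟩
    constructor
    · rintro ⟨⟨c, e⟩, h⟩
      obtain ⟨rfl, -⟩ := Prod.mk.inj h
      show P.π (fun k => F.sp ((c ᵥ* F.L 0 + F.z • e) k)) = 0
      have : (fun k => F.sp ((c ᵥ* F.L 0 + F.z • e) k)) = (fun j => F.sp (c j)) ᵥ* P.D 0 := by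
        rw [← F.L_sp, ← F.sp_vecMul]
        funext k; simp [hz]
      exact (P.ex0 _).2 ⟨_, this.symm⟩
    · intro h
      obtain ⟨c, hc⟩ := (P.ex0 _).1 (h : P.π (fun k => F.sp (a k)) = 0)
      choose c' hc' using fun k => F.sp_surj (c k)
      have h0 : ∀ k, F.sp ((a - c' ᵥ* F.L 0) k) = 0 := by
        intro k
        have h2 := congrFun (F.sp_vecMul c' (F.L 0)) k
        simp only [hc', F.L_sp] at h2
        rw [Pi.sub_apply, map_sub, h2, congrFun hc k, sub_self]
      choose e he using fun k => F.z_ker _ (h0 k)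
      refine ⟨(c', e), Prod.ext ?_ (funext fun k => k.elim0)⟩
      show c' ᵥ* F.L 0 + F.z • e = a
      have : F.z • e = a - c' ᵥ* F.L 0 := funext fun k => (he k).symm
      rw [this, add_sub_cancel]
  ex i := by
    ext ⟨a, b⟩
    constructor
    · rintro ⟨x, hx⟩
      rw [LinearMap.mem_ker, ← hx]
      exact F.coneD_coneD i x
    · intro h
      have h' : F.coneD i (a, b) = 0 := h
      obtain ⟨h1, -⟩ := Prod.mk.inj h'
      have h1' : (fun j => F.sp (a j)) ᵥ* P.D i = 0 := by
        rw [← F.L_sp, ← F.sp_vecMul]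
        funext k
        have h2 : F.sp ((a ᵥ* F.L i + F.z • b) k) = F.sp 0 := congrArg F.sp (congrFun h1 k)
        simpa [hz] using h2
      obtain ⟨c, hc⟩ := (P.ex i _).1 h1'
      choose c' hc' using fun k => F.sp_surj (c k)
      have h0 : ∀ k, F.sp ((a - c' ᵥ* F.L (i + 1)) k) = 0 := by
        intro k
        have h2 := congrFun (F.sp_vecMul c' (F.L (i + 1))) k
        simp only [hc', F.L_sp] at h2
        rw [Pi.sub_apply, map_sub, h2, congrFun hc k, sub_self]
      choose e he using fun k => F.z_ker _ (h0 k)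
      have he' : c' ᵥ* F.L (i + 1) + F.z • e = a := by
        have : F.z • e = a - c' ᵥ* F.L (i + 1) := funext fun k => (he k).symm
        rw [this, add_sub_cancel]
      have h3 := F.coneD_coneD i (c', e)
      rw [F.coneD_apply (i + 1), he'] at h3
      set b' := -(c' ᵥ* F.S' (i + 1)) - e ᵥ* F.L' (i + 1) with hb'
      have h4 : F.coneD i (0, b - b') = 0 := by
        have : ((0, b - b') : (Fin (P.g (i + 1)) → U) × (Fin (P.g i) → U)) = (a, b) - (a, b') := by
          rw [Prod.mk_sub_mk, sub_self]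
        rw [this, map_sub, h', h3, sub_zero]
      obtain ⟨h5, -⟩ := Prod.mk.inj h4
      rw [Matrix.zero_vecMul, zero_add] at h5
      refine ⟨(c', e), ?_⟩
      rw [F.coneD_apply (i + 1)]
      exact Prod.ext he' (sub_eq_zero.1 (F.reg_vec h5)).symm

/-! ### Consequences for the reduced complex -/

variable {K : Type*} [Field K]

/-- The cycles of the reduced complex. -/
def redZ (g : ℕ → ℕ) (d : ∀ i, Matrix (Fin (g (i + 1))) (Fin (g i)) K) (i : ℕ) :
    Submodule K (Fin (g (i + 1)) → K) := LinearMap.ker (rowMap (d i))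

/-- The boundaries of the reduced complex. -/
def redB (g : ℕ → ℕ) (d : ∀ i, Matrix (Fin (g (i + 1))) (Fin (g i)) K) (i : ℕ) :
    Submodule K (Fin (g (i + 1)) → K) := LinearMap.range (rowMap (d (i + 1)))

theorem sp_vecMul' {V : Type*} [Ring V] (ε : V →+* K) {a b : ℕ} (x : Fin a → V)
    (A : Matrix (Fin a) (Fin b) V) :
    (fun k => ε ((x ᵥ* A) k)) = (fun j => ε (x j)) ᵥ* A.map ε := by
  funext k
  simp [Matrix.vecMul, dotProduct]

include F in
/-- Regularity over the deformed ring makes the degree two operator bijective on homology. -/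
theorem Deform.bijective (εU : U →+* K) (hεz : εU F.z = 0) (hεs : Function.Surjective εU)
    (hz : F.sp F.z = 0) [Module U M] (hM : ∀ (u : U) (m : M), u • m = F.sp u • m)
    {N : ℕ} (hreg : Reg (augSet εU) N M) (i : ℕ) (hi : N ≤ i + 1) :
    (∀ b, b ᵥ* (F.L i).map εU = 0 → ∃ c e, c ᵥ* (F.L (i + 1 + 1)).map εU = 0 ∧
      b = c ᵥ* (F.S (i + 1)).map εU + e ᵥ* (F.L (i + 1)).map εU) ∧
    ∀ a, a ᵥ* (F.L (i + 1)).map εU = 0 →
      (∃ b, a ᵥ* (F.S i).map εU = b ᵥ* (F.L i).map εU) →
      ∃ c, c ᵥ* (F.L (i + 1 + 1)).map εU = a := by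
  have key : ∀ (a : Fin (P.g (i + 1 + 1)) → K) (b : Fin (P.g (i + 1)) → K),
      a ᵥ* (F.L (i + 1)).map εU = 0 → a ᵥ* (F.S i).map εU + b ᵥ* (F.L i).map εU = 0 →
      ∃ c e, c ᵥ* (F.L (i + 1 + 1)).map εU = a ∧
        b = -(c ᵥ* (F.S (i + 1)).map εU) - e ᵥ* (F.L (i + 1)).map εU := by
    intro a b ha hab
    choose a' ha' using fun k => hεs (a k)
    choose b' hb' using fun k => hεs (b k)
    obtain rfl : (fun k => εU (a' k)) = a := funext ha'
    obtain rfl : (fun k => εU (b' k)) = b := funext hb'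
    have h := hreg (F.cone hz hM) (i + 1) hi (a', b')
    obtain ⟨⟨c, e⟩, hce⟩ := h (by
      refine (mem_jG_prod _ _).2 ⟨(mem_jG_pi εU _).2 fun k => ?_, (mem_jG_pi εU _).2 fun k => ?_⟩
      · show εU ((a' ᵥ* F.L (i + 1) + F.z • b') k) = 0
        rw [Pi.add_apply, map_add, Pi.smul_apply, smul_eq_mul, map_mul, hεz, zero_mul, add_zero]
        have := congrFun (sp_vecMul' εU a' (F.L (i + 1))) k
        rw [this, ha, Pi.zero_apply]
      · show εU ((-(a' ᵥ* F.S i) - b' ᵥ* F.L i) k) = 0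
        rw [Pi.sub_apply, Pi.neg_apply, map_sub, map_neg, congrFun (sp_vecMul' εU a' (F.S i)) k,
          congrFun (sp_vecMul' εU b' (F.L i)) k]
        have := congrFun hab k
        simp only [Pi.add_apply, Pi.zero_apply] at this
        linear_combination -this)
    refine ⟨fun k => εU (c k), fun k => εU (e k), funext fun k => ?_, funext fun k => ?_⟩
    · have h1 := (mem_jG_pi εU _).1 ((mem_jG_prod _ _).1 hce).1 k
      change εU ((a' - (c ᵥ* F.L (i + 1 + 1) + F.z • e)) k) = 0 at h1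
      rw [Pi.sub_apply, map_sub, Pi.add_apply, map_add, Pi.smul_apply, smul_eq_mul, map_mul, hεz,
        zero_mul, add_zero, congrFun (sp_vecMul' εU c (F.L (i + 1 + 1))) k, sub_eq_zero] at h1
      exact h1.symm
    · have h1 := (mem_jG_pi εU _).1 ((mem_jG_prod _ _).1 hce).2 k
      change εU ((b' - (-(c ᵥ* F.S (i + 1)) - e ᵥ* F.L (i + 1))) k) = 0 at h1
      rw [Pi.sub_apply, map_sub, Pi.sub_apply, Pi.neg_apply, map_sub, map_neg,
        congrFun (sp_vecMul' εU c (F.S (i + 1))) k, congrFun (sp_vecMul' εU e (F.L (i + 1))) k,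
        sub_eq_zero] at h1
      simpa using h1
  refine ⟨fun b hb => ?_, fun a ha ⟨b, hb⟩ => ?_⟩
  · obtain ⟨c, e, hc, he⟩ := key 0 b (Matrix.zero_vecMul _) (by rw [Matrix.zero_vecMul, zero_add, hb])
    refine ⟨-c, -e, by rw [Matrix.neg_vecMul, hc, neg_zero], ?_⟩
    rw [he, Matrix.neg_vecMul, Matrix.neg_vecMul, sub_eq_add_neg]
  · obtain ⟨c, -, hc, -⟩ := key a (-b) ha (by rw [Matrix.neg_vecMul, hb, add_neg_cancel])
    exact ⟨c, hc⟩

/-- A semilinear pencil of bijections between two spaces exists only on the zero space. -/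
theorem pencil_zero {K V W : Type*} [Field K] [IsAlgClosed K] {p : ℕ} (hp : 0 < p)
    [AddCommGroup V] [Module K V] [FiniteDimensional K V] [AddCommGroup W] [Module K W]
    (T0 T1 : V →ₗ[K] W) (h1 : Function.Bijective T1)
    (h : ∀ μ : K, Function.Injective (T0 + μ ^ p • T1)) : Subsingleton V := by
  by_contra hV
  rw [not_subsingleton_iff_nontrivial] at hV
  let E : Module.End K V := (LinearEquiv.ofBijective T1 h1).symm.toLinearMap ∘ₗ T0
  obtain ⟨a, ha⟩ := Module.End.exists_eigenvalue E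
  obtain ⟨v, hv⟩ := ha.exists_hasEigenvector
  obtain ⟨μ, hμ⟩ := IsAlgClosed.exists_pow_nat_eq (-a) hp
  have e : T0 v = a • T1 v := by
    have h2 := congrArg T1 hv.apply_eq_smul
    rw [map_smul] at h2
    rwa [show T1 (E v) = T0 v from (LinearEquiv.ofBijective T1 h1).apply_symm_apply (T0 v)] at h2
  refine hv.2 (h μ ?_)
  rw [map_zero, LinearMap.add_apply, LinearMap.smul_apply, e, hμ, ← add_smul, add_neg_cancel, zero_smul]

end Vale.Agent.P200d
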