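import Vale.Agent.P200.Levels

/-!
Coordinates and Hilbert functions for regular sequences of forms of one degree.
-/

noncomputable section

namespace Vale.Agent.P200d

open MvPolynomial Vale.Agent.P200

universe u

variable {K : Type u} [Field K]

/-- Regular sequences stay regular modulo a variable which is regular modulo all of them. -/
theorem strongReg_res0 {m c : ℕ} {g : Fin c → MvPolynomial (Fin (m + 1)) K}
    {e : ℕ} (he : 0 < e) (hg : ∀ i, (g i).IsHomogeneous e) (hreg : StrongReg g)
    (hX : ∀ p, p * X 0 ∈ Ideal.span (Set.range g) → p ∈ Ideal.span (Set.range g)) :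
    StrongReg (fun i => res0 m (g i)) := by
  set gx : Fin (c + 1) → MvPolynomial (Fin (m + 1)) K := Fin.snoc g (X 0) with hgx
  have hgX : ∀ i : Fin c, gx i.castSucc = g i := fun i => by simp [hgx]
  have himg : ∀ T : Set (Fin c), gx '' (Fin.castSucc '' T) = g '' T := fun T => by
    rw [Set.image_image]; simp only [hgX]
  have hs : StrongReg gx := by
    refine strongReg_of_isRegSeq gx (Fin.snoc (fun _ => e) 1) (fun i => ?_) (fun i => ?_) ?_
    · refine Fin.lastCases ?_ (fun j => ?_) i <;> simp [he]
    · refine Fin.lastCases ?_ (fun j => ?_) i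
      · simpa [hgx] using isHomogeneous_X K (0 : Fin (m + 1))
      · simpa [hgx] using hg j
    · intro i
      refine Fin.lastCases ?_ (fun j => ?_) i
      · intro p hp
        have e : gx '' Set.Iio (Fin.last c) = Set.range g := by
          rw [← Set.image_univ, ← himg]
          congr 1
          ext k
          refine Fin.lastCases ?_ (fun j => ?_) k
          · simp [Fin.castSucc_ne_last]
          · simp [Fin.castSucc_lt_last]
        rw [e] at hp ⊢
        refine hX p ?_
        simpa [hgx] using hp
      · intro p hp
        rw [← Fin.image_castSucc_Iio, himg] at hp ⊢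
        rw [hgX] at hp
        exact hreg.isRegSeq j p hp
  intro S t ht h hh
  set T : Set (Fin (c + 1)) := insert (Fin.last c) (Fin.castSucc '' S)
  have hT : Ideal.span (gx '' T) = Ideal.span {X 0} ⊔ Ideal.span (g '' S) := by
    rw [Set.image_insert_eq, himg, Ideal.span_insert]
    simp [hgx]
  have htT : t.castSucc ∉ T := by
    rintro (h | ⟨s, hs, h⟩)
    · exact absurd h (Fin.castSucc_ne_last t)
    · exact ht ((Fin.castSucc_injective _ h) ▸ hs)
  have hlift : ∀ q ∈ Ideal.span ((fun i => res0 m (g i)) '' S),
      rename Fin.succ q ∈ Ideal.span (gx '' T) := by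
    intro q hq
    have h0 := Ideal.mem_map_of_mem (rename Fin.succ : MvPolynomial (Fin m) K →ₐ[K] _) hq
    rw [Ideal.map_span, Set.image_image] at h0
    refine (Ideal.span_le.2 ?_) h0
    rintro _ ⟨s, hs', rfl⟩
    have e : rename Fin.succ (res0 m (g s)) = g s - (g s - rename Fin.succ (res0 m (g s))) := by
      rw [sub_sub_cancel]
    show rename Fin.succ (res0 m (g s)) ∈ _
    rw [e, hT]
    exact Ideal.sub_mem _ (Submodule.mem_sup_right (Ideal.subset_span ⟨s, hs', rfl⟩))
      (Submodule.mem_sup_left (sub_res0_mem m (g s)))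
  have h1 : rename Fin.succ h * gx t.castSucc ∈ Ideal.span (gx '' T) := by
    rw [hgX]
    have e : rename Fin.succ h * g t = rename Fin.succ (h * res0 m (g t)) +
        rename Fin.succ h * (g t - rename Fin.succ (res0 m (g t))) := by
      rw [map_mul]; ring
    rw [e]
    refine Ideal.add_mem _ (hlift _ hh) ?_
    rw [hT]
    exact Submodule.mem_sup_left (Ideal.mul_mem_left _ _ (sub_res0_mem m (g t)))
  have h2 := hs T _ htT _ h1
  rw [hT] at h2
  have h3 := Ideal.mem_map_of_mem (res0 m (K := K)) h2
  rw [Ideal.map_sup, Ideal.map_span, Ideal.map_span, Set.image_singleton, res0_rename,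
    Set.image_image] at h3
  simpa [res0] using h3

/-- No socle modulo a regular sequence shorter than the number of variables. -/
theorem socle_free [Infinite K] {e : ℕ} (he : 0 < e) : ∀ (n k : ℕ), k < n → ∀ f : Fin k → MvPolynomial (Fin n) K,
    (∀ i, (f i).IsHomogeneous e) → StrongReg f →
    ∀ z, (∀ j, z * X j ∈ Ideal.span (Set.range f)) → z ∈ Ideal.span (Set.range f) := by
  intro n
  induction n with
  | zero => intro k hk; exact absurd hk (Nat.not_lt_zero k)
  | succ m ihn =>
    intro k
    induction k with
    | zero =>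
      intro _ f _ _ z hz
      have h := hz 0
      rw [show Set.range f = ∅ from Set.range_eq_empty f, Ideal.span_empty, Submodule.mem_bot,
        mul_eq_zero] at h
      rcases h with h | h
      · rw [h]; exact zero_mem _
      · exact absurd h (X_ne_zero 0)
    | succ k ihk =>
      intro hk f hf hreg z hz
      set f' := f ∘ Fin.castSucc with hf'
      have hf2 : ∀ i, (f' i).IsHomogeneous e := fun i => hf _
      have hreg' : StrongReg f' := hreg.comp _ (Fin.castSucc_injective _)
      obtain ⟨a, ha, hal⟩ := exists_regular_form (Nat.succ_pos m) _ (ihk (by omega) f' hf2 hreg')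
      set l : MvPolynomial (Fin (m + 1)) K := ∑ j, a j • X j
      set J := Ideal.span (Set.range f') with hJ
      set F := f (Fin.last k) with hF
      have hJF : Ideal.span (Set.range f) = Ideal.span {F} ⊔ J := by
        rw [hJ, hf', Set.range_comp, ← Ideal.span_insert, hF, ← Set.image_insert_eq]
        congr 1
        rw [← Set.image_univ]
        congr 1
        ext i
        refine Fin.lastCases ?_ (fun j => ?_) i <;> simp
      have hFreg : ∀ g, g * F ∈ J → g ∈ J := by
        intro g hg
        have e : Set.range f' = f '' Set.range Fin.castSucc := Set.range_comp _ _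
        rw [hJ, e] at hg ⊢
        exact hreg _ _ (by simp [Fin.castSucc_ne_last]) g hg
      rw [hJF] at hz ⊢
      -- the exchanged element
      have hlz : z * l ∈ Ideal.span {F} ⊔ J := by
        simp only [l, Finset.mul_sum, smul_eq_C_mul, mul_left_comm z]
        exact Ideal.sum_mem _ fun j _ => Ideal.mul_mem_left _ _ (hz j)
      obtain ⟨_, hw, q, hq, hwq⟩ := Submodule.mem_sup.1 hlz
      obtain ⟨w, rfl⟩ := Ideal.mem_span_singleton'.1 hw
      have hwx : ∀ j, w * X j ∈ Ideal.span {l} ⊔ J := by
        intro j
        obtain ⟨_, hu, r, hr, hur⟩ := Submodule.mem_sup.1 (hz j)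
        obtain ⟨u, rfl⟩ := Ideal.mem_span_singleton'.1 hu
        have h1 : (w * X j - u * l) * F ∈ J := by
          have : (w * X j - u * l) * F = r * l - q * X j := by
            calc (w * X j - u * l) * F = (w * F + q) * X j - (u * F + r) * l + (r * l - q * X j) := by
                  ring
              _ = r * l - q * X j := by rw [hwq, hur]; ring
          rw [this]
          exact Ideal.sub_mem _ (Ideal.mul_mem_right _ _ hr) (Ideal.mul_mem_right _ _ hq)
        have h2 := hFreg _ h1
        rw [show w * X j = u * l + (w * X j - u * l) by ring]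
        exact Submodule.add_mem_sup (Ideal.mem_span_singleton'.2 ⟨u, rfl⟩) h2
      -- change coordinates and drop the first variable
      obtain ⟨E, hE, hEh, hEh'⟩ := exists_change a ha
      set g := fun i => E (f' i)
      have hg2 : ∀ i, (g i).IsHomogeneous e := fun i => hEh _ _ (hf2 i)
      have hEJ : ∀ p, p ∈ J ↔ E p ∈ Ideal.span (Set.range g) := by
        intro p
        have e : Ideal.span (Set.range g) =
            J.map (E : MvPolynomial (Fin (m + 1)) K →ₐ[K] MvPolynomial (Fin (m + 1)) K) := by
          rw [hJ, Ideal.map_span, ← Set.range_comp]; rfl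
        rw [e]
        constructor
        · exact fun h => Ideal.mem_map_of_mem _ h
        · intro h
          rw [Ideal.map_span, Set.image_univ.symm.trans rfl] at e
          have h' := Ideal.mem_map_of_mem
            (E.symm : MvPolynomial (Fin (m + 1)) K →ₐ[K] MvPolynomial (Fin (m + 1)) K) h
          rw [hJ, Ideal.map_span, Ideal.map_span, Set.image_image] at h'
          simpa using h'
      have hX : ∀ p, p * X 0 ∈ Ideal.span (Set.range g) → p ∈ Ideal.span (Set.range g) := by
        intro p hp
        have h : E.symm p * l ∈ J := by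
          rw [hEJ, map_mul, AlgEquiv.apply_symm_apply, hE]; exact hp
        have := (hEJ _).1 (hal _ h)
        rwa [AlgEquiv.apply_symm_apply] at this
      have hres := strongReg_res0 he hg2 (hreg'.mapEquiv E) hX
      have hw0 := ihn k (by omega) (fun i => res0 m (g i)) (fun i => res0_homogeneous (hg2 i)) hres
        (res0 m (E w)) (fun j => by
          obtain ⟨j', hj'⟩ : ∃ j', j' = (X j.succ : MvPolynomial (Fin (m + 1)) K) := ⟨_, rfl⟩
          have hlin : ∀ y : MvPolynomial (Fin (m + 1)) K, y.IsHomogeneous 1 →
              w * y ∈ Ideal.span {l} ⊔ J := by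
            intro y hy
            rw [← mem_homogeneousSubmodule, homogeneousSubmodule_one_eq_span_X] at hy
            induction hy using Submodule.span_induction with
            | mem x hx => obtain ⟨i, rfl⟩ := hx; exact hwx i
            | zero => simp
            | add x y _ _ hx hy => rw [mul_add]; exact Submodule.add_mem _ hx hy
            | smul r x _ hx => rw [mul_smul_comm, smul_eq_C_mul]; exact Ideal.mul_mem_left _ _ hx
          have h := hlin (E.symm (X j.succ)) (hEh' _ _ (isHomogeneous_X K _))
          obtain ⟨_, hv, r, hr, hvr⟩ := Submodule.mem_sup.1 h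
          obtain ⟨v, rfl⟩ := Ideal.mem_span_singleton'.1 hv
          have h2 := congrArg (fun p => res0 m (E p)) hvr
          have hEl : E l = X 0 := hE
          simp only [map_add, map_mul, hEl, AlgEquiv.apply_symm_apply] at h2
          have hx0 : res0 m (X 0 : MvPolynomial (Fin (m + 1)) K) = 0 := by simp [res0]
          have hxj : res0 m (X j.succ : MvPolynomial (Fin (m + 1)) K) = X j := by simp [res0]
          rw [hx0, hxj, mul_zero, zero_add] at h2
          rw [← h2]
          have h3 := Ideal.mem_map_of_mem (res0 m (K := K)) ((hEJ r).1 hr)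
          rw [Ideal.map_span, ← Set.range_comp] at h3
          exact h3)
      have hEw : E w ∈ Ideal.span {X 0} ⊔ Ideal.span (Set.range g) := by
        rw [show E w = (E w - rename Fin.succ (res0 m (E w))) + rename Fin.succ (res0 m (E w)) by ring]
        refine Submodule.add_mem _ (Submodule.mem_sup_left (sub_res0_mem m _)) ?_
        have h := Ideal.mem_map_of_mem (rename Fin.succ : MvPolynomial (Fin m) K →ₐ[K] _) hw0
        rw [Ideal.map_span, ← Set.range_comp] at h
        refine (Ideal.span_le.2 ?_) h
        rintro _ ⟨i, rfl⟩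
        show rename Fin.succ (res0 m (g i)) ∈ _
        rw [show rename Fin.succ (res0 m (g i)) = g i - (g i - rename Fin.succ (res0 m (g i))) by ring]
        exact Submodule.sub_mem _ (Submodule.mem_sup_right (Ideal.subset_span ⟨i, rfl⟩))
          (Submodule.mem_sup_left (sub_res0_mem m _))
      obtain ⟨_, hv, r, hr, hvr⟩ := Submodule.mem_sup.1 hEw
      obtain ⟨v, rfl⟩ := Ideal.mem_span_singleton'.1 hv
      have hr' : E.symm r ∈ J := by rw [hEJ, AlgEquiv.apply_symm_apply]; exact hr
      have hw' : w = E.symm v * l + E.symm r := by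
        apply E.injective
        have hEl : E l = X 0 := hE
        simp [hEl, hvr]
      have h4 : (z - E.symm v * F) * l ∈ J := by
        have : (z - E.symm v * F) * l = E.symm r * F + q := by
          rw [sub_mul, ← hwq, hw']; ring
        rw [this]
        exact Ideal.add_mem _ (Ideal.mul_mem_right _ _ hr') hq
      rw [show z = E.symm v * F + (z - E.symm v * F) by ring]
      exact Submodule.add_mem_sup (Ideal.mem_span_singleton'.2 ⟨_, rfl⟩) (hal _ h4)

/-- Good coordinates for a short regular sequence. -/
theorem exists_good_coord [Infinite K] {e : ℕ} (he : 0 < e) {m c : ℕ} (hc : c ≤ m)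
    (f : Fin c → MvPolynomial (Fin (m + 1)) K) (hf : ∀ i, (f i).IsHomogeneous e) (hreg : StrongReg f) :
    ∃ E : MvPolynomial (Fin (m + 1)) K ≃ₐ[K] MvPolynomial (Fin (m + 1)) K,
      (∀ p d, p.IsHomogeneous d → (E p).IsHomogeneous d) ∧
      (∀ p d, p.IsHomogeneous d → (E.symm p).IsHomogeneous d) ∧
      StrongReg (fun i => res0 m (E (f i))) := by
  obtain ⟨a, ha, hal⟩ := exists_regular_form (Nat.succ_pos m) _
    (socle_free he (m + 1) c (by omega) f hf hreg)
  obtain ⟨E, hE, hEh, hEh'⟩ := exists_change a ha
  refine ⟨E, hEh, hEh', strongReg_res0 he (fun i => hEh _ _ (hf i)) (hreg.mapEquiv E) fun p hp => ?_⟩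
  have h := Ideal.mem_map_of_mem
    (E.symm : MvPolynomial (Fin (m + 1)) K →ₐ[K] MvPolynomial (Fin (m + 1)) K) hp
  rw [Ideal.map_span, ← Set.range_comp] at h
  have e' : (⇑(E.symm : MvPolynomial (Fin (m + 1)) K →ₐ[K] MvPolynomial (Fin (m + 1)) K) ∘
      fun i => E (f i)) = f := funext fun i => E.symm_apply_apply (f i)
  rw [e', map_mul] at h
  have hl : E.symm (X 0) = ∑ j, a j • X j := by rw [← hE, E.symm_apply_apply]
  have h1 : E.symm p ∈ Ideal.span (Set.range f) := hal _ (by rw [← hl]; exact h)
  have h2 := Ideal.mem_map_of_mem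
    (E : MvPolynomial (Fin (m + 1)) K →ₐ[K] MvPolynomial (Fin (m + 1)) K) h1
  rw [Ideal.map_span, ← Set.range_comp] at h2
  simpa [Function.comp_def] using h2

/-- Coordinates in which the sequence stays regular after dropping the last variables. -/
theorem exists_coords {K : Type*} [Field K] [Infinite K] {e : ℕ} (he : 0 < e) : ∀ (n c : ℕ) (hc : c ≤ n)
    (f : Fin c → MvPolynomial (Fin n) K), (∀ i, (f i).IsHomogeneous e) → StrongReg f →
    ∃ (y : Fin n → MvPolynomial (Fin n) K) (Fb : Fin c → MvPolynomial (Fin c) K),
      (∀ u, (y u).IsHomogeneous 1) ∧ (∀ j, X j ∈ Submodule.span K (Set.range y)) ∧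
      (∀ t, (Fb t).IsHomogeneous e) ∧ StrongReg Fb ∧
      ∀ t, f t - aeval (fun v => y (Fin.castLE hc v)) (Fb t) ∈
        Ideal.span (y '' {u : Fin n | c ≤ u.1}) := by
  intro n
  induction n with
  | zero =>
    intro c hc f hf hreg
    obtain rfl : c = 0 := by omega
    exact ⟨X, f, fun u => u.elim0, fun j => j.elim0, hf, hreg, fun t => t.elim0⟩
  | succ m ih =>
    intro c hc f hf hreg
    rcases Nat.lt_or_ge c (m + 1) with hcm | hcm
    · obtain ⟨E, hE, hE', hreg'⟩ := exists_good_coord he (by omega : c ≤ m) f hf hreg
      obtain ⟨y', Fb, hy', hsp', hFb, hFreg, hrel⟩ := ih c (by omega) _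
        (fun i => res0_homogeneous (hE _ _ (hf i))) hreg'
      let φ : MvPolynomial (Fin m) K →ₐ[K] MvPolynomial (Fin (m + 1)) K :=
        (E.symm : MvPolynomial (Fin (m + 1)) K →ₐ[K] MvPolynomial (Fin (m + 1)) K).comp
          (rename Fin.succ)
      let y : Fin (m + 1) → MvPolynomial (Fin (m + 1)) K :=
        Fin.snoc (fun u => φ (y' u)) (E.symm (X 0))
      have hlast : E.symm (X 0) ∈ Submodule.span K (Set.range y) :=
        Submodule.subset_span ⟨Fin.last m, by simp [y]⟩
      have hin : ∀ q ∈ Submodule.span K (Set.range y'), φ q ∈ Submodule.span K (Set.range y) := by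
        intro q hq
        induction hq using Submodule.span_induction with
        | mem x hx =>
          obtain ⟨u, rfl⟩ := hx
          exact Submodule.subset_span ⟨u.castSucc, by simp [y]⟩
        | zero => simp
        | add a b _ _ ha hb => rw [map_add]; exact add_mem ha hb
        | smul r a _ ha => rw [map_smul]; exact Submodule.smul_mem _ r ha
      refine ⟨y, Fb, fun u => ?_, fun j => ?_, hFb, hFreg, fun t => ?_⟩
      · induction u using Fin.lastCases with
        | last => simpa [y] using hE' _ _ (isHomogeneous_X K 0)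
        | cast u => simpa [y, φ] using hE' _ _ (hy' u).rename_isHomogeneous
      · have h1 : E (X j) ∈ homogeneousSubmodule (Fin (m + 1)) K 1 := hE _ _ (isHomogeneous_X K j)
        rw [homogeneousSubmodule_one_eq_span_X] at h1
        have h2 : Submodule.span K (Set.range (X : Fin (m + 1) → MvPolynomial (Fin (m + 1)) K)) ≤
            (Submodule.span K (Set.range y)).comap E.symm.toLinearMap := by
          refine Submodule.span_le.2 ?_
          rintro _ ⟨i, rfl⟩
          induction i using Fin.cases with
          | zero => exact hlast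
          | succ i =>
            show E.symm (X i.succ) ∈ Submodule.span K (Set.range y)
            have h := hin _ (hsp' i)
            simpa [φ] using h
        simpa using h2 h1
      · have e1 : (fun v => y (Fin.castLE hc v)) = fun v => φ (y' (Fin.castLE (by omega) v)) := by
          funext v
          have : (Fin.castLE hc v : Fin (m + 1)) = (Fin.castLE (by omega : c ≤ m) v).castSucc := by
            ext; simp
          rw [this]
          simp only [y, Fin.snoc_castSucc]
        rw [e1, ← comp_aeval_apply]
        have hy0 : E.symm (X 0) ∈ Ideal.span (y '' {u : Fin (m + 1) | c ≤ u.1}) :=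
          Ideal.subset_span ⟨Fin.last m, (by simp; omega : c ≤ (Fin.last m).1), by simp [y]⟩
        have h2 : f t - φ (res0 m (E (f t))) ∈ Ideal.span (y '' {u : Fin (m + 1) | c ≤ u.1}) := by
          obtain ⟨r, hr⟩ := Ideal.mem_span_singleton'.1 (sub_res0_mem m (E (f t)))
          have : f t - φ (res0 m (E (f t))) = E.symm r * E.symm (X 0) := by
            rw [← map_mul, hr, map_sub, E.symm_apply_apply]; rfl
          rw [this]
          exact Ideal.mul_mem_left _ _ hy0
        have h3 := Ideal.mem_map_of_mem φ (hrel t)
        rw [Ideal.map_span, map_sub] at h3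
        have h4 : φ '' (y' '' {u : Fin m | c ≤ u.1}) ⊆ y '' {u : Fin (m + 1) | c ≤ u.1} := by
          rintro _ ⟨_, ⟨u, hu, rfl⟩, rfl⟩
          exact ⟨u.castSucc, by simpa using hu, by simp [y]⟩
        have h5 := add_mem h2 (Ideal.span_mono h4 h3)
        rwa [sub_add_sub_cancel] at h5
    · obtain rfl : c = m + 1 := by omega
      refine ⟨X, f, fun u => isHomogeneous_X K u, fun j => Submodule.subset_span ⟨j, rfl⟩, hf, hreg,
        fun t => ?_⟩
      have : (fun v => (X (Fin.castLE hc v) : MvPolynomial (Fin (m + 1)) K)) = X := by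
        funext v; simp
      rw [this, aeval_X_left_apply, sub_self]
      exact zero_mem _

variable {ι : Type*}

theorem hilbert_regular {n : ℕ} {f : ι → MvPolynomial (Fin n) K}
    {e : ℕ} (he : 0 < e) (hf : ∀ i, (f i).IsHomogeneous e) (hne : ∀ i, f i ≠ 0) (hreg : StrongReg f) (S : Finset ι) :
    ∀ d, ((n.multichoose d : ℤ) - Module.finrank K (piece (Ideal.span (f '' S)) d)) =
      PowerSeries.coeff d (hilb0 n * (1 - PowerSeries.X ^ e) ^ S.card) := by
  classical
  induction S using Finset.induction with
  | empty =>
    intro d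
    have : piece (Ideal.span (f '' ((∅ : Finset ι) : Set ι))) d = ⊥ := by
      simp [piece]
    rw [this, finrank_bot]
    simp [hilb0]
  | insert u S hu ih =>
    intro d
    set J := Ideal.span (f '' (S : Set ι))
    have hJ : IsHomIdeal J := isHomIdeal_image (deg := fun _ => e) hf _
    have hJ' : Ideal.span (f '' ((insert u S : Finset ι) : Set ι)) = Ideal.span {f u} ⊔ J := by
      rw [Finset.coe_insert, Set.image_insert_eq, Ideal.span_insert]
    rw [hJ', Finset.card_insert_of_notMem hu, pow_succ, ← mul_assoc]
    set H := hilb0 n * (1 - PowerSeries.X ^ e) ^ S.card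
    by_cases hd : e ≤ d
    · obtain ⟨r, rfl⟩ : ∃ r, d = r + e := ⟨d - e, by omega⟩
      let mu : MvPolynomial (Fin n) K →ₗ[K] MvPolynomial (Fin n) K := LinearMap.mulRight K (f u)
      have hinj : Function.Injective mu := fun p q h => mul_right_cancel₀ (hne u) h
      have h1 : piece (Ideal.span {f u} ⊔ J) (r + e) =
          piece J (r + e) ⊔ (homogeneousSubmodule (Fin n) K r).map mu := by
        apply le_antisymm
        · rintro p ⟨hp, hp'⟩
          obtain ⟨a, ha, j, hj, rfl⟩ := Submodule.mem_sup.1 hp
          obtain ⟨a', rfl⟩ := Ideal.mem_span_singleton'.1 ha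
          rw [← homogeneousComponent_eq_self hp', map_add, homogeneousComponent_mul_homog a' (hf u),
            if_pos (by omega), Nat.add_sub_cancel]
          exact Submodule.add_mem _
            (Submodule.mem_sup_right ⟨_, homogeneousComponent_isHomogeneous _ _, rfl⟩)
            (Submodule.mem_sup_left ⟨hJ _ hj _, homogeneousComponent_isHomogeneous _ _⟩)
        · refine sup_le (piece_mono le_sup_right _) ?_
          rintro _ ⟨a, ha, rfl⟩
          exact ⟨Submodule.mem_sup_left (Ideal.mem_span_singleton'.2 ⟨a, rfl⟩), ha.mul (hf u)⟩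
      have h2 : piece J (r + e) ⊓ (homogeneousSubmodule (Fin n) K r).map mu =
          (piece J r).map mu := by
        apply le_antisymm
        · rintro _ ⟨hp, a, ha, rfl⟩
          exact ⟨a, ⟨hreg _ u (by simpa using hu) a hp.1, ha⟩, rfl⟩
        · rintro _ ⟨a, ha, rfl⟩
          exact ⟨⟨J.mul_mem_right _ ha.1, ha.2.mul (hf u)⟩, a, ha.2, rfl⟩
      have : FiniteDimensional K ((homogeneousSubmodule (Fin n) K r).map mu) :=
        Module.Finite.map _ _
      have h3 := Submodule.finrank_sup_add_finrank_inf_eq (piece J (r + e))
        ((homogeneousSubmodule (Fin n) K r).map mu)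
      rw [← h1, h2] at h3
      have h4 := (Submodule.equivMapOfInjective mu hinj (piece J r)).finrank_eq
      have h5 := (Submodule.equivMapOfInjective mu hinj (homogeneousSubmodule (Fin n) K r)).finrank_eq
      rw [finrank_homogeneous] at h5
      have hsplit : PowerSeries.coeff (r + e) (H * (1 - PowerSeries.X ^ e)) =
          PowerSeries.coeff (r + e) H - PowerSeries.coeff r H := by
        rw [mul_sub, mul_one, map_sub, PowerSeries.coeff_mul_X_pow]
      rw [hsplit, ← ih, ← ih]
      omega
    · have h1 : piece (Ideal.span {f u} ⊔ J) d = piece J d := by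
        refine le_antisymm ?_ (piece_mono le_sup_right _)
        rintro p ⟨hp, hp'⟩
        obtain ⟨a, ha, j, hj, rfl⟩ := Submodule.mem_sup.1 hp
        obtain ⟨a', rfl⟩ := Ideal.mem_span_singleton'.1 ha
        rw [← homogeneousComponent_eq_self hp', map_add, homogeneousComponent_mul_homog a' (hf u),
          if_neg hd, zero_add]
        exact ⟨hJ _ hj _, homogeneousComponent_isHomogeneous _ _⟩
      rw [h1, ih, mul_sub, mul_one, map_sub, PowerSeries.coeff_mul_X_pow', if_neg hd, sub_zero]

/-- Forms in as many variables as the length of a regular sequence have only the trivial common zero. -/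
theorem eval_ne_zero_of_strongReg {c : ℕ} {e : ℕ} (he : 0 < e) {F : Fin c → MvPolynomial (Fin c) K}
    (hF : ∀ t, (F t).IsHomogeneous e) (hreg : StrongReg F) (x : Fin c → K)
    (hx : ∀ t, eval x (F t) = 0) : x = 0 := by
  classical
  rcases Nat.eq_zero_or_pos c with rfl | hc
  · exact funext fun i => i.elim0
  have hne : ∀ i, F i ≠ 0 := by
    intro i hi
    have h := hreg ∅ i (Set.notMem_empty i) 1 (by simp [hi])
    simp at h
  set D := c * e + 1
  have h0 := hilbert_regular he hF hne hreg Finset.univ D
  have hg : (1 - PowerSeries.X ^ e : PowerSeries ℤ) =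
      (1 - PowerSeries.X) * ((∑ i ∈ Finset.range e, Polynomial.X ^ i : Polynomial ℤ) : PowerSeries ℤ) := by
    rw [← Polynomial.coeToPowerSeries.ringHom_apply, map_sum]
    simp only [map_pow, Polynomial.coeToPowerSeries.ringHom_apply, Polynomial.coe_X]
    exact (mul_neg_geom_sum _ e).symm
  rw [Finset.card_univ, Fintype.card_fin, hg, mul_pow, ← mul_assoc, hilb0_mul, one_mul,
    ← Polynomial.coe_pow, Polynomial.coeff_coe] at h0
  have hdeg : ((∑ i ∈ Finset.range e, Polynomial.X ^ i : Polynomial ℤ) ^ c).natDegree < D := by
    refine Nat.lt_succ_of_le (Polynomial.natDegree_pow_le_of_le c ?_)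
    exact Polynomial.natDegree_sum_le_of_forall_le _ _ fun i hi =>
      (Polynomial.natDegree_X_pow_le i).trans (Finset.mem_range.1 hi).le
  rw [Polynomial.coeff_eq_zero_of_natDegree_lt hdeg, Finset.coe_univ, Set.image_univ] at h0
  have hfull : homogeneousSubmodule (Fin c) K D ≤ piece (Ideal.span (Set.range F)) D := by
    refine (Submodule.eq_of_le_of_finrank_le inf_le_right ?_).ge
    rw [finrank_homogeneous]
    change c.multichoose D ≤ Module.finrank K (piece (Ideal.span (Set.range F)) D)
    omega
  funext j
  have hm : (X j : MvPolynomial (Fin c) K) ^ D ∈ Ideal.span (Set.range F) :=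
    (hfull ((mem_homogeneousSubmodule _ _).2 (isHomogeneous_X_pow j D))).1
  have hk : Ideal.span (Set.range F) ≤ RingHom.ker (eval x) := Ideal.span_le.2 (by
    rintro _ ⟨t, rfl⟩; exact hx t)
  have h1 := hk hm
  rw [RingHom.mem_ker, map_pow, eval_X] at h1
  exact pow_eq_zero_iff (n := D) (by omega) |>.1 h1

end Vale.Agent.P200d
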