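import Vale.Agent.P200d.Cone
import Vale.Agent.P200d.BC

/-!
Ranks of the differentials of a resolution over an algebra that is finite free over a domain and
whose reduction has a nilpotent augmentation ideal.
-/

noncomputable section

namespace Vale.Agent.P200d

universe u

theorem finrank_range_add_ker {R : Type*} [CommRing R] [IsDomain R] [IsNoetherianRing R]
    {V W : Type*} [AddCommGroup V] [Module R V] [Module.Finite R V] [AddCommGroup W] [Module R W]
    (φ : V →ₗ[R] W) :
    Module.finrank R (LinearMap.range φ) + Module.finrank R (LinearMap.ker φ) =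
      Module.finrank R V := by
  rw [← φ.quotKerEquivRange.finrank_eq]
  exact Submodule.finrank_quotient_add_finrank _

variable {A : Type*} [CommRing A] [IsDomain A] {K : Type*} [Field K]
  {E : Type u} [Ring E] [Algebra A E] {E' : Type*} [Ring E'] [Algebra K E']
  {ι : Type*} [Fintype ι] [DecidableEq ι]

theorem unipotent_injective {I : Submodule K E'} (hI : NilIdeal I)
    {s : ℕ} (Q : Matrix (Fin s) (Fin s) E') (hQ : ∀ a b, Q a b - (if a = b then 1 else 0) ∈ I)
    (x : Fin s → E') (hx : Matrix.vecMul x Q = 0) : x = 0 := by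
  classical
  obtain ⟨hl, hr, k, hk, hnil⟩ := hI
  have h : ∀ j, 0 < j → ∀ a, x a ∈ I ^ j := by
    have step : ∀ b, x b = -∑ a, x a * (Q a b - (if a = b then 1 else 0)) := by
      intro b
      have hb : ∑ a, x a * Q a b = 0 := congrFun hx b
      simp only [mul_sub, Finset.sum_sub_distrib, hb, mul_ite, mul_one, mul_zero,
        Finset.sum_ite_eq', Finset.mem_univ, if_true]
      abel
    intro j
    induction j with
    | zero => intro h; omega
    | succ j ih =>
      intro _ b
      rw [step b]
      refine neg_mem (sum_mem fun a _ => ?_)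
      rcases Nat.eq_zero_or_pos j with rfl | hj
      · rw [zero_add, pow_one]
        exact hl (Submodule.mul_mem_mul Submodule.mem_top (hQ a b))
      · rw [pow_succ]
        exact Submodule.mul_mem_mul (ih hj a) (hQ a b)
  funext a
  have := h k hk a
  rwa [hnil, Submodule.mem_bot] at this

variable (bA : Module.Basis ι A E) (bK : Module.Basis ι K E') (εA : A →+* K) (red : E →+* E')
  (hsmul : ∀ a u, red (a • u) = εA a • red u) (hbas : ∀ i, red (bA i) = bK i)

include hsmul hbas in
theorem repr_map (u : E) (i : ι) : bK.repr (red u) i = εA (bA.repr u i) := by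
  conv_lhs => rw [← bA.sum_repr u, map_sum]
  simp [hsmul, hbas, Finsupp.finsetSum_apply, Finsupp.single_apply]

/-- The matrix of right multiplication by a matrix in a basis. -/
def coordMat {R : Type*} [CommRing R] {S : Type*} [Ring S] [Algebra R S] (b : Module.Basis ι R S)
    {s : ℕ} (Q : Matrix (Fin s) (Fin s) S) : Matrix (Fin s × ι) (Fin s × ι) R :=
  Matrix.of fun r c => b.repr (b r.2 * Q r.1 c.1) c.2

omit [DecidableEq ι] in
theorem coordMat_spec {R : Type*} [CommRing R] {S : Type*} [Ring S] [Algebra R S]
    (b : Module.Basis ι R S) {s : ℕ} (Q : Matrix (Fin s) (Fin s) S) (x : Fin s → S) :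
    Matrix.vecMul (fun r : Fin s × ι => b.repr (x r.1) r.2) (coordMat b Q) =
      fun c => b.repr (Matrix.vecMul x Q c.1) c.2 := by
  funext c
  simp only [Matrix.vecMul, dotProduct, coordMat, Matrix.of_apply, Fintype.sum_prod_type, map_sum,
    Finsupp.finsetSum_apply]
  refine Finset.sum_congr rfl fun a _ => ?_
  conv_rhs => rw [← b.sum_repr (x a), Finset.sum_mul]
  simp [map_sum, smul_mul_assoc, Finsupp.finsetSum_apply]

include hsmul hbas in
theorem injective_of_reduction {s : ℕ} (Q : Matrix (Fin s) (Fin s) E)
    (hQ : ∀ x : Fin s → E', Matrix.vecMul x (Q.map red) = 0 → x = 0)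
    (x : Fin s → E) (hx : Matrix.vecMul x Q = 0) : x = 0 := by
  have hM : (coordMat bA Q).map εA = coordMat bK (Q.map red) := by
    refine Matrix.ext fun r c => ?_
    show εA (bA.repr (bA r.2 * Q r.1 c.1) c.2) = bK.repr (bK r.2 * red (Q r.1 c.1)) c.2
    rw [← repr_map bA bK εA red hsmul hbas, map_mul, hbas]
  have hinj : Function.Injective (fun c => Matrix.vecMul c ((coordMat bA Q).map εA)) := by
    intro c c' hcc
    rw [← sub_eq_zero]
    have h0 : Matrix.vecMul (c - c') (coordMat bK (Q.map red)) = 0 := by
      rw [← hM, Matrix.sub_vecMul]; exact sub_eq_zero.2 hcc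
    set y : Fin s → E' := fun a => ∑ i, (c - c') (a, i) • bK i
    have hy : (fun r : Fin s × ι => bK.repr (y r.1) r.2) = c - c' := by
      funext r
      simp [y, Finsupp.finsetSum_apply, Finsupp.single_apply]
    rw [← hy, coordMat_spec] at h0
    have h1 : y = 0 := hQ y (funext fun a => bK.repr.map_eq_zero_iff.1
      (Finsupp.ext fun i => congrFun h0 (a, i)))
    rw [← hy, h1]
    funext r
    simp
  have hdet : (coordMat bA Q).det ≠ 0 := by
    intro h
    have h1 : IsUnit ((coordMat bA Q).map εA).det :=
      (Matrix.isUnit_iff_isUnit_det _).1 (Matrix.vecMul_injective_iff_isUnit.1 hinj)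
    rw [← RingHom.mapMatrix_apply, ← RingHom.map_det, h, map_zero] at h1
    exact not_isUnit_zero h1
  have hc := coordMat_spec bA Q x
  have hzero : (fun c : Fin s × ι => bA.repr (Matrix.vecMul x Q c.1) c.2) = 0 := by
    funext c
    rw [hx, Pi.zero_apply, map_zero, Finsupp.zero_apply, Pi.zero_apply]
  rw [hzero] at hc
  have h0 := Matrix.eq_zero_of_vecMul_eq_zero hdet hc
  funext a
  exact bA.repr.map_eq_zero_iff.1 (Finsupp.ext fun i => congrFun h0 (a, i))

variable [IsNoetherianRing A] [Module.Free A E] [Module.Finite A E] (ε : E →+* K)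
  (κ : K →+* E) (hκ : ∀ x, ε (κ x) = x)
  (hinj : ∀ (s : ℕ) (Q : Matrix (Fin s) (Fin s) E), Q.map ε = 1 →
    ∀ x, Matrix.vecMul x Q = 0 → x = 0)

omit [Module.Free A E] [Module.Finite A E] [IsNoetherianRing A] in
theorem finrank_pi_const [Module.Free A E] [Module.Finite A E] (g : ℕ) :
    Module.finrank A (Fin g → E) = g * Module.finrank A E := by
  rw [Module.finrank_pi_fintype, Finset.sum_const, Finset.card_univ, Fintype.card_fin, smul_eq_mul]

include hκ hinj in
theorem rank_lower {a b : ℕ} (D : Matrix (Fin a) (Fin b) E) :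
    Module.finrank K (LinearMap.range (rowMap (D.map ε))) * Module.finrank A E ≤
      Module.finrank A (LinearMap.range ((rowMap D).restrictScalars A)) := by
  classical
  set W := LinearMap.range (rowMap (D.map ε))
  let w := Module.finBasis K W
  set s := Module.finrank K W
  choose c hc using fun l : Fin s => (w l).2
  obtain ⟨L, hL⟩ := LinearMap.exists_leftInverse_of_injective
    (W.subtype ∘ₗ w.equivFun.symm.toLinearMap)
    (LinearMap.ker_eq_bot.2 (W.subtype_injective.comp w.equivFun.symm.injective))
  let C' : Matrix (Fin s) (Fin a) E := Matrix.of fun l j => κ (c l j)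
  let E1 : Matrix (Fin b) (Fin s) E := Matrix.of fun k l => κ (L (Pi.single k 1) l)
  have hQ : (C' * D * E1).map ε = 1 := by
    rw [Matrix.map_mul, Matrix.map_mul]
    refine Matrix.ext fun l l' => ?_
    have e1 : (C'.map ε * D.map ε) l = (w l : Fin b → K) := by
      rw [← hc l, rowMap_apply]
      funext k
      simp [C', Matrix.mul_apply, Matrix.vecMul, dotProduct, hκ]
    have e2 : L (w l : Fin b → K) = Pi.single l 1 := by
      have := LinearMap.congr_fun hL (Pi.single l 1)
      simpa [Module.Basis.equivFun_symm_apply, Pi.single_apply, Finset.sum_ite_eq'] using this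
    rw [Matrix.mul_apply, Matrix.one_apply]
    have e3 : ∀ k, E1.map ε k l' = L (Pi.single k 1) l' := fun k => hκ _
    simp only [e3, congrFun e1]
    rw [show (if l = l' then (1 : K) else 0) = (Pi.single l (1 : K) : Fin s → K) l' by
      simp [Pi.single_apply, eq_comm], ← e2]
    conv_rhs => rw [pi_eq_sum_univ' (w l : Fin b → K), map_sum]
    simp [Finset.sum_apply]
  let ψ : (Fin s → E) →ₗ[A] LinearMap.range ((rowMap D).restrictScalars A) :=
    ((rowMap D).restrictScalars A).rangeRestrict ∘ₗ (rowMap C').restrictScalars A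
  have hψ : Function.Injective ψ := by
    refine (injective_iff_map_eq_zero _).2 fun x hx => ?_
    refine hinj _ _ hQ x ?_
    have h : Matrix.vecMul (Matrix.vecMul x C') D = 0 := congrArg Subtype.val hx
    rw [← Matrix.vecMul_vecMul, ← Matrix.vecMul_vecMul, h, Matrix.zero_vecMul]
  calc s * Module.finrank A E = Module.finrank A (Fin s → E) := (finrank_pi_const s).symm
    _ ≤ _ := LinearMap.finrank_le_finrank_of_injective hψ

include hκ hinj in
theorem rank_dvd {x : E} (P : MRes E (LinearMap.range (LinearMap.toSpanSingleton E E x))) {N' : ℕ}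
    (hvan : P.toRsl.Van (augSet ε) N') :
    Module.finrank A E ∣
      Module.finrank A (LinearMap.range ((LinearMap.toSpanSingleton E E x).restrictScalars A)) := by
  classical
  set R := Module.finrank A E
  let d : ∀ i, (Fin (P.g (i + 1)) → E) →ₗ[A] (Fin (P.g i) → E) :=
    fun i => (rowMap (P.D i)).restrictScalars A
  let r : ℕ → ℕ := fun i => Module.finrank A (LinearMap.range (d i))
  let s : ℕ → ℕ := fun i => Module.finrank K (LinearMap.range (rowMap ((P.D i).map ε)))
  have hr : ∀ i, r i + r (i + 1) = P.g (i + 1) * R := by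
    intro i
    have e : LinearMap.range (d (i + 1)) = LinearMap.ker (d i) := by
      ext y
      exact (P.ex i y).symm
    rw [← finrank_pi_const (A := A) (E := E) (P.g (i + 1)), ← finrank_range_add_ker (d i)]
    show _ + Module.finrank A (LinearMap.range (d (i + 1))) = _
    rw [e]
  have hs : ∀ i, N' ≤ i → s i + s (i + 1) = P.g (i + 1) := by
    intro i hi
    have hDD : P.D (i + 1) * P.D i = 0 := by
      refine Matrix.ext fun a b => ?_
      have h := (P.ex i (P.D (i + 1) a)).2 ⟨Pi.single a 1, by rw [Matrix.single_one_vecMul]; rfl⟩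
      exact congrFun h b
    have e : LinearMap.range (rowMap ((P.D (i + 1)).map ε)) =
        LinearMap.ker (rowMap ((P.D i).map ε)) := by
      refine le_antisymm ?_ fun a ha => ?_
      · rintro _ ⟨y, rfl⟩
        rw [LinearMap.mem_ker, rowMap_apply, rowMap_apply, Matrix.vecMul_vecMul, ← Matrix.map_mul, hDD,
          Matrix.map_zero _ (map_zero _), Matrix.vecMul_zero]
      · have hs : Function.Surjective ε := fun x => ⟨κ x, hκ x⟩
        choose a' ha' using fun k => hs (a k)
        have hd : Matrix.vecMul a' (P.D i) ∈ jG (augSet ε) (Fin (P.g i) → E) := by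
          refine (mem_jG_pi _ _).2 fun k => ?_
          rw [congrFun (sp_vecMul' ε a' (P.D i)) k, show (fun j => ε (a' j)) = a from funext ha']
          exact congrFun ha k
        obtain ⟨b, hb⟩ : ∃ b : Fin (P.g (i + 1 + 1)) → E,
            a' - Matrix.vecMul b (P.D (i + 1)) ∈ jG (augSet ε) (Fin (P.g (i + 1)) → E) :=
          hvan i hi a' hd
        refine ⟨fun j => ε (b j), funext fun k => ?_⟩
        have h1 := (mem_jG_pi _ _).1 hb k
        rw [Pi.sub_apply, map_sub, sub_eq_zero, ha', congrFun (sp_vecMul' ε b _) k] at h1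
        exact h1.symm
    have h2 : s i + Module.finrank K (LinearMap.ker (rowMap ((P.D i).map ε))) = P.g (i + 1) := by
      rw [LinearMap.finrank_range_add_finrank_ker]
      exact Module.finrank_fin_fun K
    rw [← e] at h2
    exact h2
  have htop : r N' = s N' * R := by
    have h1 := rank_lower (A := A) ε κ hκ hinj (P.D N')
    have h2 := rank_lower (A := A) ε κ hκ hinj (P.D (N' + 1))
    have h3 := hr N'
    rw [← hs N' le_rfl, add_mul] at h3
    change s N' * R ≤ r N' at h1
    change s (N' + 1) * R ≤ r (N' + 1) at h2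
    omega
  have hdown : ∀ k, R ∣ r (N' - k) := by
    intro k
    induction k with
    | zero => exact ⟨s N', by rw [Nat.sub_zero, htop, mul_comm]⟩
    | succ k ih =>
      rcases Nat.lt_or_ge k N' with hk | hk
      · have h := hr (N' - (k + 1))
        rw [show N' - (k + 1) + 1 = N' - k by omega] at h
        exact (Nat.dvd_add_left ih).1 (h ▸ dvd_mul_left R _)
      · rwa [show N' - (k + 1) = N' - k by omega]
  have h0 : R ∣ r 0 := by simpa using hdown N'
  let π : (Fin (P.g 0) → E) →ₗ[A] E :=
    ((LinearMap.range (LinearMap.toSpanSingleton E E x)).subtype ∘ₗ P.π).restrictScalars A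
  have hker : LinearMap.ker π = LinearMap.range (d 0) := by
    ext y
    show ((P.π y : E) = 0) ↔ _
    rw [← ZeroMemClass.coe_zero (LinearMap.range (LinearMap.toSpanSingleton E E x)), Subtype.coe_inj,
      P.ex0]
    rfl
  have hran : LinearMap.range π =
      LinearMap.range ((LinearMap.toSpanSingleton E E x).restrictScalars A) := by
    ext y
    constructor
    · rintro ⟨a, rfl⟩; exact (P.π a).2
    · intro hy
      obtain ⟨a, ha⟩ := P.surj ⟨y, hy⟩
      exact ⟨a, congrArg Subtype.val ha⟩
  have h1 := finrank_range_add_ker π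
  rw [hker, hran, finrank_pi_const] at h1
  exact (Nat.dvd_add_left h0).1 (h1 ▸ dvd_mul_left R _)

theorem eq_zero_of_finrank_zero [Module.IsTorsionFree A E] (W : Submodule A E)
    (h : Module.finrank A W = 0) : W = ⊥ := by
  have hsub : Subsingleton W := Module.finrank_zero_iff.1 h
  exact Submodule.eq_bot_iff _ |>.2 fun y hy => congrArg Subtype.val (Subsingleton.elim (⟨y, hy⟩ : W) 0)

include hκ hinj in
/-- A left multiple of a nonzero element is nonzero once the cyclic module is regular. -/
theorem left_mul_ne_zero [Module.IsTorsionFree A E] {x : E} (hx : x ≠ 0)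
    (P : MRes E (LinearMap.range (LinearMap.toSpanSingleton E E x))) {N' : ℕ}
    (hvan : P.toRsl.Van (augSet ε) N') {y : E} (hy : y * x = 0) : y = 0 := by
  set φ := (LinearMap.toSpanSingleton E E x).restrictScalars A
  have hd := rank_dvd (A := A) ε κ hκ hinj P hvan
  have h1 := finrank_range_add_ker φ
  have hne : Module.finrank A (LinearMap.range φ) ≠ 0 := fun h => hx (by
    have hb := eq_zero_of_finrank_zero (LinearMap.range φ) h
    have : x ∈ LinearMap.range φ := ⟨1, by simp [φ]⟩
    rw [hb] at this
    exact (Submodule.mem_bot A).1 this)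
  have hle := Nat.le_of_dvd (Nat.pos_of_ne_zero hne) hd
  have hker : Module.finrank A (LinearMap.ker φ) = 0 := by
    change Module.finrank A E ≤ Module.finrank A (LinearMap.range φ) at hle
    omega
  have hb := eq_zero_of_finrank_zero (LinearMap.ker φ) hker
  have : y ∈ LinearMap.ker φ := by
    show (LinearMap.toSpanSingleton E E x) y = 0
    rw [LinearMap.toSpanSingleton_apply]
    exact hy
  rw [hb] at this
  exact (Submodule.mem_bot A).1 this

end Vale.Agent.P200d
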