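import Vale.Agent.P200d.Regular
import Vale.Agent.P200d.Rank

/-!
The specialised algebras have no zero divisors.
-/

noncomputable section

namespace Vale.Agent.P200d

open MvPolynomial TensorProduct

universe u

variable {K : Type u} [Field K] {p N : ℕ} [hp : Fact p.Prime] [CharP K p]
  {f : Fin N → MvPolynomial (Fin N) K} {m : ℕ} {v : Fin m → Fin N → K}

/-- The identity as a matrix of combinations. -/
def idC (K : Type u) [Field K] (m : ℕ) : Fin m → Fin m → K := fun k j => if j = k then 1 else 0

omit hp [CharP K p] in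
theorem idC_spec (v : Fin m → Fin N → K) (k : Fin m) : v k = ∑ j, idC K m k j • v j := by
  simp [idC, ite_smul]

theorem epsZ_subst (c : Base K p N m) :
    epsZ (algebraMap (Base K p N m) (Z0 K p N) c) =
      algebraMap (Base K p N m) K (subst (idC K m) c) := by
  rw [epsZ_algebraMap]
  show constantCoeff c = constantCoeff (subst (idC K m) c)
  refine RingHom.congr_fun (f := constantCoeff) (g := constantCoeff.comp (subst (idC K m)).toRingHom)
    (ringHom_ext (fun a => ?_) fun s => ?_) c
  · simp [subst, algebraMap_eq]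
  · rcases s with s | k <;> simp [subst, smul_eq_C_mul]

variable (f v) in
/-- Reduction at the origin. -/
def red : Bv (p := p) f v →+* BC (p := p) f K v :=
  bcMap (b := m) (w := v) (C := idC K m) (A := Z0 K p N) (A' := K) f (idC_spec v) epsZ epsZ_subst

theorem red_smul (a : Z0 K p N) (u : Bv (p := p) f v) : red f v (a • u) = epsZ a • red f v u :=
  bcMap_smul f (idC_spec v) epsZ epsZ_subst a u

theorem augRes_red (u : Bv (p := p) f v) : augRes f v (red f v u) = epsB f v u := by
  suffices h : (augRes f v).comp (red (p := p) f v) = epsB f v from RingHom.congr_fun h u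
  refine bc_ext (R := Base K p N m) (A := Z0 K p N) (U := alg (p := p) f v) (fun r => ?_) fun u => ?_
  · show augRes f v (red f v (r ⊗ₜ 1)) = epsB f v (r ⊗ₜ 1)
    rw [red, bcMap_tmul, map_one, map_one, mul_one, inL_apply, augRes, augBC_tmul, epsB, augBC_tmul]
    rfl
  · show augRes f v (red f v (inR f (Z0 K p N) v u)) = epsB f v (inR f (Z0 K p N) v u)
    have e : algIn f (idC_spec v) u = u := Subtype.ext (coe_algIn _ _ _)
    rw [red, bcMap_inR, e, epsB_inR, augRes, inR_apply, augBC_tmul]
    exact one_mul _

variable (hf : ∀ t, (f t).IsHomogeneous p) (hv : LinearIndependent K v)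

include hf hv in
theorem red_basis (x : Idx p N m) :
    red f v (bcBasis f (Z0 K p N) hf v hv x) = bcBasis f K hf v hv x := by
  have e : algIn f (idC_spec v) (gvec f v x) = gvec f v x := Subtype.ext (coe_algIn _ _ _)
  rw [bcBasis_apply, bcBasis_apply, ← inR_apply, ← inR_apply, red, bcMap_inR, e]

include hf hv in
theorem repr_red (u : Bv (p := p) f v) (x : Idx p N m) :
    (bcBasis f K hf v hv).repr (red f v u) x = epsZ ((bcBasis f (Z0 K p N) hf v hv).repr u x) := by
  classical
  set bB := bcBasis f (Z0 K p N) hf v hv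
  conv_lhs => rw [← bB.sum_repr u, map_sum]
  simp only [red_smul, bB, red_basis hf hv, map_sum, map_smul, Module.Basis.repr_self,
    Finsupp.finsetSum_apply, Finsupp.smul_apply, Finsupp.single_apply, smul_eq_mul, mul_ite, mul_one,
    mul_zero, Finset.sum_ite_eq', Finset.mem_univ, if_true]

include hf hv in
theorem vecMul_injective_of_eps (s : ℕ) (Q : Matrix (Fin s) (Fin s) (Bv (p := p) f v))
    (hQ : Q.map (epsB f v) = 1) (x : Fin s → Bv (p := p) f v) (hx : Matrix.vecMul x Q = 0) :
    x = 0 := by
  classical
  obtain ⟨I, hI, hmem⟩ := nil_augRes f hf v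
  refine injective_of_reduction (bcBasis f (Z0 K p N) hf v hv) (bcBasis f K hf v hv) epsZ (red f v)
    red_smul (red_basis hf hv) Q (fun y hy => unipotent_injective hI _ (fun a b => hmem _ ?_) y hy) x hx
  rw [map_sub, Matrix.map_apply, augRes_red, show epsB f v (Q a b) = Q.map (epsB f v) a b from rfl,
    hQ, Matrix.one_apply]
  split_ifs <;> simp

/-- The constants of the specialised algebra. -/
def constB (f : Fin N → MvPolynomial (Fin N) K) (v : Fin m → Fin N → K) : K →+* Bv (p := p) f v :=
  (inL f (Z0 K p N) v).comp (Z0.of.comp (MvPolynomial.C : K →+* MvPolynomial (PVar p N) K))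

theorem epsB_constB (x : K) : epsB f v (constB (p := p) f v x) = x := by
  show epsB f v (inL f (Z0 K p N) v (Z0.of (MvPolynomial.C x))) = x
  rw [inL_apply, epsB, augBC_tmul, map_one, mul_one]
  exact constantCoeff_C _ x

/-- The specialised algebra has no zero divisors. -/
theorem eq_zero_of_mul_eq_zero [IsAlgClosed K] (hf : ∀ t, (f t).IsHomogeneous p)
    (hnz : ∀ x : Fin N → K, (∀ t, eval x (f t) = 0) → x = 0) {m : ℕ}
    {v : Fin (m + 1) → Fin N → K} (hv : LinearIndependent K v) {x y : Bv (p := p) f v}
    (hx : x ≠ 0) (hy : y * x = 0) : y = 0 := by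
  classical
  have := isNoetherianRing_Bv hf hv
  have := Module.Free.of_basis (bcBasis f (Z0 K p N) hf v hv)
  have := Module.Finite.of_basis (bcBasis f (Z0 K p N) hf v hv)
  obtain ⟨P⟩ := exists_mres (R := Bv (p := p) f v)
    (M := LinearMap.range (LinearMap.toSpanSingleton (Bv (p := p) f v) (Bv (p := p) f v) x))
  exact left_mul_ne_zero (A := Z0 K p N) (epsB f v) (constB f v) epsB_constB
    (vecMul_injective_of_eps hf hv) hx P (reg_main hf hnz v hv _ P.toRsl) hy

end Vale.Agent.P200d
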