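import Vale.Agent.P200d.Square
import Vale.Agent.P200d.Coord
import Vale.Agent.P200b.Frame
import Vale.Agent.P200b.Coord

/-!
Frames of commuting twisted roots for regular sequences of forms of degree `p`.
-/

noncomputable section

namespace Vale.Agent.P200d

open MvPolynomial Vale.Agent.P200 Vale.Agent.P200b

universe u

section Subst

variable {L D : Type*} [Field L] [DivisionRing D] [Algebra L D] {c n : ℕ}

/-- A polynomial in central variables is determined by its values at scalar points. -/
theorem eq_zero_of_eval [Infinite L] (P : AD D c)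
    (h : ∀ x : Fin c → L, ∑ a ∈ P.coeff.support, (∏ k, x k ^ a k) • P.coeff a = 0) : P = 0 := by
  classical
  refine AddMonoidAlgebra.ext (Finsupp.ext fun b => ?_)
  refine (Module.forall_dual_apply_eq_zero_iff L (P.coeff b)).1 fun φ => ?_
  let q : MvPolynomial (Fin c) L := ∑ a ∈ P.coeff.support, monomial a (φ (P.coeff a))
  have hq : q = 0 := MvPolynomial.funext fun x => by
    rw [map_zero, ← map_zero φ, ← h x]
    simp only [q, map_sum, eval_monomial, map_smul, smul_eq_mul]
    refine Finset.sum_congr rfl fun a _ => ?_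
    rw [Finsupp.prod_fintype _ _ fun _ => pow_zero _, mul_comm]
  have hc := congrArg (coeff b) hq
  simp only [q, coeff_sum, coeff_monomial, coeff_zero, Finset.sum_ite_eq', Finsupp.mem_support_iff] at hc
  by_cases hb : P.coeff b = 0
  · rw [hb, map_zero]
  · simpa [hb] using hc

/-- Substitution of commuting forms for the variables. -/
def substD (y : Fin c → MvPolynomial (Fin n) L) : AD D c →+* AD D n :=
  AddMonoidAlgebra.liftNCRingHom AddMonoidAlgebra.singleZeroRingHom
    { toFun := fun a => inc (∏ k, y k ^ (Multiplicative.toAdd a) k)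
      map_one' := by simp
      map_mul' := fun a b => by
        rw [← map_mul, ← Finset.prod_mul_distrib]
        simp [pow_add] }
    fun d a => (inc_commute _ _).symm

theorem substD_single (y : Fin c → MvPolynomial (Fin n) L) (a : Fin c →₀ ℕ) (d : D) :
    substD y (AddMonoidAlgebra.single a d) = d • inc (∏ k, y k ^ a k) := by
  show AddMonoidAlgebra.liftNC _ _ (AddMonoidAlgebra.single a d) = _
  rw [AddMonoidAlgebra.liftNC_single]
  exact single_zero_mul d _

theorem substD_smul (y : Fin c → MvPolynomial (Fin n) L) (d : D) (x : AD D c) :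
    substD y (d • x) = d • substD y x := by
  rw [← single_zero_mul, map_mul, substD_single]
  simp [smul_mul]

theorem substD_inc (y : Fin c → MvPolynomial (Fin n) L) (q : MvPolynomial (Fin c) L) :
    substD y (inc q : AD D c) = inc (aeval y q) := by
  induction q using MvPolynomial.induction_on' with
  | monomial a r =>
    rw [inc_monomial, substD_single, aeval_monomial, Finsupp.prod_fintype _ _ fun _ => pow_zero _,
      map_mul]
    rw [show (inc (algebraMap L (MvPolynomial (Fin n) L) r) : AD D n) =
      AddMonoidAlgebra.single 0 (algebraMap L D r) from by rw [algebraMap_eq, C_apply, inc_monomial]]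
    exact (single_zero_mul _ _).symm
  | add a b ha hb => rw [map_add, map_add, ha, hb, map_add, map_add]

/-- Evaluation at a scalar point. -/
def evD (x : Fin c → L) : AD D c →+* D :=
  AddMonoidAlgebra.liftNCRingHom (RingHom.id D)
    { toFun := fun a => algebraMap L D (∏ k, x k ^ (Multiplicative.toAdd a) k)
      map_one' := by simp
      map_mul' := fun a b => by
        rw [← map_mul, ← Finset.prod_mul_distrib]
        simp [pow_add] }
    fun d a => (Algebra.commute_algebraMap_right _ _)

theorem evD_apply (x : Fin c → L) (P : AD D c) :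
    evD x P = ∑ a ∈ P.coeff.support, (∏ k, x k ^ a k) • P.coeff a := by
  conv_lhs => rw [← AddMonoidAlgebra.sum_single P]
  rw [Finsupp.sum, map_sum]
  refine Finset.sum_congr rfl fun a _ => ?_
  show AddMonoidAlgebra.liftNC _ _ (AddMonoidAlgebra.single a (P.coeff a)) = _
  rw [AddMonoidAlgebra.liftNC_single, Algebra.smul_def]
  exact (Algebra.commutes _ _).symm

theorem evD_single (x : Fin c → L) (a : Fin c →₀ ℕ) (d : D) :
    evD x (AddMonoidAlgebra.single a d) = (∏ k, x k ^ a k) • d := by
  show AddMonoidAlgebra.liftNC _ _ (AddMonoidAlgebra.single a d) = _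
  rw [AddMonoidAlgebra.liftNC_single, Algebra.smul_def]
  exact (Algebra.commutes _ _).symm

theorem evD_smul (x : Fin c → L) (d : D) (P : AD D c) : evD x (d • P) = d * evD x P := by
  rw [← single_zero_mul, map_mul, evD_single]
  simp

theorem evD_inc (x : Fin c → L) (q : MvPolynomial (Fin c) L) :
    evD x (inc q : AD D c) = algebraMap L D (eval x q) := by
  induction q using MvPolynomial.induction_on' with
  | monomial a r =>
    rw [inc_monomial, evD_single, eval_monomial, Finsupp.prod_fintype _ _ fun _ => pow_zero _,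
      Algebra.smul_def, ← map_mul, mul_comm]
  | add a b ha hb => rw [map_add, map_add, ha, hb, map_add, map_add]

theorem evD_lin (x : Fin c → L) (r : Fin c → D) : evD x (lin r) = ∑ k, x k • r k := by
  rw [lin, map_sum]
  refine Finset.sum_congr rfl fun k _ => ?_
  rw [evD_smul, xv, evD_single]
  have : ∏ j, x j ^ (Finsupp.single k 1 : Fin c →₀ ℕ) j = x k := by
    rw [Finset.prod_eq_single k] <;> simp +contextual [Finsupp.single_apply, eq_comm]
  rw [this, Algebra.smul_def, mul_one, ← Algebra.commutes, ← Algebra.smul_def]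

theorem lin_pow_eq [Infinite L] {e : ℕ} (r : Fin c → D) (g : Fin c → D)
    (Fb : Fin c → MvPolynomial (Fin c) L)
    (h : ∀ x : Fin c → L, (∑ k, x k • r k) ^ e = ∑ t, eval x (Fb t) • g t) :
    lin r ^ e = ∑ t, g t • inc (Fb t) := by
  refine sub_eq_zero.1 (eq_zero_of_eval (L := L) _ fun x => ?_)
  rw [← evD_apply, map_sub, map_pow, evD_lin, h, map_sum, sub_eq_zero]
  refine Finset.sum_congr rfl fun t _ => ?_
  rw [evD_smul, evD_inc, Algebra.smul_def, Algebra.commutes]

end Subst

/-- Frames with twisted roots. -/
structure PFrame (K D : Type*) [Field K] [DivisionRing D] [Algebra K D] (n c e : ℕ)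
    (f : Fin c → MvPolynomial (Fin n) K) where
  /-- the commuting forms -/
  F : Frame K D n 0 (fun i : Fin 0 => i.elim0)
  pow : ∀ s : Fin n, s.1 < c → ∃ (a : Fin c → D) (z : Fin n → AD D n),
    (∀ u, z u ∈ full D n (e - 1)) ∧
    F.g s ^ e = ∑ t, a t • inc (f t) +
      ∑ u ∈ Finset.univ.filter (fun u : Fin n => c ≤ u.1), z u * F.g u

theorem exists_pframe {K : Type u} [Field K] {p : ℕ} [hp : Fact p.Prime] [CharP K p] {n c : ℕ}
    (hc : c ≤ n) (f : Fin c → MvPolynomial (Fin n) K) (hf : ∀ i, (f i).IsHomogeneous p)
    (hreg : StrongReg f) :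
    ∃ (D : Type u) (_ : DivisionRing D) (_ : Algebra K D), Nonempty (PFrame K D n c p f) := by
  classical
  let L := AlgebraicClosure K
  let ι : MvPolynomial (Fin n) K →+* MvPolynomial (Fin n) L := map (algebraMap K L)
  have : CharP L p := charP_of_injective_algebraMap (algebraMap K L).injective p
  obtain ⟨y, Fb, hy, hspan, hFb, hFreg, hrel⟩ :=
    P200d.exists_coords hp.1.pos n c hc (fun i => ι (f i)) (fun i => (hf i).map _) hreg.extend
  obtain ⟨D, instD, instA, e, g, ecomm, hpow, hli⟩ :=
    exists_system Fb hFb (eval_ne_zero_of_strongReg hp.1.pos hFb hFreg)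
  have hetop : Submodule.span D (Set.range e) = ⊤ :=
    hli.span_eq_top_of_card_eq_finrank' (by rw [Module.finrank_pi])
  let instK : Algebra K D := Algebra.compHom D (algebraMap K L)
  refine ⟨D, instD, instK, ?_⟩
  have hinc : ∀ q : MvPolynomial (Fin n) K,
      @inc K D _ instD instK n q = @inc L D _ instD instA n (ι q) := by
    intro q
    refine AddMonoidAlgebra.ext ?_
    ext a
    rw [coeff_inc, coeff_inc]
    simp only [ι, coeff_map]
    rfl
  let row : Fin n → Fin n → D := fun u j => algebraMap L D (coeff (Finsupp.single j 1) (y u))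
  let G : Fin n → Fin n → D := fun u j =>
    if h : u.1 < c then ∑ v, e ⟨u, h⟩ v * row (Fin.castLE hc v) j else row u j
  have hlin : ∀ u, (@inc L D _ instD instA n (y u)) = lin (row u) := fun u => inc_linear (y u) (hy u)
  have hrc : ∀ u j (x : D), Commute x (row u j) := fun u j x => (Algebra.commutes _ x).symm
  have hcomm : ∀ u t : Fin n, u ≠ t → ∀ j k, Commute (G t j) (G u k) := by
    intro u t hut j k
    simp only [G]
    by_cases hu : u.1 < c
    · by_cases ht : t.1 < c
      · rw [dif_pos hu, dif_pos ht]
        refine Commute.sum_left _ _ _ fun v _ => Commute.sum_right _ _ _ fun w _ => ?_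
        have h1 : Commute (e ⟨t, ht⟩ v) (e ⟨u, hu⟩ w) :=
          ecomm _ _ _ _ fun h => hut (Fin.ext (Fin.mk.inj_iff.1 h).symm)
        exact (h1.mul_right (hrc _ _ _)).mul_left ((hrc _ _ _).symm)
      · rw [dif_neg ht]
        exact (hrc t j _).symm
    · rw [dif_neg hu]
      exact hrc u k _
  have hGspan : Submodule.span D (Set.range G) = ⊤ := by
    set P := Submodule.span D (Set.range G) with hP
    have hrow : ∀ u, row u ∈ P := by
      intro u
      by_cases hu : u.1 < c
      · let Lm : (Fin c → D) →ₗ[D] (Fin n → D) :=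
          { toFun := fun a j => ∑ v, a v * row (Fin.castLE hc v) j
            map_add' := fun a b => by funext j; simp [add_mul, Finset.sum_add_distrib]
            map_smul' := fun r a => by funext j; simp [Finset.mul_sum, mul_assoc] }
        have h1 : Submodule.span D (Set.range e) ≤ P.comap Lm := by
          refine Submodule.span_le.2 ?_
          rintro _ ⟨s, rfl⟩
          refine Submodule.subset_span ⟨Fin.castLE hc s, ?_⟩
          funext j
          simp [G, Lm]
        have h2 := h1 (hetop ▸ Submodule.mem_top : (Pi.single ⟨u, hu⟩ 1 : Fin c → D) ∈ _)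
        rw [Submodule.mem_comap] at h2
        have e2 : Lm (Pi.single ⟨u, hu⟩ 1) = row u := by
          funext j
          simp [Lm, Pi.single_apply]
        rwa [e2] at h2
      · refine Submodule.subset_span ⟨u, ?_⟩
        funext j
        simp [G, hu]
    rw [eq_top_iff]
    intro a _
    have ea : a = ∑ j, a j • (Pi.single j 1 : Fin n → D) := by
      funext i; simp [Finset.sum_apply, Pi.single_apply]
    rw [ea]
    refine Submodule.sum_mem _ fun j _ => Submodule.smul_mem _ _ ?_
    obtain ⟨b, hb⟩ := (Submodule.mem_span_range_iff_exists_fun L).1 (hspan j)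
    have e3 : (Pi.single j 1 : Fin n → D) = ∑ u, algebraMap L D (b u) • row u := by
      funext i
      have h := congrArg (coeff (Finsupp.single i 1)) hb
      simp only [coeff_sum, coeff_smul, smul_eq_mul, coeff_X] at h
      simp only [Finset.sum_apply, Pi.smul_apply, smul_eq_mul, row, ← map_mul, ← map_sum, h]
      by_cases hij : i = j
      · subst hij; simp
      · simp [Finsupp.single_left_inj, Ne.symm hij]
    rw [e3]
    exact Submodule.sum_mem _ fun u _ => Submodule.smul_mem _ _ (hrow u)
  refine ⟨⟨{ G := G, comm := ?_, span := hGspan, sq := fun s hs => absurd hs (Nat.not_lt_zero _) }, ?_⟩⟩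
  · intro u t hut j k
    rw [ex, if_neg (fun h => Nat.not_lt_zero _ h.1), pow_zero, one_mul]
    exact hcomm u t hut j k
  intro s hs
  show ∃ (a : Fin c → D) (z : Fin n → AD D n), _ ∧ lin (G s) ^ p = _ +
    ∑ u ∈ Finset.univ.filter (fun u : Fin n => c ≤ u.1), z u * lin (G u)
  let yc : Fin c → MvPolynomial (Fin n) L := fun v => y (Fin.castLE hc v)
  have hG : lin (G s) = substD yc (lin (e ⟨s, hs⟩)) := by
    have e1 : ∀ v : Fin c, (∏ k, yc k ^ (Finsupp.single v 1 : Fin c →₀ ℕ) k) = yc v := fun v => by
      rw [Finset.prod_eq_single v] <;> simp +contextual [Finsupp.single_apply, eq_comm]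
    have e2 : substD yc (lin (e ⟨s, hs⟩)) =
        ∑ v, e ⟨s, hs⟩ v • (@inc L D _ instD instA n (yc v)) := by
      simp only [lin, map_sum, substD_smul, xv, substD_single, e1, one_smul]
    rw [e2]
    simp only [yc, hlin, lin, Finset.smul_sum, smul_smul, G, dif_pos hs, Finset.sum_smul]
    exact Finset.sum_comm
  have hsq : lin (G s) ^ p = ∑ t, g ⟨s, hs⟩ t • @inc L D _ instD instA n (aeval yc (Fb t)) := by
    rw [hG, ← map_pow, lin_pow_eq _ _ Fb (hpow ⟨s, hs⟩), map_sum]
    simp only [substD_smul, substD_inc]
  have hres : ∀ t, ∃ r : Fin n → MvPolynomial (Fin n) L, (∀ u, (r u).IsHomogeneous (p - 1)) ∧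
      ι (f t) - aeval yc (Fb t) =
        ∑ u ∈ Finset.univ.filter (fun u : Fin n => c ≤ u.1), r u * y u := by
    intro t
    have h := hrel t
    obtain ⟨r0, hsupp, hr0⟩ := (Finsupp.mem_span_image_iff_linearCombination (R := MvPolynomial (Fin n) L)).1 h
    obtain ⟨r, hr⟩ : ∃ r : Fin n → MvPolynomial (Fin n) L,
        ∑ u ∈ Finset.univ.filter (fun u : Fin n => c ≤ u.1),
        r u * y u = ι (f t) - aeval yc (Fb t) := by
      refine ⟨fun u => if c ≤ u.1 then r0 u else 0, ?_⟩
      show _ = ι (f t) - aeval (fun v => y (Fin.castLE hc v)) (Fb t)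
      rw [← hr0, Finsupp.linearCombination_apply]
      simp only [smul_eq_mul]
      rw [Finsupp.sum, ← Finset.sum_subset (s₁ := r0.support)
        (s₂ := Finset.univ.filter (fun u : Fin n => c ≤ u.1))]
      · refine Finset.sum_congr rfl fun u hu => ?_
        rw [if_pos]
        have := hsupp hu
        simpa using this
      · intro u hu
        have := hsupp hu
        simpa using this
      · intro u _ hu
        simp [Finsupp.notMem_support_iff.1 hu]
    refine ⟨fun u => homogeneousComponent (p - 1) (r u),
      fun u => homogeneousComponent_isHomogeneous _ _, ?_⟩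
    have hh : (ι (f t) - aeval yc (Fb t)).IsHomogeneous p := by
      refine IsHomogeneous.sub ((hf t).map _) ?_
      have := (hFb t).aeval yc (n := 1) fun v => hy _
      rwa [one_mul] at this
    have h2 := congrArg (homogeneousComponent p) hr
    rw [map_sum, homogeneousComponent_eq_self hh] at h2
    rw [← h2]
    refine Finset.sum_congr rfl fun u _ => ?_
    rw [homogeneousComponent_mul_homog (r u) (hy u), if_pos hp.1.one_le]
  choose r hr hres using hres
  refine ⟨g ⟨s, hs⟩, fun u => -∑ t, g ⟨s, hs⟩ t • @inc L D _ instD instA n (r t u), fun u => ?_, ?_⟩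
  · exact neg_mem (Submodule.sum_mem _ fun t _ => Submodule.smul_mem _ _ (inc_mem_full (hr t u)))
  rw [hsq]
  have hG' : ∀ u ∈ Finset.univ.filter (fun u : Fin n => c ≤ u.1),
      (-∑ t, g ⟨s, hs⟩ t • @inc L D _ instD instA n (r t u)) * lin (G u) =
        -∑ t, g ⟨s, hs⟩ t • @inc L D _ instD instA n (r t u * y u) := by
    intro u hu
    simp only [Finset.mem_filter, Finset.mem_univ, true_and] at hu
    have eG : G u = row u := by funext j; simp [G, show ¬ u.1 < c by omega]
    rw [eG, ← hlin, neg_mul, Finset.sum_mul]
    simp only [smul_mul, map_mul]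
  rw [Finset.sum_congr rfl hG', Finset.sum_neg_distrib, Finset.sum_comm, ← sub_eq_add_neg,
    ← Finset.sum_sub_distrib]
  refine Finset.sum_congr rfl fun t _ => ?_
  rw [← Finset.smul_sum, ← smul_sub, hinc, ← map_sum, ← map_sub, ← hres t]
  congr 2
  abel

end Vale.Agent.P200d
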