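import Mathlib

/-!
The `p`-th power of a sum in a ring of characteristic `p`.
-/

noncomputable section

namespace Vale.Agent.P200d

open Polynomial

variable {E : Type*} [Ring E]

/-- The inner derivation. -/
def adm (a : E) : AddMonoid.End E := AddMonoidHom.mulLeft a - AddMonoidHom.mulRight a

theorem adm_apply (a x : E) : adm a x = a * x - x * a := rfl

theorem adm_pow_succ (a x : E) (k : ℕ) :
    (adm a ^ (k + 1)) x = a * (adm a ^ k) x - (adm a ^ k) x * a := by
  rw [pow_succ']
  rfl

theorem geom_char {p : ℕ} [hp : Fact p.Prime] {R : Type*} [Ring R] [CharP R p] {x y : R}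
    (h : Commute x y) :
    ∑ i ∈ Finset.range p, x ^ i * y ^ (p - 1 - i) = (x - y) ^ (p - 1) := by
  classical
  have key : (∑ i ∈ Finset.range p, (MvPolynomial.X 0 : MvPolynomial (Fin 2) (ZMod p)) ^ i *
      (MvPolynomial.X 1) ^ (p - 1 - i)) = (MvPolynomial.X 0 - MvPolynomial.X 1) ^ (p - 1) := by
    have hne : (MvPolynomial.X 0 - MvPolynomial.X 1 : MvPolynomial (Fin 2) (ZMod p)) ≠ 0 := by
      rw [sub_ne_zero]
      exact fun e => absurd (MvPolynomial.X_injective e) (by decide)
    refine mul_right_cancel₀ hne ?_
    rw [geom_sum₂_mul, ← pow_succ, Nat.sub_add_cancel hp.1.one_le, sub_pow_char]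
  have hcomm : ∀ a ∈ ({x, y} : Set R), ∀ b ∈ ({x, y} : Set R), a * b = b * a := by
    rintro a (rfl | rfl) b (rfl | rfl)
    · rfl
    · exact h.eq
    · exact h.eq.symm
    · rfl
  let : CommRing (Subring.closure ({x, y} : Set R)) := Subring.closureCommRingOfComm hcomm
  have : CharP (Subring.closure ({x, y} : Set R)) p :=
    CharP.subring R p _
  let a : Subring.closure ({x, y} : Set R) := ⟨x, Subring.subset_closure (by simp)⟩
  let b : Subring.closure ({x, y} : Set R) := ⟨y, Subring.subset_closure (by simp)⟩
  have h2 := congrArg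
    (MvPolynomial.eval₂Hom (ZMod.castHom dvd_rfl (Subring.closure ({x, y} : Set R))) ![a, b]) key
  simp only [map_sum, map_mul, map_pow, map_sub, MvPolynomial.eval₂Hom_X', Matrix.cons_val_zero,
    Matrix.cons_val_one] at h2
  have h3 := congrArg (Subring.closure ({x, y} : Set R)).subtype h2
  simp only [map_sum, map_mul, map_pow, map_sub] at h3
  exact h3

/-- Powers of a sum of two elements, the second commuting with its brackets by the first. -/
theorem add_pow_hoch {p : ℕ} [hp : Fact p.Prime] [CharP E p] (a r : E)
    (hr : ∀ k, Commute r ((adm a ^ k) r)) :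
    (a + r) ^ p = a ^ p + r ^ p + (adm a ^ (p - 1)) r := by
  set A : E[X] := C a + C r * X
  have hAd : ∀ k, (adm A ^ k) (C r) = C ((adm a ^ k) r) := by
    intro k
    induction k with
    | zero => rw [pow_zero, pow_zero]; rfl
    | succ k ih =>
      rw [adm_pow_succ, adm_pow_succ, ih]
      set z := (adm a ^ k) r
      have hX : X * C z = C z * X := (X_mul (p := C z))
      simp only [A, map_sub, map_mul]
      rw [add_mul, mul_add, mul_assoc (C r) X, hX, ← mul_assoc, ← C_mul, ← mul_assoc (C z),
        ← C_mul (a := z) (b := r), ← (hr k).eq]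
      simp only [← C_mul]
      abel
  have hder : derivative (A ^ p) = C ((adm a ^ (p - 1)) r) := by
    have hdA : derivative A = C r := by simp [A, derivative_mul]
    have hpow : ∀ m, derivative (A ^ m) =
        ∑ i ∈ Finset.range m, A ^ i * C r * A ^ (m - 1 - i) := by
      intro m
      induction m with
      | zero => simp
      | succ m ih =>
        rw [pow_succ, derivative_mul, ih, hdA, Finset.sum_range_succ, Finset.sum_mul]
        refine congrArg₂ (· + ·) (Finset.sum_congr rfl fun i hi => ?_) (by simp)
        rw [Finset.mem_range] at hi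
        rw [mul_assoc, ← pow_succ, show m - 1 - i + 1 = m + 1 - 1 - i by omega]
    rw [hpow, ← hAd (p - 1)]
    let L : AddMonoid.End E[X] := AddMonoidHom.mulLeft A
    let Rr : AddMonoid.End E[X] := AddMonoidHom.mulRight A
    have hLR : Commute L Rr := AddMonoidHom.ext fun z => (mul_assoc A z A).symm
    have hLpow : ∀ i z, (L ^ i) z = A ^ i * z := by
      intro i
      induction i with
      | zero => intro z; simp
      | succ i ih =>
        intro z
        rw [pow_succ', pow_succ', mul_assoc]
        show L ((L ^ i) z) = _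
        rw [ih]
        rfl
    have hRpow : ∀ i z, (Rr ^ i) z = z * A ^ i := by
      intro i
      induction i with
      | zero => intro z; simp
      | succ i ih =>
        intro z
        rw [pow_succ', pow_succ, ← mul_assoc]
        show Rr ((Rr ^ i) z) = _
        rw [ih]
        rfl
    have : CharP (AddMonoid.End E[X]) p := by
      refine charP_of_injective_ringHom (f := Module.toAddMonoidEnd E[X] E[X]) ?_ p
      intro u v huv
      have h : u * 1 = v * 1 := DFunLike.congr_fun huv 1
      rwa [mul_one, mul_one] at h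
    have hgeo := geom_char (p := p) hLR
    have := DFunLike.congr_fun hgeo (C r)
    refine Eq.trans ?_ this
    refine Eq.trans ?_ (map_sum (AddMonoidHom.eval (C r) : AddMonoid.End E[X] →+ E[X]) _ _).symm
    refine Finset.sum_congr rfl fun i _ => ?_
    show _ = (L ^ i) ((Rr ^ (p - 1 - i)) (C r))
    rw [hLpow, hRpow, mul_assoc]
  have hdeg : (A ^ p).natDegree ≤ p := by
    refine le_trans natDegree_pow_le ?_
    have : A.natDegree ≤ 1 := le_trans (natDegree_add_le _ _) (max_le (by simp) (le_trans (natDegree_C_mul_le _ _) natDegree_X_le))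
    calc p * A.natDegree ≤ p * 1 := Nat.mul_le_mul_left p this
      _ = p := mul_one p
  have hp1 := hp.1.one_lt
  have hcoef : ∀ k, 1 ≤ k → k < p → (A ^ p).coeff k = if k = 1 then (adm a ^ (p - 1)) r else 0 := by
    intro k hk hkp
    have h := congrArg (fun q : E[X] => q.coeff (k - 1)) hder
    simp only [coeff_derivative, coeff_C] at h
    rw [show k - 1 + 1 = k by omega] at h
    rw [show ((k - 1 : ℕ) : E) + 1 = (k : E) by rw [← Nat.cast_succ]; congr 1; omega] at h
    by_cases h1 : k = 1
    · subst h1
      simpa using h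
    · rw [if_neg (by omega : k - 1 ≠ 0)] at h
      rw [if_neg h1]
      have hu : IsUnit (k : E) := by
        have hz : IsUnit (k : ZMod p) := by
          rw [isUnit_iff_ne_zero, Ne, ZMod.natCast_eq_zero_iff]
          exact fun hd => by have := Nat.le_of_dvd (by omega) hd; omega
        simpa using hz.map (ZMod.castHom dvd_rfl E)
      exact (hu.mul_left_eq_zero).1 h
  have htop : (A ^ p).coeff p = r ^ p := by
    have h1 : ∀ m, (A ^ m).coeff m = r ^ m ∧ ∀ k, m < k → (A ^ m).coeff k = 0 := by
      intro m
      induction m with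
      | zero => exact ⟨by simp, fun k hk => by simp [coeff_one, Nat.pos_iff_ne_zero.1 hk]⟩
      | succ m ih =>
        have e : ∀ k, (A ^ (m + 1)).coeff (k + 1) = (A ^ m).coeff (k + 1) * a + (A ^ m).coeff k * r := by
          intro k
          rw [pow_succ, mul_add, coeff_add, coeff_mul_C, ← mul_assoc, coeff_mul_X, coeff_mul_C]
        refine ⟨?_, fun k hk => ?_⟩
        · rw [e, ih.2 _ (Nat.lt_succ_self m), ih.1, zero_mul, zero_add, pow_succ]
        · obtain ⟨k, rfl⟩ : ∃ k', k = k' + 1 := ⟨k - 1, by omega⟩
          rw [e, ih.2 _ (by omega), ih.2 _ (by omega)]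
          simp
    exact (h1 p).1
  have hbot : (A ^ p).coeff 0 = a ^ p := by
    have : ∀ m, (A ^ m).coeff 0 = a ^ m := by
      intro m
      induction m with
      | zero => simp
      | succ m ih => rw [pow_succ, mul_coeff_zero, ih, pow_succ]; simp [A]
    exact this p
  let φ : E[X] →+* E := eval₂RingHom' (RingHom.id E) 1 fun x => Commute.one_right x
  have hφ : φ A = a + r := by simp [φ, A]
  rw [← hφ, ← map_pow]
  show eval₂ (RingHom.id E) 1 (A ^ p) = _
  rw [eval₂_eq_sum_range' (RingHom.id E) (Nat.lt_succ_of_le hdeg) 1]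
  simp only [one_pow, mul_one, RingHom.id_apply]
  rw [Finset.sum_range_succ, htop, Finset.range_eq_Ico, Finset.sum_eq_sum_Ico_succ_bot (by omega),
    hbot, Finset.sum_eq_sum_Ico_succ_bot (by omega), hcoef (0 + 1) (by omega) (by omega),
    Finset.sum_eq_zero fun k hk => by
      rw [Finset.mem_Ico] at hk
      rw [hcoef k (by omega) hk.2, if_neg (by omega)]]
  simp
  abel

end Vale.Agent.P200d
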