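import Vale.Agent.P200d.Step

/-!
Regularity of all finitely generated modules over the specialised algebras, by induction on the
number of directions.
-/

noncomputable section

namespace Vale.Agent.P200d

open MvPolynomial

universe u

variable {K : Type u} [Field K] {p N : ℕ} [hp : Fact p.Prime] [CharP K p]
  {f : Fin N → MvPolynomial (Fin N) K}

/-- The bound on the degree of regularity. -/
def regBound (p N m : ℕ) : ℕ := Fintype.card (PVar p N) + m

/-- Every finitely generated module over the specialised algebra is regular. -/
def RegAll (f : Fin N → MvPolynomial (Fin N) K) (m : ℕ) (v : Fin (m + 1) → Fin N → K) : Prop :=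
  ∀ (M : Type u) [AddCommGroup M] [Module (Bv (p := p) f v) M] [Module.Finite (Bv (p := p) f v) M],
    Reg (augSet (epsB f v)) (regBound p N m) M

theorem regAll_succ [IsAlgClosed K] (hf : ∀ t, (f t).IsHomogeneous p) {m : ℕ}
    (IH : ∀ v : Fin (m + 1) → Fin N → K, LinearIndependent K v → RegAll (p := p) f m v)
    (v : Fin (m + 2) → Fin N → K) (hv : LinearIndependent K v) : RegAll (p := p) f (m + 1) v := by
  classical
  intro M _ _ _
  have : IsNoetherianRing (Bv (p := p) f v) := isNoetherianRing_Bv hf hv
  obtain ⟨P⟩ := exists_mres (R := Bv (p := p) f v) (M := M)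
  obtain ⟨F⟩ := exists_lifted hf hv P
  have h0l : (0 : Fin (m + 2)) ≠ Fin.last (m + 1) := by
    intro h
    have := congrArg Fin.val h
    simp at this
  let δ : Fin (m + 2) → Fin (m + 2) → K := fun k j => if j = k then 1 else 0
  have hδ : ∀ (u : Fin (m + 2) → Fin N → K) k, u k = ∑ j, δ k j • u j := fun u k => by
    simp [δ, ite_smul]
  have h1 : HBij F.dbar (fun i => F.sbar i (Fin.last (m + 1))) (regBound p N m + 1) := by
    refine (step_hbij (hδ v) (hδ v) hf hv hv F fun M' => IH (ini v)
      (hv.comp _ (Fin.castSucc_injective _)) M').congr _ fun i => ?_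
    rw [Finset.sum_eq_single (Fin.last (m + 1))]
    · simp [δ]
    · intro k _ hk
      simp [δ, Ne.symm hk, hp.1.ne_zero]
    · simp
  have hμ : ∀ μ : K, HBij F.dbar
      (fun i => F.sbar i 0 + μ ^ p • F.sbar i (Fin.last (m + 1))) (regBound p N m + 1) := by
    intro μ
    let w : Fin (m + 2) → Fin N → K := fun j =>
      if j = Fin.last (m + 1) then v 0 else if j = 0 then v (Fin.last (m + 1)) - μ • v 0 else v j
    let C : Fin (m + 2) → Fin (m + 2) → K := fun k j =>
      if k = 0 then δ (Fin.last (m + 1)) j
      else if k = Fin.last (m + 1) then δ 0 j + μ * δ (Fin.last (m + 1)) j else δ k j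
    let D : Fin (m + 2) → Fin (m + 2) → K := fun j k =>
      if j = Fin.last (m + 1) then δ 0 k
      else if j = 0 then δ (Fin.last (m + 1)) k - μ * δ 0 k else δ j k
    have hw0 : w 0 = v (Fin.last (m + 1)) - μ • v 0 := by simp [w, h0l]
    have hwl : w (Fin.last (m + 1)) = v 0 := by simp [w]
    have hC : ∀ k, v k = ∑ j, C k j • w j := by
      intro k
      by_cases hk : k = 0
      · subst hk
        simp only [C, if_true]
        rw [← hδ w, hwl]
      · by_cases hk' : k = Fin.last (m + 1)
        · subst hk'
          simp only [C, if_neg hk, if_true, add_smul, mul_smul, Finset.sum_add_distrib,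
            ← Finset.smul_sum]
          rw [← hδ w, ← hδ w, hw0, hwl, sub_add_cancel]
        · simp only [C, if_neg hk, if_neg hk']
          rw [← hδ w]
          simp [w, hk, hk']
    have hD : ∀ j, w j = ∑ k, D j k • v k := by
      intro j
      by_cases hj : j = Fin.last (m + 1)
      · subst hj
        simp only [D, if_true]
        rw [← hδ v, hwl]
      · by_cases hj' : j = 0
        · subst hj'
          simp only [D, if_neg hj, if_true, sub_smul, mul_smul, Finset.sum_sub_distrib,
            ← Finset.smul_sum]
          rw [← hδ v, ← hδ v, hw0]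
        · simp only [D, if_neg hj, if_neg hj']
          rw [← hδ v]
          simp [w, hj, hj']
    have hw : LinearIndependent K w := li_of_comb hC hv
    refine (step_hbij hC hD hf hw hv F fun M' => IH (ini w)
      (hw.comp _ (Fin.castSucc_injective _)) M').congr _ fun i => ?_
    rw [← Finset.sum_subset (Finset.subset_univ {0, Fin.last (m + 1)}), Finset.sum_pair h0l]
    · simp [C, δ, h0l, h0l.symm]
    · intro k _ hk
      simp only [Finset.mem_insert, Finset.mem_singleton, not_or] at hk
      simp [C, δ, hk.1, hk.2, Ne.symm hk.2, hp.1.ne_zero]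
  refine reg_of_van (F.van fun i hi b hb => exact_of_pencil F.dbar hp.1.pos
    (fun i => F.sbar i 0) (fun i => F.sbar i (Fin.last (m + 1))) _ h1 hμ i ?_ b hb)
  simp only [regBound] at hi ⊢
  omega

theorem regAll [IsAlgClosed K] (hf : ∀ t, (f t).IsHomogeneous p)
    (base : ∀ v : Fin 1 → Fin N → K, LinearIndependent K v → RegAll (p := p) f 0 v) :
    ∀ (m : ℕ) (v : Fin (m + 1) → Fin N → K), LinearIndependent K v → RegAll (p := p) f m v
  | 0 => base
  | m + 1 => regAll_succ hf (regAll hf base m)

end Vale.Agent.P200d
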