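import Vale.Agent.P200d.Ore
import Vale.Agent.P200d.Cone

/-!
The specialised algebra is noetherian, and its resolutions lift to the twisted algebra.
-/

noncomputable section

namespace Vale.Agent.P200d

open MvPolynomial TensorProduct

universe u

variable {K : Type u} [Field K] {p N : ℕ} [hp : Fact p.Prime] [CharP K p]
  {f : Fin N → MvPolynomial (Fin N) K} (hf : ∀ t, (f t).IsHomogeneous p) {m : ℕ}
  {v : Fin m → Fin N → K} (hv : LinearIndependent K v)

include hf hv in
theorem isNoetherianRing_Bv : IsNoetherianRing (Bv (p := p) f v) := by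
  have : Module.Finite (Z0 K p N) (Bv (p := p) f v) :=
    Module.Finite.of_basis (bcBasis f (Z0 K p N) hf v hv)
  have : IsNoetherian (Z0 K p N) (Bv (p := p) f v) := inferInstance
  exact isNoetherian_of_tower (Z0 K p N) this

theorem inR_surjective : Function.Surjective (inR (p := p) f (Z0 K p N) v) := by
  intro x
  induction x using TensorProduct.induction_on with
  | zero => exact ⟨0, map_zero _⟩
  | tmul r u =>
    obtain ⟨c, rfl⟩ := kill_surjective (m := m) r
    exact ⟨algebraMap _ _ c * u, by rw [map_mul, inR_algebraMap, kill_eq, inL_mul_inR]⟩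
  | add a b ha hb =>
    obtain ⟨a', rfl⟩ := ha
    obtain ⟨b', rfl⟩ := hb
    exact ⟨a' + b', map_add _ _ _⟩

include hf hv in
theorem inR_ker {x : alg (p := p) f v} (h : inR f (Z0 K p N) v x = 0) :
    ∃ q : Fin m → alg (p := p) f v,
      x = ∑ k, algebraMap (Base K p N m) (alg (p := p) f v) (X (Sum.inr k)) * q k := by
  classical
  set bA := genBasis f hf v hv
  set bB := bcBasis f (Z0 K p N) hf v hv
  have hk : ∀ y, kill K p N m (bA.repr x y) = 0 := by
    intro y
    have e : inR f (Z0 K p N) v x = ∑ y, kill K p N m (bA.repr x y) • bB y := by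
      conv_lhs => rw [← bA.sum_repr x]
      rw [map_sum]
      refine Finset.sum_congr rfl fun y _ => ?_
      rw [Algebra.smul_def, map_mul, inR_algebraMap, kill_eq, smul_eq_inL, bcBasis_apply, inR_apply]
      congr 2
      exact Module.Basis.mk_apply _ _ y
    rw [h] at e
    have := congrArg (fun u => bB.repr u y) e.symm
    simpa [Finsupp.finsetSum_apply, Finsupp.single_apply] using this
  choose q hq using fun y => kill_decomp (bA.repr x y)
  refine ⟨fun k => ∑ y, q y k • bA y, ?_⟩
  conv_lhs => rw [← bA.sum_repr x]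
  simp only [Finset.mul_sum]
  rw [Finset.sum_comm]
  refine Finset.sum_congr rfl fun y _ => ?_
  have e : bA.repr x y = ∑ k, q y k * X (Sum.inr k) := by
    conv_lhs => rw [hq y, hk y]
    show rename Sum.inl (0 : MvPolynomial (PVar p N) K) + _ = _
    rw [map_zero, zero_add]
  rw [e, Finset.sum_smul]
  refine Finset.sum_congr rfl fun k _ => ?_
  rw [← Algebra.smul_def, smul_smul, mul_comm]

/-- The matrices lifted to the twisted algebra, with the operators they define. -/
structure Lifted {M : Type u} [AddCommGroup M] [Module (Bv (p := p) f v) M]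
    (P : MRes (Bv (p := p) f v) M) where
  /-- the lifted matrices -/
  L : ∀ i, Matrix (Fin (P.g (i + 1))) (Fin (P.g i)) (alg (p := p) f v)
  L_eq : ∀ i, (L i).map (inR f (Z0 K p N) v) = P.D i
  /-- the operators -/
  σ : ∀ i, Fin m → Matrix (Fin (P.g (i + 1 + 1))) (Fin (P.g i)) (alg (p := p) f v)
  L_L : ∀ i a b, (L (i + 1) * L i) a b =
    ∑ k, algebraMap (Base K p N m) (alg (p := p) f v) (X (Sum.inr k)) * σ i k a b

include hf hv in
theorem exists_lifted {M : Type u} [AddCommGroup M] [Module (Bv (p := p) f v) M]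
    (P : MRes (Bv (p := p) f v) M) : Nonempty (Lifted P) := by
  classical
  choose L hL using fun i a b => inR_surjective (f := f) (v := v) (P.D i a b)
  have hmap : ∀ i, (Matrix.of (L i)).map (inR f (Z0 K p N) v) = P.D i := fun i =>
    Matrix.ext fun a b => hL i a b
  have hDD : ∀ i, P.D (i + 1) * P.D i = 0 := by
    intro i
    refine Matrix.ext fun a b => ?_
    have h := (P.ex i (P.D (i + 1) a)).2 ⟨Pi.single a 1, by rw [Matrix.single_one_vecMul]; rfl⟩
    exact congrFun h b
  have hker : ∀ i a b, inR f (Z0 K p N) v ((Matrix.of (L (i + 1)) * Matrix.of (L i)) a b) = 0 := by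
    intro i a b
    have : ((Matrix.of (L (i + 1)) * Matrix.of (L i)).map (inR f (Z0 K p N) v)) a b = 0 := by
      rw [Matrix.map_mul, hmap, hmap, hDD]; rfl
    exact this
  choose q hq using fun i a b => inR_ker hf hv (hker i a b)
  exact ⟨⟨fun i => Matrix.of (L i), hmap, fun i k => Matrix.of fun a b => q i a b k,
    fun i a b => hq i a b⟩⟩

variable {M : Type u} [AddCommGroup M] [Module (Bv (p := p) f v) M]
  {P : MRes (Bv (p := p) f v) M} (F : Lifted P)

/-- The reduced differentials. -/
def Lifted.dbar (i : ℕ) : Matrix (Fin (P.g (i + 1))) (Fin (P.g i)) K :=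
  (F.L i).map (epsAlg f v)

/-- The reduced operators. -/
def Lifted.sbar (i : ℕ) (k : Fin m) : Matrix (Fin (P.g (i + 1 + 1))) (Fin (P.g i)) K :=
  (F.σ i k).map (epsAlg f v)

theorem epsB_comp_inR (x : alg (p := p) f v) : epsB f v (inR f (Z0 K p N) v x) = epsAlg f v x :=
  epsB_inR x

theorem Lifted.van {N' : ℕ}
    (h : ∀ i, N' ≤ i → ∀ b, Matrix.vecMul b (F.dbar i) = 0 →
      ∃ c, Matrix.vecMul c (F.dbar (i + 1)) = b) :
    P.toRsl.Van (augSet (epsB f v)) N' := by
  classical
  suffices H : ∀ i, N' ≤ i → ∀ a : Fin (P.g (i + 1)) → Bv (p := p) f v,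
      Matrix.vecMul a (P.D i) ∈ jG (augSet (epsB f v)) (Fin (P.g i) → Bv (p := p) f v) →
      ∃ b, a - Matrix.vecMul b (P.D (i + 1)) ∈
        jG (augSet (epsB f v)) (Fin (P.g (i + 1)) → Bv (p := p) f v) from H
  intro i hi a ha
  have hd : ∀ i (x : Fin (P.g (i + 1)) → Bv (p := p) f v),
      (fun k => epsB f v (Matrix.vecMul x (P.D i) k)) =
        Matrix.vecMul (fun j => epsB f v (x j)) (F.dbar i) := by
    intro i x
    rw [sp_vecMul' (epsB f v) x (P.D i)]
    congr 1
    rw [← F.L_eq i, Matrix.map_map]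
    exact Matrix.ext fun a b => epsB_comp_inR _
  have h0 : Matrix.vecMul (fun k => epsB f v (a k)) (F.dbar i) = 0 := by
    rw [← hd]
    exact funext ((mem_jG_pi (epsB f v) _).1 ha)
  obtain ⟨c, hc⟩ := h i hi _ h0
  have hs : Function.Surjective (epsB (p := p) f v) := fun x =>
    ⟨inL f (Z0 K p N) v (Z0.of (C x)), by
      rw [inL_apply, epsB, augBC_tmul, map_one, mul_one]; exact constantCoeff_C _ x⟩
  choose b hb using fun k => hs (c k)
  refine ⟨b, (mem_jG_pi (epsB f v) _).2 fun k => ?_⟩
  show epsB f v (a k - Matrix.vecMul b (P.D (i + 1)) k) = 0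
  rw [map_sub, sub_eq_zero]
  have := congrFun (hd (i + 1) b) k
  rw [this, show (fun j => epsB f v (b j)) = c from funext hb, hc]

end Vale.Agent.P200d
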