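import Mathlib

/-!
Projective resolutions over rings with an augmentation, and vanishing of their reductions in high
degrees.
-/

noncomputable section

namespace Vale.Agent.P200d

universe u

variable {R : Type u} [Ring R]

/-- The sums of multiples by elements of a given set. -/
def jG (J : Set R) (G : Type*) [AddCommGroup G] [Module R G] : AddSubgroup G :=
  AddSubgroup.closure {x | ∃ j ∈ J, ∃ g : G, j • g = x}

theorem smul_mem_jG {J : Set R} {G : Type*} [AddCommGroup G] [Module R G] {j : R} (hj : j ∈ J)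
    (g : G) : j • g ∈ jG J G :=
  AddSubgroup.subset_closure ⟨j, hj, g, rfl⟩

theorem map_jG {J : Set R} {G G' : Type*} [AddCommGroup G] [Module R G] [AddCommGroup G']
    [Module R G'] (f : G →ₗ[R] G') {x : G} (hx : x ∈ jG J G) : f x ∈ jG J G' := by
  induction hx using AddSubgroup.closure_induction with
  | mem y hy =>
    obtain ⟨j, hj, g, rfl⟩ := hy
    rw [map_smul]
    exact smul_mem_jG hj _
  | zero => rw [map_zero]; exact zero_mem _
  | add y z _ _ hy hz => rw [map_add]; exact add_mem hy hz
  | neg y _ hy => rw [map_neg]; exact neg_mem hy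

/-- The kernel of an augmentation. -/
def augSet {K : Type*} [Semiring K] (ε : R →+* K) : Set R := {r | ε r = 0}

/-- A projective resolution. -/
structure Rsl (R : Type u) [Ring R] (M : Type u) [AddCommGroup M] [Module R M] where
  /-- the terms -/
  G : ℕ → Type u
  [acg : ∀ i, AddCommGroup (G i)]
  [mod : ∀ i, Module R (G i)]
  proj : ∀ i, Module.Projective R (G i)
  /-- the differentials -/
  d : ∀ i, G (i + 1) →ₗ[R] G i
  /-- the augmentation -/
  π : G 0 →ₗ[R] M
  surj : Function.Surjective π
  ex0 : LinearMap.range (d 0) = LinearMap.ker π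
  ex : ∀ i, LinearMap.range (d (i + 1)) = LinearMap.ker (d i)

attribute [instance] Rsl.acg Rsl.mod

variable {M : Type u} [AddCommGroup M] [Module R M]

theorem Rsl.d_d (P : Rsl R M) (i : ℕ) (x : P.G (i + 1 + 1)) : P.d i (P.d (i + 1) x) = 0 := by
  have h : P.d (i + 1) x ∈ LinearMap.range (P.d (i + 1)) := ⟨x, rfl⟩
  rw [P.ex] at h
  exact h

theorem Rsl.π_d (P : Rsl R M) (x : P.G 1) : P.π (P.d 0 x) = 0 := by
  have h : P.d 0 x ∈ LinearMap.range (P.d 0) := ⟨x, rfl⟩
  rw [P.ex0] at h
  exact h

/-- The reduction of a resolution is exact from degree `N + 1` on. -/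
def Rsl.Van (P : Rsl R M) (J : Set R) (N : ℕ) : Prop :=
  ∀ i, N ≤ i → ∀ a : P.G (i + 1), P.d i a ∈ jG J (P.G i) →
    ∃ b, a - P.d (i + 1) b ∈ jG J (P.G (i + 1))

theorem Rsl.Van.mono {P : Rsl R M} {J : Set R} {N N' : ℕ} (h : P.Van J N) (hN : N ≤ N') :
    P.Van J N' :=
  fun i hi => h i (le_trans hN hi)

/-- Lifting along a map whose range contains the given range. -/
theorem lift_through {X Y Z : Type*} [AddCommGroup X] [Module R X] [AddCommGroup Y] [Module R Y]
    [AddCommGroup Z] [Module R Z] [Module.Projective R X] (f : X →ₗ[R] Z) (g : Y →ₗ[R] Z)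
    (h : ∀ x, f x ∈ LinearMap.range g) : ∃ k : X →ₗ[R] Y, ∀ x, g (k x) = f x := by
  obtain ⟨k, hk⟩ := Module.projective_lifting_property g.rangeRestrict
    (f.codRestrict (LinearMap.range g) h) g.surjective_rangeRestrict
  exact ⟨k, fun x => congrArg Subtype.val (LinearMap.congr_fun hk x)⟩

/-- A family commuting with two resolutions. -/
structure ChMap (P Q : Rsl R M) where
  /-- the components -/
  f : ∀ i, P.G i →ₗ[R] Q.G i
  comm : ∀ i x, Q.d i (f (i + 1) x) = f i (P.d i x)
  aug : ∀ x, Q.π (f 0 x) = P.π x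

theorem exists_chMap (P Q : Rsl R M) : Nonempty (ChMap P Q) := by
  have := P.proj
  obtain ⟨f0, hf0⟩ := Module.projective_lifting_property Q.π P.π Q.surj
  have h0 : ∀ x, Q.π (f0 x) = P.π x := fun x => LinearMap.congr_fun hf0 x
  obtain ⟨f1, hf1⟩ := lift_through (f0 ∘ₗ P.d 0) (Q.d 0) (fun x => by
    rw [Q.ex0, LinearMap.mem_ker, LinearMap.comp_apply, h0, P.π_d])
  let St : ℕ → Type u := fun i =>
    {p : (P.G i →ₗ[R] Q.G i) × (P.G (i + 1) →ₗ[R] Q.G (i + 1)) //
      ∀ x, Q.d i (p.2 x) = p.1 (P.d i x)}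
  have step : ∀ i (s : St i), ∃ k : P.G (i + 1 + 1) →ₗ[R] Q.G (i + 1 + 1),
      ∀ x, Q.d (i + 1) (k x) = s.1.2 (P.d (i + 1) x) := by
    intro i s
    refine lift_through (s.1.2 ∘ₗ P.d (i + 1)) (Q.d (i + 1)) fun x => ?_
    rw [Q.ex, LinearMap.mem_ker, LinearMap.comp_apply, s.2, P.d_d, map_zero]
  let seq : ∀ i, St i := fun i => Nat.rec (motive := St) ⟨(f0, f1), hf1⟩
    (fun i s => ⟨(s.1.2, (step i s).choose), (step i s).choose_spec⟩) i
  exact ⟨⟨fun i => (seq i).1.1, fun i x => (seq i).2 x, h0⟩⟩

/-- Vanishing does not depend on the resolution. -/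
theorem Rsl.Van.transfer {P : Rsl R M} {J : Set R} {N : ℕ} (h : P.Van J N) (Q : Rsl R M) :
    Q.Van J N := by
  obtain ⟨φ⟩ := exists_chMap Q P
  obtain ⟨ψ⟩ := exists_chMap P Q
  have := Q.proj
  let e : ∀ i, Q.G i →ₗ[R] Q.G i := fun i => LinearMap.id - ψ.f i ∘ₗ φ.f i
  have he : ∀ i x, Q.d i (e (i + 1) x) = e i (Q.d i x) := fun i x => by
    simp [e, ψ.comm, φ.comm]
  obtain ⟨h0, hh0⟩ := lift_through (e 0) (Q.d 0) (fun x => by
    rw [Q.ex0, LinearMap.mem_ker]
    simp [e, ψ.aug, φ.aug])
  let St : ℕ → Type u := fun i =>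
    {k : Q.G i →ₗ[R] Q.G (i + 1) // ∀ x, Q.d i (e (i + 1) x - k (Q.d i x)) = 0}
  have step : ∀ i (s : St i), ∃ k : Q.G (i + 1) →ₗ[R] Q.G (i + 1 + 1),
      ∀ x, Q.d (i + 1) (k x) = e (i + 1) x - s.1 (Q.d i x) := by
    intro i s
    refine lift_through (e (i + 1) - s.1 ∘ₗ Q.d i) (Q.d (i + 1)) fun x => ?_
    rw [Q.ex, LinearMap.mem_ker]
    exact s.2 x
  let seq : ∀ i, St i := fun i => Nat.rec (motive := St)
    ⟨h0, fun x => by rw [map_sub, he, hh0, sub_self]⟩
    (fun i s => ⟨(step i s).choose, fun x => by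
      rw [map_sub, he, (step i s).choose_spec, Q.d_d, map_zero, sub_zero, sub_self]⟩) i
  intro i hi a ha
  have hφ : P.d i (φ.f (i + 1) a) ∈ jG J (P.G i) := by
    rw [φ.comm]
    exact map_jG _ ha
  obtain ⟨b, hb⟩ := h i hi _ hφ
  have e1 : Q.d (i + 1) ((step i (seq i)).choose a) = e (i + 1) a - (seq i).1 (Q.d i a) :=
    (step i (seq i)).choose_spec a
  refine ⟨ψ.f (i + 1 + 1) b + (step i (seq i)).choose a, ?_⟩
  have e2 : a - Q.d (i + 1) (ψ.f (i + 1 + 1) b + (step i (seq i)).choose a) =
      ψ.f (i + 1) (φ.f (i + 1) a - P.d (i + 1) b) + (seq i).1 (Q.d i a) := by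
    rw [map_add, ψ.comm, e1, map_sub]
    simp only [e, LinearMap.sub_apply, LinearMap.id_apply, LinearMap.comp_apply]
    abel
  rw [e2]
  exact add_mem (map_jG _ hb) (map_jG _ ha)

/-- The module has resolutions whose reductions vanish above `N`. -/
def Reg (J : Set R) (N : ℕ) (M : Type u) [AddCommGroup M] [Module R M] : Prop :=
  ∀ P : Rsl R M, P.Van J N

theorem reg_of_van {P : Rsl R M} {J : Set R} {N : ℕ} (h : P.Van J N) : Reg J N M :=
  fun Q => h.transfer Q

/-- A step of the construction of a free resolution. -/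
structure FStep (R : Type u) [Ring R] where
  /-- the target -/
  Y : Type u
  /-- the source -/
  X : Type u
  [acgY : AddCommGroup Y]
  [modY : Module R Y]
  [acgX : AddCommGroup X]
  [modX : Module R X]
  projX : Module.Projective R X
  /-- the map -/
  f : X →ₗ[R] Y

attribute [instance] FStep.acgY FStep.modY FStep.acgX FStep.modX

/-- The free cover of the kernel of the previous step. -/
def FStep.next (s : FStep R) : FStep R where
  Y := s.X
  X := LinearMap.ker s.f →₀ R
  projX := inferInstance
  f := Finsupp.linearCombination R fun x : LinearMap.ker s.f => (x : s.X)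

theorem FStep.range_next (s : FStep R) : LinearMap.range s.next.f = LinearMap.ker s.f := by
  show LinearMap.range (Finsupp.linearCombination R fun x : LinearMap.ker s.f => (x : s.X)) = _
  rw [Finsupp.range_linearCombination]
  exact (congrArg (Submodule.span R) Subtype.range_coe).trans (Submodule.span_eq _)

/-- The steps of a free resolution. -/
def fseq (R : Type u) [Ring R] (M : Type u) [AddCommGroup M] [Module R M] : ℕ → FStep R
  | 0 => { Y := M, X := M →₀ R, projX := inferInstance, f := Finsupp.linearCombination R id }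
  | i + 1 => (fseq R M i).next

/-- A free resolution. -/
def Rsl.canon (R : Type u) [Ring R] (M : Type u) [AddCommGroup M] [Module R M] : Rsl R M where
  G i := (fseq R M i).X
  proj i := (fseq R M i).projX
  d i := (fseq R M (i + 1)).f
  π := (fseq R M 0).f
  surj m := ⟨Finsupp.single m 1, by
    show Finsupp.linearCombination R id (Finsupp.single m 1) = m
    simp⟩
  ex0 := (fseq R M 0).range_next
  ex i := (fseq R M (i + 1)).range_next

/-- Over a field every module is regular. -/
theorem reg_field {K : Type u} [Field K] (M : Type u) [AddCommGroup M] [Module K M] :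
    Reg (augSet (RingHom.id K)) 0 M := by
  have hbot : ∀ {G : Type u} [AddCommGroup G] [Module K G] {x : G},
      x ∈ jG (augSet (RingHom.id K)) G → x = 0 := by
    intro G _ _ x hx
    induction hx using AddSubgroup.closure_induction with
    | mem y hy =>
      obtain ⟨j, hj, g, rfl⟩ := hy
      rw [show j = 0 from hj, zero_smul]
    | zero => rfl
    | add y z _ _ hy hz => rw [hy, hz, add_zero]
    | neg y _ hy => rw [hy, neg_zero]
  intro P i _ a ha
  obtain ⟨b, hb⟩ : a ∈ LinearMap.range (P.d (i + 1)) := by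
    rw [P.ex]; exact hbot ha
  exact ⟨b, by rw [hb, sub_self]; exact zero_mem _⟩

/-! ### Restriction along a subring -/

section Ore

variable {R' : Type u} [Ring R'] {K : Type*} [Field K]

/-- A ring that is a free left module over the image of a subring on the powers of an element. -/
structure OreData (j : R' →+* R) (ε' : R' →+* K) (ε : R →+* K) (T : R) : Prop where
  compat : ∀ b, ε (j b) = ε' b
  aug : ε T = 0
  bij : Function.Bijective fun c : ℕ →₀ R' => c.sum fun k b => j b * T ^ k
  ad : ∀ b, ∃ b', T * j b = j b * T + j b'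

variable {j : R' →+* R} {ε' : R' →+* K} {ε : R →+* K} {T : R}

/-- Evaluation of a finite family of left coefficients. -/
def oreEval (j : R' →+* R) (T : R) (c : ℕ →₀ R') : R := c.sum fun k b => j b * T ^ k

theorem oreEval_add (c c' : ℕ →₀ R') : oreEval j T (c + c') = oreEval j T c + oreEval j T c' :=
  Finsupp.sum_add_index' (by simp) (by simp [add_mul])

theorem oreEval_single (k : ℕ) (b : R') : oreEval j T (Finsupp.single k b) = j b * T ^ k :=
  Finsupp.sum_single_index (by simp)

theorem mul_oreEval (b : R') (c : ℕ →₀ R') :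
    j b * oreEval j T c = oreEval j T (c.mapRange (b * ·) (mul_zero b)) := by
  rw [oreEval, oreEval, Finsupp.sum_mapRange_index (by simp), Finsupp.mul_sum]
  simp [mul_assoc]

variable (O : OreData j ε' ε T)

include O in
theorem OreData.eps_adjoint (b b' : R') (h : T * j b = j b * T + j b') : ε' b' = 0 := by
  have := congrArg ε h
  rw [map_mul, map_add, map_mul, O.aug, zero_mul, mul_zero, zero_add, O.compat] at this
  exact this.symm

include O in
theorem OreData.mem_aug {r : R} (hr : ε r = 0) :
    r ∈ jG {x : R | ∃ b, ε' b = 0 ∧ j b = x} R ⊔ AddSubgroup.map (AddMonoidHom.mulLeft T) ⊤ := by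
  obtain ⟨c, rfl⟩ := O.bij.2 r
  change ε (oreEval j T c) = 0 at hr
  change oreEval j T c ∈ _
  set J := {x : R | ∃ b, ε' b = 0 ∧ j b = x}
  have key : ∀ c : ℕ →₀ R', oreEval j T c - j (c 0) ∈
      jG J R ⊔ AddSubgroup.map (AddMonoidHom.mulLeft T) ⊤ := by
    intro c
    induction c using Finsupp.induction_linear with
    | zero => simp [oreEval]
    | add x y hx hy =>
      rw [oreEval_add, Finsupp.add_apply, map_add, add_sub_add_comm]
      exact add_mem hx hy
    | single k b =>
      rw [oreEval_single]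
      cases k with
      | zero => simp
      | succ k =>
        rw [Finsupp.single_eq_of_ne (by omega : (0 : ℕ) ≠ k + 1), map_zero, sub_zero]
        obtain ⟨b', hb'⟩ := O.ad b
        have e : j b * T ^ (k + 1) = T * (j b * T ^ k) + -(j b' * T ^ k) := by
          rw [← mul_assoc T, hb', add_mul, pow_succ', mul_assoc]
          abel
        rw [e]
        refine add_mem (AddSubgroup.mem_sup_right ⟨_, trivial, rfl⟩) (neg_mem ?_)
        exact AddSubgroup.mem_sup_left
          (smul_mem_jG (J := J) (G := R) ⟨b', O.eps_adjoint b b' hb', rfl⟩ (T ^ k))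
  have h0 : ε' (c 0) = 0 := by
    have h1 : ∀ c : ℕ →₀ R', ε (oreEval j T c) = ε' (c 0) := by
      intro c
      induction c using Finsupp.induction_linear with
      | zero => simp [oreEval]
      | add x y hx hy => rw [oreEval_add, map_add, hx, hy, Finsupp.add_apply, map_add]
      | single k b =>
        rw [oreEval_single, map_mul, map_pow, O.aug, O.compat]
        cases k with
        | zero => simp
        | succ k => simp
    rw [← h1]; exact hr
  have := add_mem (key c) (AddSubgroup.mem_sup_left (T := AddSubgroup.map (AddMonoidHom.mulLeft T) ⊤)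
    (smul_mem_jG (J := J) (G := R) ⟨c 0, h0, rfl⟩ 1))
  simpa using this

/-- The reduction of the coefficients. -/
def redC (ε' : R' →+* K) : (ℕ →₀ R') →+ (ℕ →₀ K) := Finsupp.mapRange.addMonoidHom ε'.toAddMonoidHom

include O in
theorem OreData.inj_mod {G : Type u} [AddCommGroup G] [Module R G] [hG : Module.Projective R G]
    {x : G} (hx : T • x ∈ jG {y : R | ∃ b, ε' b = 0 ∧ j b = y} G) :
    x ∈ jG {y : R | ∃ b, ε' b = 0 ∧ j b = y} G := by
  set J := {y : R | ∃ b, ε' b = 0 ∧ j b = y}
  obtain ⟨s, hs⟩ := Module.projective_def.1 hG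
  let E : (ℕ →₀ R') ≃+ R := AddEquiv.ofBijective
    ({ toFun := oreEval j T, map_zero' := by simp [oreEval], map_add' := oreEval_add } :
      (ℕ →₀ R') →+ R) O.bij
  have hE : ∀ c, E c = oreEval j T c := fun _ => rfl
  let χ : R →+ (ℕ →₀ K) := (redC ε').comp E.symm.toAddMonoidHom
  have hχJ : ∀ b r, ε' b = 0 → χ (j b * r) = 0 := by
    intro b r hb
    obtain ⟨c, rfl⟩ := E.surjective r
    have e : j b * E c = E (c.mapRange (b * ·) (mul_zero b)) := by rw [hE, hE, mul_oreEval]
    ext k
    simp [χ, redC, e, hb]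
  have hχsingle : ∀ k b, χ (j b * T ^ k) = Finsupp.single k (ε' b) := by
    intro k b
    have e : E.symm (j b * T ^ k) = Finsupp.single k b := by
      rw [AddEquiv.symm_apply_eq, hE, oreEval_single]
    simp [χ, redC, e]
  have hshift : ∀ r, χ (T * r) = (χ r).mapDomain Nat.succ := by
    intro r
    obtain ⟨c, rfl⟩ := E.surjective r
    induction c using Finsupp.induction_linear with
    | zero => simp
    | add a b ha hb => rw [map_add, mul_add, map_add, map_add, ha, hb, Finsupp.mapDomain_add]
    | single k b =>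
      rw [hE, oreEval_single]
      obtain ⟨b', hb'⟩ := O.ad b
      rw [← mul_assoc, hb', add_mul, mul_assoc (j b), ← pow_succ', map_add,
        hχJ _ _ (O.eps_adjoint b b' hb'), add_zero, hχsingle, hχsingle, Finsupp.mapDomain_single]
  have hker : ∀ r, χ r = 0 → r ∈ jG J R := by
    intro r hr
    obtain ⟨c, rfl⟩ := E.surjective r
    have hc : ∀ k, ε' (c k) = 0 := fun k => by
      have h := DFunLike.congr_fun hr k
      simpa [χ, redC] using h
    rw [hE, oreEval]
    exact sum_mem fun k _ => smul_mem_jG (J := J) (G := R) ⟨c k, hc k, rfl⟩ _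
  have hzero : ∀ y : G →₀ R, y ∈ jG J (G →₀ R) → ∀ g, χ (y g) = 0 := by
    intro y hy
    induction hy using AddSubgroup.closure_induction with
    | mem z hz =>
      obtain ⟨_, ⟨b, hb, rfl⟩, w, rfl⟩ := hz
      intro g
      rw [Finsupp.smul_apply, smul_eq_mul, hχJ b _ hb]
    | zero => simp
    | add a b _ _ ha hb => intro g; rw [Finsupp.add_apply, map_add, ha, hb, add_zero]
    | neg a _ ha => intro g; rw [Finsupp.neg_apply, map_neg, ha, neg_zero]
  have h1 := hzero _ (map_jG s hx)
  have h2 : ∀ g, s x g ∈ jG J R := fun g => by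
    refine hker _ ?_
    have h := h1 g
    rw [map_smul, Finsupp.smul_apply, smul_eq_mul, hshift] at h
    exact Finsupp.mapDomain_injective Nat.succ_injective (by rw [h, Finsupp.mapDomain_zero])
  have h3 : s x ∈ jG J (G →₀ R) := by
    rw [← Finsupp.sum_single (s x)]
    refine sum_mem fun g _ => ?_
    exact map_jG (Finsupp.lsingle g : R →ₗ[R] (G →₀ R)) (h2 g)
  have h4 := map_jG (Finsupp.linearCombination R (id : G → G)) h3
  rwa [hs x] at h4

/-- Restriction of a resolution along the subring. -/
def Rsl.restrict (P : Rsl R M) (j : R' →+* R) [Module R' M]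
    (hM : ∀ b (m : M), b • m = j b • m)
    (hfree : letI := Module.compHom R j; Module.Free R' R) : Rsl R' M :=
  letI : Module R' R := Module.compHom R j
  letI mg : ∀ i, Module R' (P.G i) := fun i => Module.compHom (P.G i) j
  { G := P.G
    proj := fun i => by
      have := hfree
      obtain ⟨s, hs⟩ := Module.projective_def.1 (P.proj i)
      let s' : P.G i →ₗ[R'] (P.G i →₀ R) :=
        { toFun := s, map_add' := map_add s,
          map_smul' := fun b x => by
            show s (j b • x) = _
            rw [map_smul]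
            rfl }
      let t' : (P.G i →₀ R) →ₗ[R'] P.G i :=
        { toFun := Finsupp.linearCombination R id, map_add' := map_add _,
          map_smul' := fun b x => by
            have h : b • x = j b • x := rfl
            rw [h, map_smul]
            rfl }
      exact Module.Projective.of_split s' t' (LinearMap.ext fun x => hs x)
    d := fun i =>
      { toFun := P.d i, map_add' := map_add _,
        map_smul' := fun b x => map_smul (P.d i) (j b) x }
    π :=
      { toFun := P.π, map_add' := map_add _,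
        map_smul' := fun b x => by
          show P.π (j b • x) = b • P.π x
          rw [map_smul, hM] }
    surj := P.surj
    ex0 := by
      ext x
      have := SetLike.ext_iff.1 P.ex0 x
      simpa using this
    ex := fun i => by
      ext x
      have := SetLike.ext_iff.1 (P.ex i) x
      simpa using this }

include O in
/-- Regularity goes up along an Ore extension. -/
theorem OreData.reg_succ [Module R' M] (hM : ∀ b (m : M), b • m = j b • m) {N : ℕ}
    (h : Reg (augSet ε') N M) : Reg (augSet ε) (N + 1) M := by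
  intro P i hi a ha
  have hfree : letI := Module.compHom R j; Module.Free R' R := by
    letI := Module.compHom R j
    let E : (ℕ →₀ R') →ₗ[R'] R :=
      { toFun := oreEval j T, map_add' := oreEval_add,
        map_smul' := fun b c => by
          show oreEval j T (b • c) = j b * oreEval j T c
          rw [mul_oreEval]
          congr 1 }
    exact Module.Free.of_equiv (LinearEquiv.ofBijective E O.bij)
  set J := {y : R | ∃ b, ε' b = 0 ∧ j b = y}
  have hsplit : ∀ {G : Type u} [AddCommGroup G] [Module R G] {x : G},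
      x ∈ jG (augSet ε) G → ∃ w g, w ∈ jG J G ∧ w + T • g = x := by
    intro G _ _ x hx
    induction hx using AddSubgroup.closure_induction with
    | mem y hy =>
      obtain ⟨r, hr, g, rfl⟩ := hy
      obtain ⟨w, hw, _, ⟨r', -, rfl⟩, rfl⟩ := AddSubgroup.mem_sup.1 (O.mem_aug hr)
      refine ⟨w • g, r' • g, ?_, ?_⟩
      · have := map_jG (LinearMap.toSpanSingleton R G g) hw
        simpa using this
      · rw [add_smul, smul_smul]
        rfl
    | zero => exact ⟨0, 0, zero_mem _, by simp⟩
    | add y z _ _ hy hz =>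
      obtain ⟨w, g, hw, rfl⟩ := hy
      obtain ⟨w', g', hw', rfl⟩ := hz
      exact ⟨w + w', g + g', add_mem hw hw', by rw [smul_add]; abel⟩
    | neg y _ hy =>
      obtain ⟨w, g, hw, rfl⟩ := hy
      exact ⟨-w, -g, neg_mem hw, by rw [smul_neg, neg_add]⟩
  have hup : ∀ {G : Type u} [AddCommGroup G] [Module R G] {x : G},
      x ∈ jG J G → x ∈ jG (augSet ε) G := by
    intro G _ _ x hx
    refine (AddSubgroup.closure_mono ?_) hx
    rintro _ ⟨_, ⟨b, hb, rfl⟩, g, rfl⟩
    exact ⟨j b, show ε (j b) = 0 by rw [O.compat, hb], g, rfl⟩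
  let P' := P.restrict j hM hfree
  have hjG : ∀ k (x : P.G k), x ∈ jG (augSet ε') (P'.G k) ↔ x ∈ jG J (P.G k) := by
    intro k x
    have e : {y : P'.G k | ∃ b ∈ augSet ε', ∃ g : P'.G k, b • g = y} =
        {y : P.G k | ∃ r ∈ J, ∃ g : P.G k, r • g = y} := by
      ext y
      constructor
      · rintro ⟨b, hb, g, rfl⟩; exact ⟨j b, ⟨b, hb, rfl⟩, g, rfl⟩
      · rintro ⟨_, ⟨b, hb, rfl⟩, g, rfl⟩; exact ⟨b, hb, g, rfl⟩
    unfold jG
    rw [← e]
    rfl
  obtain ⟨i, rfl⟩ : ∃ i', i = i' + 1 := ⟨i - 1, by omega⟩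
  have := P.proj
  obtain ⟨w, g, hw, hwg⟩ := hsplit ha
  have hdg : P.d i g ∈ jG J (P.G i) := by
    refine O.inj_mod ?_
    have hz := P.d_d i a
    rw [← hwg, map_add, map_smul] at hz
    rw [eq_neg_of_add_eq_zero_right hz]
    exact neg_mem (map_jG _ hw)
  obtain ⟨c, hc⟩ : ∃ c : P.G (i + 1 + 1), g - P.d (i + 1) c ∈ jG (augSet ε') (P'.G (i + 1)) :=
    h P' i (by omega) g ((hjG i _).2 hdg)
  have hc' : g - P.d (i + 1) c ∈ jG J (P.G (i + 1)) := (hjG (i + 1) _).1 hc
  have hd2 : P.d (i + 1) (a - T • c) ∈ jG J (P.G (i + 1)) := by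
    have e : P.d (i + 1) (a - T • c) = w + T • (g - P.d (i + 1) c) := by
      rw [map_sub, map_smul, ← hwg, smul_sub]; abel
    rw [e]
    refine add_mem hw ?_
    have hT : ∀ x ∈ jG J (P.G (i + 1)), T • x ∈ jG J (P.G (i + 1)) := by
      intro x hx
      induction hx using AddSubgroup.closure_induction with
      | mem y hy =>
        obtain ⟨_, ⟨b, hb, rfl⟩, g, rfl⟩ := hy
        obtain ⟨b', hb'⟩ := O.ad b
        rw [smul_smul, hb', add_smul, ← smul_smul]
        exact add_mem (smul_mem_jG (J := J) ⟨b, hb, rfl⟩ _)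
          (smul_mem_jG (J := J) ⟨b', O.eps_adjoint b b' hb', rfl⟩ _)
      | zero => rw [smul_zero]; exact zero_mem _
      | add y z _ _ hy hz => rw [smul_add]; exact add_mem hy hz
      | neg y _ hy => rw [smul_neg]; exact neg_mem hy
    exact hT _ hc'
  obtain ⟨e, he⟩ : ∃ e : P.G (i + 1 + 1 + 1),
      a - T • c - P.d (i + 1 + 1) e ∈ jG (augSet ε') (P'.G (i + 1 + 1)) :=
    h P' (i + 1) (by omega) (a - T • c) ((hjG (i + 1) _).2 hd2)
  have he' : a - T • c - P.d (i + 1 + 1) e ∈ jG J (P.G (i + 1 + 1)) := (hjG (i + 1 + 1) _).1 he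
  refine ⟨e, ?_⟩
  have e' : a - P.d (i + 1 + 1) e = (a - T • c - P.d (i + 1 + 1) e) + T • c := by abel
  rw [e']
  exact add_mem (hup he') (smul_mem_jG (show T ∈ augSet ε from O.aug) c)

end Ore

end Vale.Agent.P200d
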