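import Vale.Agent.P200d.Span
import Vale.Agent.P200d.Res

/-!
The deformed algebra is an Ore extension of the algebra of one direction fewer.
-/

noncomputable section

namespace Vale.Agent.P200d

open MvPolynomial TensorProduct

universe u

variable {K : Type u} [Field K] {p N : ℕ} [hp : Fact p.Prime] [CharP K p]
  (f : Fin N → MvPolynomial (Fin N) K) {m : ℕ}

/-- The specialised algebra. -/
abbrev Bv (v : Fin m → Fin N → K) : Type u := BC (p := p) f (Z0 K p N) v

/-- The deformed algebra. -/
abbrev Uw (w : Fin (m + 1) → Fin N → K) : Type u := BC (p := p) f (A1 K p N) w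

/-- The map to a change of base. -/
def inR (A : Type u) [CommRing A] [Algebra (Base K p N m) A] (v : Fin m → Fin N → K) :
    alg (p := p) f v →+* BC (p := p) f A v :=
  (Algebra.TensorProduct.includeRight : alg (p := p) f v →ₐ[Base K p N m] BC (p := p) f A v).toRingHom

/-- The coefficients in a change of base. -/
def inL (A : Type u) [CommRing A] [Algebra (Base K p N m) A] (v : Fin m → Fin N → K) :
    A →+* BC (p := p) f A v :=
  algebraMap A _

variable {A : Type u} [CommRing A] [Algebra (Base K p N m) A] {v : Fin m → Fin N → K}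

theorem inR_apply (u : alg (p := p) f v) : inR f A v u = 1 ⊗ₜ u := rfl

theorem inL_apply (a : A) : inL (p := p) f A v a = a ⊗ₜ 1 := rfl

theorem inL_mul_inR (a : A) (u : alg (p := p) f v) : inL f A v a * inR f A v u = a ⊗ₜ u := by
  rw [inL_apply, inR_apply, Algebra.TensorProduct.tmul_mul_tmul, mul_one, one_mul]

theorem smul_eq_inL (a : A) (u : BC (p := p) f A v) : a • u = inL f A v a * u := Algebra.smul_def a u

theorem inL_commute (a : A) (u : BC (p := p) f A v) : Commute (inL f A v a) u :=
  Algebra.commutes a u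

theorem inR_algebraMap (c : Base K p N m) :
    inR f A v (algebraMap (Base K p N m) (alg (p := p) f v) c) =
      inL f A v (algebraMap (Base K p N m) A c) := by
  rw [inR_apply, inL_apply, Algebra.algebraMap_eq_smul_one, ← TensorProduct.smul_tmul,
    Algebra.algebraMap_eq_smul_one c (A := A)]

/-- A homomorphism out of a change of base, prescribed on both sides. -/
def bcMap {b : ℕ} {A' : Type u} [CommRing A'] [Algebra (Base K p N b) A'] {w : Fin b → Fin N → K}
    {C : Fin m → Fin b → K} (hC : ∀ k, v k = ∑ j, C k j • w j) (g : A →+* A')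
    (hg : ∀ c, g (algebraMap (Base K p N m) A c) = algebraMap (Base K p N b) A' (subst C c)) :
    BC (p := p) f A v →+* BC (p := p) f A' w :=
  bcLift (R := Base K p N m) (U := alg (p := p) f v) ((inL (p := p) f A' w).comp g)
    ((inR (p := p) f A' w).comp (algIn (p := p) f hC))
    (fun c => by
      show inL (p := p) f A' w (g _) = inR (p := p) f A' w (algIn (p := p) f hC _)
      rw [algIn_algebraMap, inR_algebraMap, hg])
    (fun _ y => inL_commute f _ y) (fun _ y => inL_commute f _ _)

theorem bcMap_tmul {b : ℕ} {A' : Type u} [CommRing A'] [Algebra (Base K p N b) A']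
    {w : Fin b → Fin N → K} {C : Fin m → Fin b → K} (hC : ∀ k, v k = ∑ j, C k j • w j)
    (g : A →+* A')
    (hg : ∀ c, g (algebraMap (Base K p N m) A c) = algebraMap (Base K p N b) A' (subst C c))
    (a : A) (u : alg (p := p) f v) :
    bcMap f hC g hg (a ⊗ₜ u) = inL f A' w (g a) * inR f A' w (algIn f hC u) := by
  unfold bcMap
  rw [bcLift_tmul]
  rfl

theorem bcMap_smul {b : ℕ} {A' : Type u} [CommRing A'] [Algebra (Base K p N b) A']
    {w : Fin b → Fin N → K} {C : Fin m → Fin b → K} (hC : ∀ k, v k = ∑ j, C k j • w j)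
    (g : A →+* A')
    (hg : ∀ c, g (algebraMap (Base K p N m) A c) = algebraMap (Base K p N b) A' (subst C c))
    (a : A) (u : BC (p := p) f A v) : bcMap f hC g hg (a • u) = g a • bcMap f hC g hg u := by
  rw [smul_eq_inL, map_mul, smul_eq_inL, inL_apply, bcMap_tmul, map_one, map_one, mul_one]

theorem bcMap_inR {b : ℕ} {A' : Type u} [CommRing A'] [Algebra (Base K p N b) A']
    {w : Fin b → Fin N → K} {C : Fin m → Fin b → K} (hC : ∀ k, v k = ∑ j, C k j • w j)
    (g : A →+* A')
    (hg : ∀ c, g (algebraMap (Base K p N m) A c) = algebraMap (Base K p N b) A' (subst C c))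
    (u : alg (p := p) f v) : bcMap f hC g hg (inR f A v u) = inR f A' w (algIn f hC u) := by
  rw [inR_apply, bcMap_tmul, map_one, map_one, one_mul]

/-! ### The Ore structure -/

/-- The coordinates of the inclusion of all directions but the last. -/
def castC (K : Type u) [Field K] (m : ℕ) : Fin m → Fin (m + 1) → K :=
  fun k j => if j = k.castSucc then 1 else 0

omit hp [CharP K p] in
theorem castC_spec (w : Fin (m + 1) → Fin N → K) (k : Fin m) :
    w k.castSucc = ∑ j, castC K m k j • w j := by
  simp [castC, ite_smul]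

omit [CharP K p] in
theorem keep_castC (c : Base K p N m) :
    cz (algebraMap (Base K p N m) (Z0 K p N) c) =
      algebraMap (Base K p N (m + 1)) (A1 K p N) (subst (castC K m) c) := by
  show cz (kill K p N m c) = keep K p N m (subst (castC K m) c)
  refine RingHom.congr_fun (f := cz.comp (kill K p N m))
    (g := (keep K p N m).comp (subst (castC K m)).toRingHom) (ringHom_ext (fun a => ?_) fun s => ?_) c
  · show Polynomial.C (Z0.of (eval₂Hom C _ (C a))) = A1.of (eval₂Hom _ _ (subst (castC K m) (C a)))
    simp [subst, algebraMap_eq, A1.of]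
    rfl
  · show Polynomial.C (Z0.of (eval₂Hom (C : K →+* MvPolynomial (PVar p N) K)
      (Sum.elim X fun _ => 0) (X s))) =
      A1.of (eval₂Hom (Polynomial.C.comp (Z0.of.comp C))
        (Sum.elim (fun t => Polynomial.C (Z0.of (X t)))
          fun j => if j = Fin.last m then (Polynomial.X : Polynomial (Z0 K p N)) else 0)
        (subst (castC K m) (X s)))
    rcases s with s | k
    · simp [subst, A1.of]
      rfl
    · simp [subst, castC, A1.of, ite_pow, hp.1.ne_zero, (Fin.castSucc_lt_last k).ne]
      rfl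

variable (w : Fin (m + 1) → Fin N → K)

/-- The directions but the last. -/
abbrev ini : Fin m → Fin N → K := fun k => w k.castSucc

/-- The inclusion of the algebra of one direction fewer. -/
def jU : Bv (p := p) f (ini w) →+* Uw (p := p) f w :=
  bcMap f (castC_spec w) cz keep_castC

/-- The added generator. -/
def TU : Uw (p := p) f w := inR f _ w ⟨lop f (w (Fin.last m)), lop_mem_alg f w _⟩

/-- The parameter in the deformed algebra. -/
def zU : Uw (p := p) f w := inL f _ w (zA : A1 K p N)

/-- The value of the added generator at the origin. -/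
def piU : Bv (p := p) f (ini w) :=
  inR f _ (ini w) ⟨mlt (Fv f (w (Fin.last m))), mlt_mem_alg f _
    (sum_mem fun t _ => Subalgebra.smul_mem _ (tX_mem_Rs t) _)⟩

variable {f} {w} (hf : ∀ t, (f t).IsHomogeneous p)

include hf in
theorem TU_pow : TU (p := p) f w ^ p = jU f w (piU f w) + zU f w := by
  rw [TU, ← map_pow, piU, jU, bcMap_inR, zU]
  have e : algebraMap (Base K p N (m + 1)) (A1 K p N) (X (Sum.inr (Fin.last m))) = zA := by
    show A1.of (eval₂Hom _ _ (X (Sum.inr (Fin.last m)))) = A1.of Polynomial.X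
    simp
  rw [← e, ← inR_algebraMap, ← map_add]
  congr 1
  refine Subtype.ext ?_
  simp only [SubmonoidClass.coe_pow, AddMemClass.coe_add, coe_algIn]
  show lop f (w (Fin.last m)) ^ p = mlt _ + mlt (base f w (X (Sum.inr (Fin.last m))))
  rw [lop_pow f hf, base, aeval_X, Sum.elim_inr, map_add]

include hf in
theorem TU_comm_pi : Commute (TU (p := p) f w) (jU f w (piU f w)) := by
  have h : jU f w (piU f w) = TU (p := p) f w ^ p - zU f w := by rw [TU_pow hf]; abel
  rw [h]
  exact (Commute.self_pow _ _).sub_right (inL_commute f _ _).symm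

include hf in
theorem jU_mul_pow_add (b : Bv (p := p) f (ini w)) (n : ℕ) :
    jU f w b * TU f w ^ (n + p) =
      (zA : A1 K p N) • (jU f w b * TU f w ^ n) + jU f w (b * piU f w) * TU f w ^ n := by
  have hz : jU f w b * (TU f w ^ n * zU f w) = (zA : A1 K p N) • (jU f w b * TU f w ^ n) := by
    rw [← mul_assoc, smul_eq_inL, zU, (inL_commute f (zA : A1 K p N) _).eq]
  rw [pow_add, TU_pow hf, mul_add, mul_add, hz, ((TU_comm_pi hf).pow_left n).eq, ← mul_assoc,
    ← map_mul]
  abel

/-- The coefficient of a power of the parameter. -/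
def pc (l : ℕ) : A1 K p N →+ Z0 K p N :=
  (Polynomial.lcoeff (Z0 K p N) l).toAddMonoidHom

omit hp [CharP K p] in
theorem pc_cz (l : ℕ) (r : Z0 K p N) : pc l (cz r) = if l = 0 then r else 0 :=
  Polynomial.coeff_C

omit hp [CharP K p] in
theorem pc_z_succ (l : ℕ) (a : A1 K p N) : pc (l + 1) (zA * a) = pc l a :=
  Polynomial.coeff_X_mul (a : Polynomial (Z0 K p N)) l

omit hp [CharP K p] in
theorem pc_z_zero (a : A1 K p N) : pc 0 (zA * a) = 0 :=
  Polynomial.coeff_X_mul_zero (a : Polynomial (Z0 K p N))

/-- The index with the last exponent attached. -/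
def extIdx (x : Idx p N m) (i : Fin p) : Idx p N (m + 1) := (x.1, Fin.snoc x.2 i)

omit hp in
theorem extIdx_surj (y : Idx p N (m + 1)) : ∃ x i, extIdx x i = y :=
  ⟨(y.1, Fin.init y.2), y.2 (Fin.last m), by simp [extIdx, Fin.snoc_init_self]⟩

omit hp in
theorem extIdx_inj {x x' : Idx p N m} {i i' : Fin p} (h : extIdx x i = extIdx x' i') :
    x = x' ∧ i = i' := by
  obtain ⟨h1, h2⟩ := Prod.mk.inj h
  exact ⟨Prod.ext h1 (Fin.snoc_inj.1 h2).1, (Fin.snoc_inj.1 h2).2⟩

theorem algIn_gvec_mul_pow (x : Idx p N m) (i : Fin p) :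
    algIn f (castC_spec w) (gvec f (ini w) x) *
      (⟨lop f (w (Fin.last m)), lop_mem_alg f w _⟩ : alg (p := p) f w) ^ (i : ℕ) =
        gvec f w (extIdx x i) := by
  refine Subtype.ext ?_
  simp only [MulMemClass.coe_mul, SubmonoidClass.coe_pow, coe_algIn]
  show gen f (ini w) x * lop f (w (Fin.last m)) ^ (i : ℕ) = gen f w (extIdx x i)
  simp [gen, extIdx, lmon, ini, mul_assoc]

variable (hw : LinearIndependent K w)

include hf hw in
theorem jU_basis (x : Idx p N m) (i : Fin p) :
    jU f w (bcBasis f (Z0 K p N) hf (ini w) (hw.comp _ (Fin.castSucc_injective m)) x) *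
        TU f w ^ (i : ℕ) = bcBasis f (A1 K p N) hf w hw (extIdx x i) := by
  rw [bcBasis_apply, bcBasis_apply, ← inR_apply, ← inR_apply, jU, bcMap_inR, TU, ← map_pow,
    ← map_mul, algIn_gvec_mul_pow]

include hf hw in
theorem jU_mul_pow (b : Bv (p := p) f (ini w)) (i : Fin p) :
    jU f w b * TU f w ^ (i : ℕ) =
      ∑ x, cz ((bcBasis f (Z0 K p N) hf (ini w) (hw.comp _ (Fin.castSucc_injective m))).repr b x) •
        bcBasis f (A1 K p N) hf w hw (extIdx x i) := by
  set bB := bcBasis f (Z0 K p N) hf (ini w) (hw.comp _ (Fin.castSucc_injective m))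
  conv_lhs => rw [← bB.sum_repr b]
  rw [map_sum, Finset.sum_mul]
  refine Finset.sum_congr rfl fun x _ => ?_
  rw [jU, bcMap_smul, smul_mul_assoc, ← jU, jU_basis hf hw]

include hf hw in
theorem coord_block (i i' : Fin p) (x : Idx p N m) : ∀ (k : ℕ) (b : Bv (p := p) f (ini w)) (l : ℕ),
    k ≤ l → pc l ((bcBasis f (A1 K p N) hf w hw).repr (jU f w b * TU f w ^ ((i : ℕ) + p * k))
      (extIdx x i')) =
      if i' = i ∧ l = k then
        (bcBasis f (Z0 K p N) hf (ini w) (hw.comp _ (Fin.castSucc_injective m))).repr b x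
      else 0 := by
  classical
  intro k
  induction k with
  | zero =>
    intro b l _
    rw [mul_zero, add_zero, jU_mul_pow hf hw, map_sum, Finsupp.finsetSum_apply]
    simp only [map_smul, Finsupp.smul_apply, Module.Basis.repr_self, Finsupp.single_apply]
    by_cases hi : i' = i
    · subst hi
      rw [Finset.sum_eq_single x]
      · simp [pc_cz]
      · intro y _ hy
        rw [if_neg fun e => hy (extIdx_inj e).1, smul_zero]
      · simp
    · rw [Finset.sum_eq_zero fun y _ => ?_]
      · simp [hi]
      · rw [if_neg fun e => hi (extIdx_inj e).2.symm, smul_zero]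
  | succ k ih =>
    intro b l hl
    obtain ⟨l, rfl⟩ : ∃ l', l = l' + 1 := ⟨l - 1, by omega⟩
    rw [show (i : ℕ) + p * (k + 1) = (i : ℕ) + p * k + p by ring, jU_mul_pow_add hf,
      map_add, map_smul, Finsupp.add_apply, Finsupp.smul_apply, map_add, smul_eq_mul, pc_z_succ,
      ih b l (by omega), ih (b * piU f w) (l + 1) (by omega)]
    rw [if_neg (fun h : i' = i ∧ l + 1 = k => by omega), add_zero]
    simp

include hf hw in
theorem ore_injective {c : ℕ →₀ Bv (p := p) f (ini w)}
    (h : oreEval (jU f w) (TU f w) c = 0) : c = 0 := by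
  classical
  by_contra hc
  have hne : c.support.Nonempty := Finsupp.support_nonempty_iff.2 hc
  obtain ⟨n, hn, hmax⟩ : ∃ n ∈ c.support, ∀ n' ∈ c.support, n' ≤ n :=
    ⟨c.support.max' hne, Finset.max'_mem _ _, fun n' hn' => Finset.le_max' _ _ hn'⟩
  set bB := bcBasis f (Z0 K p N) hf (ini w) (hw.comp _ (Fin.castSucc_injective m))
  set bU := bcBasis f (A1 K p N) hf w hw
  refine Finsupp.mem_support_iff.1 hn (bB.repr.map_eq_zero_iff.1 (Finsupp.ext fun x => ?_))
  have hterm : ∀ n' ∈ c.support,
      pc (n / p) (bU.repr (jU f w (c n') * TU f w ^ n')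
        (extIdx x ⟨n % p, Nat.mod_lt _ hp.1.pos⟩)) = if n' = n then bB.repr (c n) x else 0 := by
    intro n' hn'
    have e : n' = ((⟨n' % p, Nat.mod_lt _ hp.1.pos⟩ : Fin p) : ℕ) + p * (n' / p) :=
      (Nat.mod_add_div n' p).symm
    conv_lhs => rw [e]
    rw [coord_block hf hw _ _ x (n' / p) _ (n / p) (Nat.div_le_div_right (hmax n' hn'))]
    simp only [← e]
    by_cases he : n' = n
    · subst he; simp [bB]
    · rw [if_neg he, if_neg]
      rintro ⟨h1, h2⟩
      apply he
      rw [Fin.mk.injEq] at h1
      rw [← Nat.mod_add_div n' p, ← Nat.mod_add_div n p, h1, h2]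
  have h0 := congrArg (fun u => pc (n / p) (bU.repr u (extIdx x ⟨n % p, Nat.mod_lt _ hp.1.pos⟩))) h
  simp only [oreEval, Finsupp.sum, map_sum, Finsupp.finsetSum_apply, map_zero,
    Finsupp.zero_apply] at h0
  rw [Finset.sum_congr rfl hterm, Finset.sum_ite_eq', if_pos hn] at h0
  simpa using h0

include hf hw in
theorem ore_surjective (u : Uw (p := p) f w) : ∃ c, oreEval (jU f w) (TU f w) c = u := by
  set j := jU (p := p) f w
  set T := TU (p := p) f w
  set bB := bcBasis f (Z0 K p N) hf (ini w) (hw.comp _ (Fin.castSucc_injective m))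
  set bU := bcBasis f (A1 K p N) hf w hw
  have hadd : ∀ {a b : Uw (p := p) f w}, (∃ c, oreEval j T c = a) → (∃ c, oreEval j T c = b) →
      ∃ c, oreEval j T c = a + b := by
    rintro a b ⟨c, rfl⟩ ⟨c', rfl⟩
    exact ⟨c + c', oreEval_add c c'⟩
  have hzero : ∃ c, oreEval j T c = 0 := ⟨0, by simp [oreEval]⟩
  have hz : ∀ a : Uw (p := p) f w, (∃ c, oreEval j T c = a) → ∃ c, oreEval j T c = (zA : A1 K p N) • a := by
    rintro _ ⟨c, rfl⟩
    induction c using Finsupp.induction_linear with
    | zero => exact ⟨0, by simp [oreEval]⟩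
    | add a b ha hb => rw [oreEval_add, smul_add]; exact hadd ha hb
    | single k b =>
      refine ⟨Finsupp.single (k + p) b + Finsupp.single k (-(b * piU f w)), ?_⟩
      rw [oreEval_add, oreEval_single, oreEval_single, oreEval_single, jU_mul_pow_add hf, map_neg,
        neg_mul, add_neg_cancel_right]
  have hcoef : ∀ (q : Polynomial (Z0 K p N)) (y : Idx p N (m + 1)),
      ∃ c, oreEval j T c = A1.of q • bU y := by
    intro q y
    obtain ⟨x, i, rfl⟩ := extIdx_surj y
    induction q using Polynomial.induction_on' with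
    | add a b ha hb => rw [map_add, add_smul]; exact hadd ha hb
    | monomial n r =>
      induction n with
      | zero =>
        refine ⟨Finsupp.single (i : ℕ) (r • bB x), ?_⟩
        rw [oreEval_single, Polynomial.monomial_zero_left]
        show jU f w (r • bB x) * T ^ (i : ℕ) = cz r • bU (extIdx x i)
        rw [jU, bcMap_smul, smul_mul_assoc, ← jU, jU_basis hf hw]
      | succ n ih =>
        have := hz _ ih
        rw [smul_smul] at this
        rw [← Polynomial.X_mul_monomial, map_mul]
        exact this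
  have hall : ∀ s : Finset (Idx p N (m + 1)),
      ∃ c, oreEval j T c = ∑ y ∈ s, bU.repr u y • bU y := by
    intro s
    induction s using Finset.induction with
    | empty => simpa using hzero
    | insert y s hy ih =>
      rw [Finset.sum_insert hy]
      exact hadd (hcoef (bU.repr u y) y) ih
  obtain ⟨c, hc⟩ := hall Finset.univ
  exact ⟨c, by rw [hc, bU.sum_repr]⟩

/-- The augmentation of a specialised algebra. -/
def epsB {m : ℕ} (f : Fin N → MvPolynomial (Fin N) K) (v : Fin m → Fin N → K) :
    Bv (p := p) f v →+* K :=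
  augBC f epsZ epsZ_algebraMap v

/-- The augmentation of a deformed algebra. -/
def epsU (f : Fin N → MvPolynomial (Fin N) K) (w : Fin (m + 1) → Fin N → K) :
    Uw (p := p) f w →+* K :=
  augBC f (epsZ.comp evz) eps_evz w

theorem epsB_inR {m : ℕ} {v : Fin m → Fin N → K} (u : alg (p := p) f v) :
    epsB f v (inR f _ v u) = constantCoeff ((u : Op K p N) 1) := by
  rw [inR_apply, epsB, augBC_tmul, map_one, one_mul]
  rfl

theorem epsU_inR (u : alg (p := p) f w) :
    epsU f w (inR f _ w u) = constantCoeff ((u : Op K p N) 1) := by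
  rw [inR_apply, epsU, augBC_tmul, map_one, one_mul]
  rfl

theorem epsU_jU (b : Bv (p := p) f (ini w)) : epsU f w (jU f w b) = epsB f (ini w) b := by
  suffices h : (epsU f w).comp (jU f w) = epsB (p := p) f (ini w) from RingHom.congr_fun h b
  refine bc_ext (R := Base K p N m) (A := Z0 K p N) (U := alg (p := p) f (ini w)) (fun r => ?_) fun u => ?_
  · show epsU f w (jU f w (r ⊗ₜ 1)) = epsB f (ini w) (r ⊗ₜ 1)
    rw [jU, bcMap_tmul, map_one, map_one, mul_one, inL_apply, epsU, augBC_tmul, epsB, augBC_tmul,
      map_one, map_one]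
    show epsZ (Polynomial.eval 0 (Polynomial.C r)) * 1 = epsZ r * 1
    rw [Polynomial.eval_C]
  · show epsU f w (jU f w (inR f _ (ini w) u)) = epsB f (ini w) (inR f _ (ini w) u)
    rw [jU, bcMap_inR, epsU_inR, epsB_inR, coe_algIn]

theorem TU_ad (b : Bv (p := p) f (ini w)) :
    ∃ b', TU f w * jU f w b = jU f w b * TU f w + jU f w b' := by
  induction b using TensorProduct.induction_on with
  | zero => exact ⟨0, by simp⟩
  | add a b ha hb =>
    obtain ⟨a', ha'⟩ := ha
    obtain ⟨b', hb'⟩ := hb
    exact ⟨a' + b', by rw [map_add, mul_add, ha', hb', add_mul, map_add]; abel⟩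
  | tmul r u =>
    refine ⟨r ⊗ₜ ⟨_, bracket_mem f (ini w) (w (Fin.last m)) u.2⟩, ?_⟩
    rw [jU, bcMap_tmul, bcMap_tmul, TU, ← mul_assoc, ← (inL_commute f (cz r) _).eq, mul_assoc,
      mul_assoc, ← mul_add, ← map_mul, ← map_mul, ← map_add]
    congr 2
    refine Subtype.ext ?_
    simp only [MulMemClass.coe_mul, AddMemClass.coe_add, coe_algIn]
    abel

include hf hw in
theorem oreData : OreData (jU (p := p) f w) (epsB f (ini w)) (epsU f w) (TU f w) where
  compat := epsU_jU
  aug := by rw [TU, epsU_inR]; exact epsAlg_lop f w (Fin.last m)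
  bij := by
    refine ⟨fun c c' h => ?_, fun u => ore_surjective hf hw u⟩
    have h2 : oreEval (jU f w) (TU f w) (c - c') = 0 := by
      have := oreEval_add (j := jU (p := p) f w) (T := TU f w) (c - c') c'
      rw [sub_add_cancel] at this
      exact add_eq_right.1 (this.symm.trans h)
    exact sub_eq_zero.1 (ore_injective hf hw h2)
  ad := TU_ad

end Vale.Agent.P200d
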