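import Vale.Agent.P200d.Cone

/-!
Two degree two operators whose whole pencil is bijective on homology kill the homology.
-/

noncomputable section

namespace Vale.Agent.P200d

open Matrix

variable {K : Type*} [Field K] {g : ℕ → ℕ}
  (d : ∀ i, Matrix (Fin (g (i + 1))) (Fin (g i)) K)

/-- A family of degree two operators is bijective on homology from degree `N` on. -/
structure HBij (S : ∀ i, Matrix (Fin (g (i + 1 + 1))) (Fin (g i)) K) (N : ℕ) : Prop where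
  comm : ∀ i, d (i + 1 + 1) * S i = S (i + 1) * d i
  surj : ∀ i, N ≤ i + 1 → ∀ b, b ᵥ* d i = 0 →
    ∃ c e, c ᵥ* d (i + 1 + 1) = 0 ∧ b = c ᵥ* S (i + 1) + e ᵥ* d (i + 1)
  inj : ∀ i, N ≤ i + 1 → ∀ a, a ᵥ* d (i + 1) = 0 → (∃ b, a ᵥ* S i = b ᵥ* d i) →
    ∃ c, c ᵥ* d (i + 1 + 1) = a

theorem HBij.congr {S S' : ∀ i, Matrix (Fin (g (i + 1 + 1))) (Fin (g i)) K} {N : ℕ}
    (h : HBij d S N) (e : ∀ i, S i = S' i) : HBij d S' N := by
  obtain rfl : S = S' := funext e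
  exact h

/-- The homology in a degree. -/
abbrev hom (i : ℕ) : Type _ := redZ g d i ⧸ (redB g d i).comap (redZ g d i).subtype

/-- An operator on cycles, with values in homology. -/
def opZ (S : ∀ i, Matrix (Fin (g (i + 1 + 1))) (Fin (g i)) K)
    (hc : ∀ i, d (i + 1 + 1) * S i = S (i + 1) * d i) (i : ℕ) :
    redZ g d (i + 1 + 1) →ₗ[K] hom d i :=
  Submodule.mkQ _ ∘ₗ ((rowMap (S (i + 1)) ∘ₗ (redZ g d (i + 1 + 1)).subtype).codRestrict _ fun c => by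
    show (c.1 ᵥ* S (i + 1)) ᵥ* d i = 0
    have hc' : c.1 ᵥ* d (i + 1 + 1) = 0 := c.2
    rw [Matrix.vecMul_vecMul, ← hc i, ← Matrix.vecMul_vecMul, hc', Matrix.zero_vecMul])

/-- An operator on homology. -/
def opH (S : ∀ i, Matrix (Fin (g (i + 1 + 1))) (Fin (g i)) K)
    (hc : ∀ i, d (i + 1 + 1) * S i = S (i + 1) * d i) (i : ℕ) :
    hom d (i + 1 + 1) →ₗ[K] hom d i :=
  Submodule.liftQ _ (opZ d S hc i) fun c hc' => by
    obtain ⟨e, he⟩ : (c : Fin (g (i + 1 + 1 + 1)) → K) ∈ redB g d (i + 1 + 1) := hc'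
    rw [LinearMap.mem_ker, opZ, LinearMap.comp_apply, Submodule.mkQ_apply,
      Submodule.Quotient.mk_eq_zero, Submodule.mem_comap]
    refine ⟨e ᵥ* S (i + 1 + 1), ?_⟩
    show (e ᵥ* S (i + 1 + 1)) ᵥ* d (i + 1) = c.1 ᵥ* S (i + 1)
    rw [← he, rowMap_apply, Matrix.vecMul_vecMul, Matrix.vecMul_vecMul, hc (i + 1)]

theorem opH_mk (S : ∀ i, Matrix (Fin (g (i + 1 + 1))) (Fin (g i)) K)
    (hc : ∀ i, d (i + 1 + 1) * S i = S (i + 1) * d i) (i : ℕ) (c : redZ g d (i + 1 + 1))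
    (b : redZ g d i) :
    opH d S hc i (Submodule.Quotient.mk c) = Submodule.Quotient.mk b ↔
      ∃ e, e ᵥ* d (i + 1) = c.1 ᵥ* S (i + 1) - b.1 := by
  rw [opH, Submodule.liftQ_apply, opZ, LinearMap.comp_apply, Submodule.mkQ_apply,
    Submodule.Quotient.eq, Submodule.mem_comap]
  rfl

theorem HBij.bijective {S : ∀ i, Matrix (Fin (g (i + 1 + 1))) (Fin (g i)) K} {N : ℕ}
    (h : HBij d S N) (i : ℕ) (hi : N ≤ i + 1) : Function.Bijective (opH d S h.comm i) := by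
  refine ⟨(injective_iff_map_eq_zero _).2 fun x hx => ?_, fun y => ?_⟩
  · obtain ⟨c, rfl⟩ := Submodule.Quotient.mk_surjective _ x
    obtain ⟨e, he⟩ := (opH_mk d S h.comm i c 0).1 (hx.trans (Submodule.Quotient.mk_zero _).symm)
    rw [ZeroMemClass.coe_zero, sub_zero] at he
    obtain ⟨c', hc'⟩ := h.inj (i + 1) (by omega) c.1 c.2 ⟨e, he.symm⟩
    rw [Submodule.Quotient.mk_eq_zero, Submodule.mem_comap]
    exact ⟨c', hc'⟩
  · obtain ⟨b, rfl⟩ := Submodule.Quotient.mk_surjective _ y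
    obtain ⟨c, e, hc, he⟩ := h.surj i hi b.1 b.2
    refine ⟨Submodule.Quotient.mk ⟨c, hc⟩, (opH_mk d S h.comm i _ b).2 ⟨-e, ?_⟩⟩
    rw [Matrix.neg_vecMul, he]
    abel

theorem exact_of_pencil [IsAlgClosed K] {p : ℕ} (hp : 0 < p)
    (S0 S1 : ∀ i, Matrix (Fin (g (i + 1 + 1))) (Fin (g i)) K) (N : ℕ) (h1 : HBij d S1 N)
    (h : ∀ μ : K, HBij d (fun i => S0 i + μ ^ p • S1 i) N) (i : ℕ) (hi : N ≤ i + 1) :
    ∀ b, b ᵥ* d i = 0 → ∃ c, c ᵥ* d (i + 1) = b := by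
  have hc0 : ∀ i, d (i + 1 + 1) * S0 i = S0 (i + 1) * d i := fun i => by
    simpa [zero_pow hp.ne'] using (h 0).comm i
  have hlin : ∀ μ : K, opH d S0 hc0 i + μ ^ p • opH d S1 h1.comm i = opH d _ (h μ).comm i := by
    intro μ
    refine Submodule.linearMap_qext _ (LinearMap.ext fun c => ?_)
    simp only [opH, LinearMap.comp_apply, Submodule.mkQ_apply, LinearMap.add_apply,
      LinearMap.smul_apply, Submodule.liftQ_apply, opZ, ← Submodule.Quotient.mk_smul,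
      ← Submodule.Quotient.mk_add]
    congr 1
    refine Subtype.ext ?_
    show c.1 ᵥ* S0 (i + 1) + μ ^ p • (c.1 ᵥ* S1 (i + 1)) = c.1 ᵥ* (S0 (i + 1) + μ ^ p • S1 (i + 1))
    rw [Matrix.vecMul_add, Matrix.vecMul_smul]
  have hsub : Subsingleton (hom d (i + 1 + 1)) :=
    pencil_zero hp (opH d S0 hc0 i) (opH d S1 h1.comm i) (h1.bijective d i hi) fun μ => by
      rw [hlin μ]
      exact ((h μ).bijective d i hi).1
  have hsub' : Subsingleton (hom d i) := (h1.bijective d i hi).2.subsingleton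
  intro b hb
  have hz : (Submodule.Quotient.mk (⟨b, hb⟩ : redZ g d i) : hom d i) = 0 := Subsingleton.elim _ _
  rw [Submodule.Quotient.mk_eq_zero, Submodule.mem_comap] at hz
  exact hz

end Vale.Agent.P200d
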