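import Vale.Agent.P200d.Tower2

/-!
Finitely generated modules over the specialised algebras are regular.
-/

noncomputable section

namespace Vale.Agent.P200d

open MvPolynomial

universe u

variable {K : Type u} [Field K] {p N : ℕ} [hp : Fact p.Prime] [CharP K p]
  {f : Fin N → MvPolynomial (Fin N) K} (hf : ∀ t, (f t).IsHomogeneous p)

section One

variable {v : Fin 1 → Fin N → K} (hv : LinearIndependent K v)
  {t0 : Fin N} (ht0 : eval (v 0) (f t0) ≠ 0) {s0 : PVar p N} (hs0 : s0.1 = (t0, fun _ => 0))

include hf hv ht0 hs0 in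
theorem reg_subR : ∀ (n : ℕ) (S : Finset (PVar p N)), S.card = n → Good s0 S →
    ∀ (M : Type u) [AddCommGroup M] [Module (subR f v S) M],
      Reg (augSet (epsS f v S)) (n + 1) M := by
  classical
  intro n
  induction n with
  | zero =>
    intro S hS _ M _ _
    obtain rfl := Finset.card_eq_zero.1 hS
    let : Module K M := Module.compHom M (constR (p := p) f v)
    exact (ore_bottom hf hv ht0 hs0).reg_succ (fun b x => rfl) (reg_field M)
  | succ n ih =>
    intro S hS hG M _ _
    obtain ⟨s, hsS, hmax⟩ := Finset.exists_max_image S (fun s : PVar p N => lev s.1.2)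
      (Finset.card_pos.1 (by omega))
    obtain ⟨S', hs, rfl⟩ : ∃ S', s ∉ S' ∧ S = insert s S' :=
      ⟨S.erase s, Finset.notMem_erase s S, (Finset.insert_erase hsS).symm⟩
    have hss : s ≠ s0 := fun e => hG.1 (e ▸ hsS)
    have hG' : Good s0 S' := ⟨fun h => hG.1 (Finset.mem_insert_of_mem h), fun t ht t' hlt => by
      rcases hG.2 t (Finset.mem_insert_of_mem ht) t' hlt with h | h
      · exact Or.inl h
      · refine Or.inr ((Finset.mem_insert.1 h).resolve_left ?_)
        rintro rfl
        have := hmax t (Finset.mem_insert_of_mem ht)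
        omega⟩
    have hlow : ∀ s', lev s'.1.2 < lev s.1.2 → s' = s0 ∨ s' ∈ S' := fun t' hlt => by
      rcases hG.2 s hsS t' hlt with h | h
      · exact Or.inl h
      · refine Or.inr ((Finset.mem_insert.1 h).resolve_left ?_)
        rintro rfl
        omega
    let : Module (subR f v S') M := Module.compHom M (jS (p := p) f v S' s)
    exact (ore_step hf hv ht0 hs0 hG' hs hss hlow).reg_succ (fun b x => rfl)
      (ih S' (by rw [Finset.card_insert_of_notMem hs] at hS; omega) hG' M)

include hf hv ht0 hs0 in
theorem subR_univ : subR f v (Finset.univ.erase s0) = ⊤ := by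
  classical
  set S := (Finset.univ : Finset (PVar p N)).erase s0
  have hX : ∀ s, polyB f v (X s) ∈ subR f v S := by
    intro s
    by_cases h : s = s0
    · rw [h]
      refine extP_mem hf (X_s0_mem ht0 hs0 fun t _ => ?_)
      simpa [S, or_iff_not_imp_left] using em (t = s0)
    · exact polyB_mem (Algebra.subset_adjoin ⟨s, by simp [S, h], rfl⟩)
  have hpoly : ∀ P, polyB f v P ∈ subR f v S := by
    intro P
    induction P using MvPolynomial.induction_on with
    | C a => exact polyB_mem (Subalgebra.algebraMap_mem _ a)
    | add a b ha hb => rw [map_add]; exact add_mem ha hb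
    | mul_X a s ha => rw [map_mul]; exact mul_mem ha (hX s)
  have hgen : ∀ u (hu : u ∈ alg (p := p) f v), inR f (Z0 K p N) v ⟨u, hu⟩ ∈ subR f v S := by
    intro u hu
    induction hu using Algebra.adjoin_induction with
    | mem x hx =>
      rcases hx with (⟨s, rfl⟩ | ⟨c, rfl⟩) | ⟨j, rfl⟩
      · convert hX s using 1
        rw [polyB, RingHom.comp_apply]
        congr 1
        exact Subtype.ext (by rw [coe_polyAlg, toRs, aeval_X])
      · show inR f (Z0 K p N) v (algebraMap (Base K p N 1) (alg (p := p) f v) c) ∈ _
        rw [inR_algebraMap, kill_eq]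
        suffices H : ∀ q : MvPolynomial (PVar p N) K, inL f (Z0 K p N) v (Z0.of q) ∈ subR f v S from H _
        intro q
        rw [← polyB_expand]
        exact hpoly _
      · obtain rfl := Subsingleton.elim j 0
        exact Tv_mem S
    | algebraMap a =>
      convert hpoly (C a) using 1
      rw [polyB, RingHom.comp_apply]
      congr 1
      exact Subtype.ext (by
        rw [coe_polyAlg, ← algebraMap_eq, AlgHom.commutes, AlgHom.commutes])
    | add x y hx hy hx' hy' =>
      have := add_mem hx' hy'
      rwa [← map_add] at this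
    | mul x y hx hy hx' hy' =>
      have := mul_mem hx' hy'
      rwa [← map_mul] at this
  rw [eq_top_iff]
  rintro x -
  obtain ⟨u, rfl⟩ := inR_surjective x
  exact hgen u.1 u.2

end One

include hf in
theorem regAll_zero (hnz : ∀ x : Fin N → K, (∀ t, eval x (f t) = 0) → x = 0)
    (v : Fin 1 → Fin N → K) (hv : LinearIndependent K v) : RegAll (p := p) f 0 v := by
  classical
  intro M _ _ _
  obtain ⟨t0, ht0⟩ : ∃ t, eval (v 0) (f t) ≠ 0 := by
    by_contra h
    exact hv.ne_zero 0 (hnz _ fun t => by simpa using not_exists.1 h t)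
  let s0 : PVar p N := ⟨(t0, fun _ => 0), by simpa [lev] using hp.1.one_lt⟩
  set S := (Finset.univ : Finset (PVar p N)).erase s0
  have hG : Good s0 S := ⟨by simp [S], fun s _ s' _ => by simp [S, em]⟩
  let : Module (subR f v S) M := Module.compHom M (subR f v S).subtype
  have h := reg_subR hf hv ht0 (s0 := s0) rfl S.card S rfl hG M
  have hb : Function.Bijective (subR (p := p) f v S).subtype :=
    ⟨Subtype.val_injective, fun x => ⟨⟨x, by rw [subR_univ hf hv ht0 (s0 := s0) rfl]; trivial⟩, rfl⟩⟩
  have h' := reg_of_bijective (subR (p := p) f v S).subtype hb (epsB f v) (fun b x => rfl) h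
  have hc : regBound p N 0 = S.card + 1 := by
    show Fintype.card (PVar p N) + 0 = S.card + 1
    rw [Finset.card_erase_add_one (Finset.mem_univ s0)]
    rfl
  rw [hc]
  exact h'

/-- Regularity of all finitely generated modules. -/
theorem reg_main [IsAlgClosed K] (hf : ∀ t, (f t).IsHomogeneous p)
    (hnz : ∀ x : Fin N → K, (∀ t, eval x (f t) = 0) → x = 0) {m : ℕ}
    (v : Fin (m + 1) → Fin N → K) (hv : LinearIndependent K v) (M : Type u) [AddCommGroup M]
    [Module (Bv (p := p) f v) M] [Module.Finite (Bv (p := p) f v) M] :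
    Reg (augSet (epsB f v)) (regBound p N m) M :=
  regAll hf (regAll_zero hf hnz) m v hv M

end Vale.Agent.P200d
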