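import Vale.Agent.P200d.Div

/-!
The division algebra of a system of forms, with the derivations dual to the directions.
-/

noncomputable section

namespace Vale.Agent.P200d

open MvPolynomial TensorProduct

universe u

variable {K : Type u} [Field K] {p N : ℕ} [hp : Fact p.Prime] [CharP K p]
  (f : Fin N → MvPolynomial (Fin N) K) {m : ℕ} (v : Fin m → Fin N → K)

/-- The fractions of the coefficient ring. -/
abbrev Lf (K : Type u) [Field K] (p N : ℕ) : Type u := FractionRing (Z0 K p N)

/-- The algebra over the fractions. -/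
abbrev Dv : Type u := BC (p := p) f (Lf K p N) v

omit hp [CharP K p] in
theorem subst_idC [Fact p.Prime] (c : Base K p N m) : subst (idC K m) c = c := by
  have h : (subst (idC K m) : Base K p N m →ₐ[K] Base K p N m) = AlgHom.id K _ := by
    refine algHom_ext fun s => ?_
    rcases s with s | k
    · simp [subst]
    · simp [subst, idC, ite_pow, (Fact.out : p.Prime).ne_zero]
  rw [h]
  rfl

theorem algebraMap_Lf (c : Base K p N m) :
    algebraMap (Z0 K p N) (Lf K p N) (algebraMap (Base K p N m) (Z0 K p N) c) =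
      algebraMap (Base K p N m) (Lf K p N) (subst (idC K m) c) := by
  rw [subst_idC, ← IsScalarTower.algebraMap_apply]

/-- The map into the algebra over the fractions. -/
def toDv : Bv (p := p) f v →+* Dv (p := p) f v :=
  bcMap (b := m) (w := v) (C := idC K m) (A := Z0 K p N) (A' := Lf K p N) f (idC_spec v)
    (algebraMap (Z0 K p N) (Lf K p N)) algebraMap_Lf

/-- The constants. -/
def cstD : K →+* Dv (p := p) f v :=
  (inL f (Lf K p N) v).comp ((algebraMap (Z0 K p N) (Lf K p N)).comp
    (Z0.of.comp (MvPolynomial.C : K →+* MvPolynomial (PVar p N) K)))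

instance algKD : Algebra K (Dv (p := p) f v) :=
  (cstD f v).toAlgebra' fun a x => inL_commute f _ x

variable {f} {v} (hf : ∀ t, (f t).IsHomogeneous p) (hv : LinearIndependent K v)

theorem toDv_smul (a : Z0 K p N) (u : Bv (p := p) f v) :
    toDv f v (a • u) = algebraMap (Z0 K p N) (Lf K p N) a • toDv f v u :=
  bcMap_smul f (idC_spec v) _ algebraMap_Lf a u

include hf hv in
theorem toDv_basis (x : Idx p N m) :
    toDv f v (bcBasis f (Z0 K p N) hf v hv x) = bcBasis f (Lf K p N) hf v hv x := by
  have e : algIn f (idC_spec v) (gvec f v x) = gvec f v x := Subtype.ext (coe_algIn _ _ _)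
  rw [bcBasis_apply, bcBasis_apply, ← inR_apply, ← inR_apply, toDv, bcMap_inR, e]

include hf hv in
theorem toDv_injective : Function.Injective (toDv (p := p) f v) := by
  classical
  refine (injective_iff_map_eq_zero _).2 fun u hu => ?_
  refine (bcBasis f (Z0 K p N) hf v hv).repr.map_eq_zero_iff.1 (Finsupp.ext fun x => ?_)
  have h := repr_map (bcBasis f (Z0 K p N) hf v hv) (bcBasis f (Lf K p N) hf v hv)
    (algebraMap (Z0 K p N) (Lf K p N)) (toDv f v) toDv_smul (toDv_basis hf hv) u x
  rw [hu, map_zero, Finsupp.zero_apply] at h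
  exact IsFractionRing.injective (Z0 K p N) (Lf K p N) (h.symm.trans (map_zero _).symm)

include hf hv in
theorem clear_den (x : Dv (p := p) f v) : ∃ (s : Z0 K p N) (b : Bv (p := p) f v),
    s ≠ 0 ∧ algebraMap (Z0 K p N) (Lf K p N) s • x = toDv f v b := by
  classical
  set bL := bcBasis f (Lf K p N) hf v hv
  obtain ⟨s, hs⟩ := IsLocalization.exist_integer_multiples (nonZeroDivisors (Z0 K p N))
    (Finset.univ : Finset (Idx p N m)) (fun i => bL.repr x i)
  choose r hr using fun i => hs i (Finset.mem_univ i)
  refine ⟨s, ∑ i, r i • bcBasis f (Z0 K p N) hf v hv i, nonZeroDivisors.coe_ne_zero s, ?_⟩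
  rw [map_sum]
  conv_lhs => rw [← bL.sum_repr x, Finset.smul_sum]
  refine Finset.sum_congr rfl fun i _ => ?_
  rw [toDv_smul, toDv_basis hf hv, smul_smul, hr i]
  congr 1
  exact (Algebra.smul_def _ _).symm

theorem inL_mul_smul (a : Lf K p N) (x y : Dv (p := p) f v) : (a • x) * y = a • (x * y) :=
  smul_mul_assoc a x y

include hf hv in
theorem noZeroDivisors_Dv
    (h : ∀ x y : Bv (p := p) f v, x ≠ 0 → y * x = 0 → y = 0) :
    NoZeroDivisors (Dv (p := p) f v) := by
  refine ⟨fun {a b} hab => or_iff_not_imp_right.2 fun hb => ?_⟩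
  obtain ⟨s, a', hs, ha⟩ := clear_den hf hv a
  obtain ⟨t, b', ht, hb'⟩ := clear_den hf hv b
  have hne : ∀ {r : Z0 K p N}, r ≠ 0 → algebraMap (Z0 K p N) (Lf K p N) r ≠ 0 := fun hr e =>
    hr (IsFractionRing.injective (Z0 K p N) (Lf K p N) (e.trans (map_zero _).symm))
  have hb0 : b' ≠ 0 := by
    rintro rfl
    rw [map_zero] at hb'
    exact hb ((smul_eq_zero.1 hb').resolve_left (hne ht))
  have hmul : toDv f v (a' * b') = 0 := by
    rw [map_mul, ← ha, ← hb', inL_mul_smul, mul_smul_comm, hab, smul_zero, smul_zero]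
  have ha0 : a' = 0 := h b' a' hb0 (toDv_injective hf hv (hmul.trans (map_zero _).symm))
  rw [ha0, map_zero] at ha
  exact (smul_eq_zero.1 ha).resolve_left (hne hs)

include hf hv in
theorem nontrivial_Dv : Nontrivial (Dv (p := p) f v) :=
  ⟨⟨bcBasis f (Lf K p N) hf v hv (fun _ => 0, fun _ => 0), 0,
    (bcBasis f (Lf K p N) hf v hv).ne_zero _⟩⟩

/-! ### The generators -/

variable (f) (v) in
/-- The generator of a direction. -/
def el (j : Fin m) : Dv (p := p) f v := inR f (Lf K p N) v ⟨lop f (v j), lop_mem_alg f v j⟩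

variable (f) (v) in
/-- The values of the variables of the forms. -/
def gT (t : Fin N) : Dv (p := p) f v :=
  inR f (Lf K p N) v ⟨mlt (tX K p t), mlt_mem_alg f v (tX_mem_Rs t)⟩

theorem algebraMap_inr (j : Fin m) :
    algebraMap (Base K p N m) (Lf K p N) (X (Sum.inr j)) = 0 := by
  rw [IsScalarTower.algebraMap_apply (Base K p N m) (Z0 K p N) (Lf K p N), kill_eq]
  have : kill K p N m (X (Sum.inr j)) = 0 := by
    show Z0.of (eval₂Hom MvPolynomial.C (Sum.elim X fun _ => 0) (X (Sum.inr j))) = 0
    simp
  rw [this, map_zero]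

theorem inR_const (a : K) (h : algebraMap K (Op K p N) a ∈ alg f v) :
    inR f (Lf K p N) v ⟨algebraMap K (Op K p N) a, h⟩ = algebraMap K (Dv (p := p) f v) a := by
  rw [algebraMap_alg f v a h, inR_algebraMap]
  show inL f (Lf K p N) v _ = cstD f v a
  rw [cstD, RingHom.comp_apply, RingHom.comp_apply,
    IsScalarTower.algebraMap_apply (Base K p N m) (Z0 K p N) (Lf K p N), kill_eq]
  congr 2
  show Z0.of (eval₂Hom (MvPolynomial.C : K →+* MvPolynomial (PVar p N) K) _ (C a)) = _
  rw [eval₂Hom_C]
  rfl

theorem inR_smul (a : K) (u : alg (p := p) f v) :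
    inR f (Lf K p N) v (a • u) = a • inR f (Lf K p N) v u := by
  rw [Algebra.smul_def, Algebra.smul_def, map_mul]
  congr 1
  exact inR_const a _

theorem el_comm (i j : Fin m)
    (h : delv (v i) (phiv (p := p) f (v j)) - delv (v j) (phiv f (v i)) = 0) :
    el (p := p) f v i * el f v j = el f v j * el f v i := by
  have e : (⟨lop f (v i), lop_mem_alg f v i⟩ : alg (p := p) f v) * ⟨lop f (v j), lop_mem_alg f v j⟩ =
      ⟨lop f (v j), lop_mem_alg f v j⟩ * ⟨lop f (v i), lop_mem_alg f v i⟩ := by
    refine Subtype.ext ?_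
    simp only [MulMemClass.coe_mul]
    rw [lop_lop, h, map_zero, add_zero]
  rw [el, el, ← map_mul, e, map_mul]

include hf in
theorem el_pow (x : Fin m → K) :
    (∑ j, x j • el (p := p) f v j) ^ p = ∑ t, eval (∑ j, x j • v j) (f t) • gT f v t := by
  set w := ∑ j, x j • v j
  have hmem : lop f w ∈ alg (p := p) f v := by
    rw [lop_comb]
    exact sum_mem fun j _ => Subalgebra.smul_mem _ (lop_mem_alg f v j) _
  have e1 : ∑ j, x j • el (p := p) f v j = inR f (Lf K p N) v ⟨lop f w, hmem⟩ := by
    simp only [el, ← inR_smul, ← map_sum]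
    congr 1
    refine Subtype.ext ?_
    simp only [AddSubmonoidClass.coe_finsetSum, SetLike.val_smul]
    exact (lop_comb f x v).symm
  have e2 : (⟨lop f w, hmem⟩ : alg (p := p) f v) ^ p =
      ∑ t, eval w (f t) • (⟨mlt (tX K p t), mlt_mem_alg f v (tX_mem_Rs t)⟩ : alg (p := p) f v) +
        ∑ j, algebraMap (Base K p N m) (alg (p := p) f v) (C (x j ^ p) * X (Sum.inr j)) := by
    refine Subtype.ext ?_
    simp only [SubmonoidClass.coe_pow, AddMemClass.coe_add, AddSubmonoidClass.coe_finsetSum,
      SetLike.val_smul]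
    rw [lop_pow f hf, map_add, Fv, map_sum, zetav_comb, map_sum]
    simp only [map_smul]
    congr 1
    refine Finset.sum_congr rfl fun j _ => ?_
    show x j ^ p • mlt (zetav f (v j)) = mlt (base f v (C (x j ^ p) * X (Sum.inr j)))
    rw [map_mul, base, aeval_C, aeval_X, Sum.elim_inr, ← Algebra.smul_def, map_smul]
  rw [e1, ← map_pow, e2, map_add, map_sum, map_sum]
  have e3 : ∀ j, inR f (Lf K p N) v
      (algebraMap (Base K p N m) (alg (p := p) f v) (C (x j ^ p) * X (Sum.inr j))) = 0 := fun j => by
    rw [inR_algebraMap, map_mul, algebraMap_inr, mul_zero, map_zero]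
  simp only [e3, Finset.sum_const_zero, add_zero, inR_smul, gT]

/-! ### The derivations -/

theorem bracketY_mem (a : Fin N) {u : Op K p N} (hu : u ∈ alg f v) :
    u * mlt (yX K p a) - mlt (yX K p a) * u ∈ alg (p := p) f v := by
  have hm : ∀ r : Pol K p N, mlt r * mlt (yX K p a) - mlt (yX K p a) * mlt r = (0 : Op K p N) := by
    intro r
    rw [← map_mul, ← map_mul, mul_comm, sub_self]
  induction hu using Algebra.adjoin_induction with
  | mem x hx =>
    rcases hx with (⟨s, rfl⟩ | ⟨c, rfl⟩) | ⟨j, rfl⟩
    · rw [hm]; exact zero_mem _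
    · rw [hm]; exact zero_mem _
    · rw [lop_mlt, add_sub_cancel_left, delv_apply]
      simp only [del_yX, map_sum, map_smul]
      refine sum_mem fun k _ => Subalgebra.smul_mem _ ?_ _
      split_ifs
      · rw [map_one]; exact one_mem _
      · rw [map_zero]; exact zero_mem _
  | algebraMap b => rw [← Algebra.commutes, sub_self]; exact zero_mem _
  | add x y _ _ hx hy =>
    rw [add_mul, mul_add, add_sub_add_comm]
    exact add_mem hx hy
  | mul x y hx' hy' hx hy =>
    have e : x * y * mlt (yX K p a) - mlt (yX K p a) * (x * y) =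
        x * (y * mlt (yX K p a) - mlt (yX K p a) * y) +
          (x * mlt (yX K p a) - mlt (yX K p a) * x) * y := by
      simp only [mul_sub, sub_mul, mul_assoc]; abel
    rw [e]
    exact add_mem (mul_mem hx' hy) (mul_mem hx hy')

variable (f) (v) in
/-- The derivation of the twisted algebra dual to a coordinate. -/
def dy (a : Fin N) : alg (p := p) f v →ₗ[Base K p N m] alg (p := p) f v where
  toFun u := ⟨_, bracketY_mem a u.2⟩
  map_add' x y := Subtype.ext (by
    simp only [AddMemClass.coe_add, add_mul, mul_add]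
    abel)
  map_smul' c u := Subtype.ext (by
    simp only [RingHom.id_apply, smul_coe, mul_sub]
    rw [← mul_assoc (mlt (yX K p a)), ← map_mul, mul_comm (yX K p a), map_mul, mul_assoc, mul_assoc])

theorem dy_mul (a : Fin N) (x y : alg (p := p) f v) :
    dy f v a (x * y) = dy f v a x * y + x * dy f v a y :=
  Subtype.ext (by
    show (x : Op K p N) * y * mlt (yX K p a) - mlt (yX K p a) * (x * y) =
      ((x : Op K p N) * mlt (yX K p a) - mlt (yX K p a) * x) * y +
        x * (y * mlt (yX K p a) - mlt (yX K p a) * y)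
    simp only [mul_sub, sub_mul, mul_assoc]; abel)

variable (f) (v) in
/-- The derivation of the algebra over the fractions dual to a coordinate. -/
def dD (a : Fin N) : Dv (p := p) f v →ₗ[Lf K p N] Dv (p := p) f v :=
  (dy f v a).baseChange (Lf K p N)

theorem dD_mul (a : Fin N) (x y : Dv (p := p) f v) :
    dD f v a (x * y) = dD f v a x * y + x * dD f v a y := by
  induction x using TensorProduct.induction_on with
  | zero => simp
  | add x x' hx hx' => rw [add_mul, map_add, hx, hx', map_add, add_mul, add_mul]; abel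
  | tmul r u =>
    induction y using TensorProduct.induction_on with
    | zero => simp
    | add y y' hy hy' => rw [mul_add, map_add, hy, hy', map_add, mul_add, mul_add]; abel
    | tmul s w =>
      rw [Algebra.TensorProduct.tmul_mul_tmul, dD, LinearMap.baseChange_tmul, dy_mul,
        LinearMap.baseChange_tmul, LinearMap.baseChange_tmul, Algebra.TensorProduct.tmul_mul_tmul,
        Algebra.TensorProduct.tmul_mul_tmul, TensorProduct.tmul_add]

theorem dD_el (a : Fin N) (j : Fin m) :
    dD f v a (el (p := p) f v j) = algebraMap K (Dv (p := p) f v) (v j a) := by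
  classical
  rw [el, inR_apply, dD, LinearMap.baseChange_tmul, ← inR_apply]
  have e : dy f v a ⟨lop (p := p) f (v j), lop_mem_alg f v j⟩ =
      ⟨algebraMap K (Op K p N) (v j a), Subalgebra.algebraMap_mem _ _⟩ := by
    refine Subtype.ext ?_
    show lop f (v j) * mlt (yX K p a) - mlt (yX K p a) * lop f (v j) = _
    rw [lop_mlt, add_sub_cancel_left, delv_apply]
    simp [del_yX, Algebra.algebraMap_eq_smul_one]
  rw [e, inR_const]

end Vale.Agent.P200d
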