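import Vale.Agent.P200d.BC

/-!
The coefficient rings of the twisted algebras and the change of directions.
-/

noncomputable section

namespace Vale.Agent.P200d

open MvPolynomial TensorProduct

universe u

variable {K : Type u} [Field K] {p N : ℕ} [hp : Fact p.Prime] [CharP K p]

/-- The coefficient ring with the parameters at the origin. -/
def Z0 (K : Type u) [Field K] (p N : ℕ) : Type u := MvPolynomial (PVar p N) K

instance : CommRing (Z0 K p N) := inferInstanceAs (CommRing (MvPolynomial (PVar p N) K))
instance : IsDomain (Z0 K p N) := inferInstanceAs (IsDomain (MvPolynomial (PVar p N) K))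
instance : IsNoetherianRing (Z0 K p N) :=
  inferInstanceAs (IsNoetherianRing (MvPolynomial (PVar p N) K))

/-- The polynomial underlying an element. -/
def Z0.of : MvPolynomial (PVar p N) K →+* Z0 K p N := RingHom.id _

/-- The augmentation. -/
def epsZ : Z0 K p N →+* K := (constantCoeff : MvPolynomial (PVar p N) K →+* K)

/-- Evaluation of the parameters at the origin. -/
def kill (K : Type u) [Field K] (p N m : ℕ) : Base K p N m →+* Z0 K p N :=
  Z0.of.comp (eval₂Hom C (Sum.elim X fun _ => 0))

instance algZ0 {m : ℕ} : Algebra (Base K p N m) (Z0 K p N) := (kill K p N m).toAlgebra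

theorem kill_eq {m : ℕ} (c : Base K p N m) :
    algebraMap (Base K p N m) (Z0 K p N) c = kill K p N m c := rfl

omit hp [CharP K p] in
theorem epsZ_algebraMap {m : ℕ} (c : Base K p N m) :
    epsZ (algebraMap (Base K p N m) (Z0 K p N) c) = constantCoeff c := by
  refine RingHom.congr_fun (f := epsZ.comp (kill K p N m)) (ringHom_ext (fun a => ?_) fun s => ?_) c
  · show constantCoeff (eval₂Hom (C : K →+* MvPolynomial (PVar p N) K) _ (C a)) = _
    simp
  · show constantCoeff (eval₂Hom (C : K →+* MvPolynomial (PVar p N) K) _ (X s)) = _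
    rcases s with s | j <;> simp

omit hp [CharP K p] in
theorem kill_surjective {m : ℕ} : Function.Surjective (kill K p N m) := by
  suffices H : ∀ r : MvPolynomial (PVar p N) K, ∃ c : Base K p N m,
      eval₂Hom (C : K →+* MvPolynomial (PVar p N) K) (Sum.elim X fun _ => 0) c = r from H
  exact fun r => ⟨rename Sum.inl r, by rw [eval₂Hom_rename]; exact eval₂_eta r⟩

omit hp [CharP K p] in
theorem kill_decomp {m : ℕ} (c : Base K p N m) : ∃ q : Fin m → Base K p N m,
    c = rename Sum.inl (kill K p N m c : MvPolynomial (PVar p N) K) + ∑ k, q k * X (Sum.inr k) := by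
  classical
  suffices H : ∀ c : Base K p N m, ∃ q : Fin m → Base K p N m,
      c = rename Sum.inl (eval₂Hom (C : K →+* MvPolynomial (PVar p N) K)
        (Sum.elim X fun _ => (0 : MvPolynomial (PVar p N) K)) c) + ∑ k, q k * X (Sum.inr k) from H c
  intro c
  induction c using MvPolynomial.induction_on with
  | C a => exact ⟨0, by simp⟩
  | add x y hx hy =>
    obtain ⟨q, hq⟩ := hx
    obtain ⟨q', hq'⟩ := hy
    refine ⟨q + q', ?_⟩
    simp only [Pi.add_apply, add_mul, Finset.sum_add_distrib, map_add]
    conv_lhs => rw [hq, hq']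
    abel
  | mul_X x s hx =>
    obtain ⟨q, hq⟩ := hx
    rcases s with s | j
    · refine ⟨fun k => q k * X (Sum.inl s), ?_⟩
      simp only [map_mul, eval₂Hom_X', Sum.elim_inl, rename_X]
      conv_lhs => rw [hq]
      rw [add_mul, Finset.sum_mul]
      congr 1
      exact Finset.sum_congr rfl fun k _ => mul_right_comm _ _ _
    · refine ⟨Pi.single j x, ?_⟩
      simp [Pi.single_apply, ite_mul]

/-- The coefficient ring with one parameter left. -/
def A1 (K : Type u) [Field K] (p N : ℕ) : Type u := Polynomial (Z0 K p N)

instance : CommRing (A1 K p N) := inferInstanceAs (CommRing (Polynomial (Z0 K p N)))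

/-- The polynomial underlying an element. -/
def A1.of : Polynomial (Z0 K p N) →+* A1 K p N := RingHom.id _

/-- The map putting the last parameter equal to the variable. -/
def keep (K : Type u) [Field K] (p N m : ℕ) : Base K p N (m + 1) →+* A1 K p N :=
  A1.of.comp (eval₂Hom (Polynomial.C.comp (Z0.of.comp C))
    (Sum.elim (fun s => Polynomial.C (Z0.of (X s)))
      fun j => if j = Fin.last m then Polynomial.X else 0))

instance algA1 {m : ℕ} : Algebra (Base K p N (m + 1)) (A1 K p N) := (keep K p N m).toAlgebra

/-- Evaluation at the origin. -/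
def evz : A1 K p N →+* Z0 K p N := Polynomial.evalRingHom (0 : Z0 K p N)

/-- The constants. -/
def cz : Z0 K p N →+* A1 K p N := A1.of.comp Polynomial.C

/-- The parameter. -/
def zA : A1 K p N := A1.of Polynomial.X

omit hp [CharP K p] in
theorem evz_keep {m : ℕ} (c : Base K p N (m + 1)) :
    evz (keep K p N m c) = kill K p N (m + 1) c := by
  refine RingHom.congr_fun (f := evz.comp (keep K p N m)) (ringHom_ext (fun a => ?_) fun s => ?_) c
  · show Polynomial.eval 0 (eval₂Hom (Polynomial.C.comp (Z0.of.comp C)) _ (C a)) =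
      Z0.of (eval₂Hom C _ (C a))
    simp
  · show Polynomial.eval 0 (eval₂Hom (Polynomial.C.comp (Z0.of.comp C))
      (Sum.elim (fun t => Polynomial.C (Z0.of (X t)))
        fun j => if j = Fin.last m then (Polynomial.X : Polynomial (Z0 K p N)) else 0) (X s)) =
      Z0.of (eval₂Hom C (Sum.elim X fun _ => 0) (X s))
    rcases s with s | j
    · simp
    · simp only [eval₂Hom_X', Sum.elim_inr]
      split_ifs <;> simp

omit hp [CharP K p] in
theorem eps_evz {m : ℕ} (c : Base K p N (m + 1)) :
    (epsZ.comp evz) (algebraMap (Base K p N (m + 1)) (A1 K p N) c) = constantCoeff c := by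
  show epsZ (evz (keep K p N m c)) = _
  rw [evz_keep]
  exact epsZ_algebraMap c

/-! ### Change of directions -/

variable (f : Fin N → MvPolynomial (Fin N) K) {a b : ℕ}

theorem zetav_comb (C : Fin b → K) (w : Fin b → Fin N → K) :
    zetav (p := p) f (∑ j, C j • w j) = ∑ j, C j ^ p • zetav f (w j) := by
  simp only [zetav, Finset.smul_sum, smul_smul, ← mul_pow]
  rw [Finset.sum_comm]
  refine Finset.sum_congr rfl fun k _ => ?_
  rw [← Finset.sum_smul]
  congr 1
  simp [Finset.sum_apply, sum_pow_char]

omit [CharP K p] in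
theorem lop_comb (C : Fin b → K) (w : Fin b → Fin N → K) :
    lop (p := p) f (∑ j, C j • w j) = ∑ j, C j • lop f (w j) := by
  refine LinearMap.ext fun x => ?_
  simp only [lop, dop, LinearMap.add_apply, LinearMap.sum_apply, LinearMap.smul_apply, mlt_apply]
  show delv (∑ j, C j • w j) x + _ = ∑ j, C j • (delv (w j) x + _)
  simp only [delv_apply, phiv, zv, Finset.sum_apply, Pi.smul_apply, smul_eq_mul, Finset.sum_smul,
    smul_add, Finset.smul_sum, smul_smul, Finset.sum_add_distrib, add_mul, Finset.sum_mul,
    smul_mul_assoc]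
  rw [Finset.sum_comm (f := fun k j => (C j * w j k) • del k x),
    Finset.sum_comm (f := fun k j => (C j * w j k) • (phi f k * x)),
    Finset.sum_comm (f := fun k j => (C j * w j k) • (zX K p k * x))]

/-- The substitution attached to a matrix of combinations. -/
def subst (C : Fin a → Fin b → K) : Base K p N a →ₐ[K] Base K p N b :=
  aeval (Sum.elim (fun s => X (Sum.inl s)) fun k => ∑ j, C k j ^ p • X (Sum.inr j))

variable {v : Fin a → Fin N → K} {w : Fin b → Fin N → K} {C : Fin a → Fin b → K}

theorem base_comb (h : ∀ k, v k = ∑ j, C k j • w j) (c : Base K p N a) :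
    base f v c = base f w (subst C c) := by
  rw [← AlgHom.comp_apply]
  refine AlgHom.congr_fun (algHom_ext fun s => ?_) c
  rcases s with s | k
  · simp [base, subst]
  · simp [base, subst, h, zetav_comb]

theorem alg_mono (h : ∀ k, v k = ∑ j, C k j • w j) : alg (p := p) f v ≤ alg f w := by
  refine Algebra.adjoin_le ?_
  rintro _ ((⟨s, rfl⟩ | ⟨c, rfl⟩) | ⟨k, rfl⟩)
  · exact Algebra.subset_adjoin (Or.inl (Or.inl ⟨s, rfl⟩))
  · show mlt (base f v c) ∈ alg f w
    rw [base_comb f h]
    exact base_mem_alg f w _
  · show lop f (v k) ∈ alg f w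
    rw [h, lop_comb]
    exact sum_mem fun j _ => Subalgebra.smul_mem _ (lop_mem_alg f w j) _

/-- The inclusion of a subalgebra in a larger one. -/
def subIn {E : Type*} [Ring E] [Algebra K E] {S T : Subalgebra K E} (h : S ≤ T) : S →+* T where
  toFun u := ⟨u, h u.2⟩
  map_one' := rfl
  map_zero' := rfl
  map_add' _ _ := rfl
  map_mul' _ _ := rfl

omit hp [CharP K p] in
theorem coe_subIn {E : Type*} [Ring E] [Algebra K E] {S T : Subalgebra K E} (h : S ≤ T) (u : S) :
    (subIn h u : E) = u := rfl

/-- The inclusion of the twisted algebras. -/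
def algIn (h : ∀ k, v k = ∑ j, C k j • w j) : alg (p := p) f v →+* alg (p := p) f w :=
  subIn (alg_mono (p := p) f h)

theorem coe_algIn (h : ∀ k, v k = ∑ j, C k j • w j) (u : alg (p := p) f v) :
    (algIn f h u : Op K p N) = u := by
  unfold algIn
  exact coe_subIn _ u

theorem algIn_algebraMap (h : ∀ k, v k = ∑ j, C k j • w j) (c : Base K p N a) :
    algIn f h (algebraMap (Base K p N a) (alg (p := p) f v) c) =
      algebraMap (Base K p N b) (alg f w) (subst C c) :=
  Subtype.ext (by
    rw [coe_algIn]
    show mlt (base f v c) = mlt (base f w (subst C c))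
    rw [base_comb f h])

omit hp [CharP K p] in
theorem kill_subst (c : Base K p N a) : kill K p N b (subst C c) = kill K p N a c := by
  refine RingHom.congr_fun (f := (kill K p N b).comp (subst C).toRingHom)
    (ringHom_ext (fun x => ?_) fun s => ?_) c
  · simp [subst, kill, algebraMap_eq]
  · rcases s with s | k <;> simp [subst, kill, smul_eq_C_mul]

theorem li_of_comb {n : ℕ} {v w : Fin n → Fin N → K} {C : Fin n → Fin n → K}
    (h : ∀ k, v k = ∑ j, C k j • w j) (hv : LinearIndependent K v) : LinearIndependent K w := by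
  rw [linearIndependent_iff_card_le_finrank_span]
  have hle : Submodule.span K (Set.range v) ≤ Submodule.span K (Set.range w) := by
    rw [Submodule.span_le]
    rintro _ ⟨k, rfl⟩
    rw [h]
    exact sum_mem fun j _ => Submodule.smul_mem _ _ (Submodule.subset_span ⟨j, rfl⟩)
  calc Fintype.card (Fin n) = Module.finrank K (Submodule.span K (Set.range v)) :=
        (finrank_span_eq_card hv).symm
    _ ≤ _ := Submodule.finrank_mono hle

end Vale.Agent.P200d
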