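import Vale.Agent.P200d.Skew

/-!
A division algebra with independent rows of commuting twisted roots of a system of forms.
-/

noncomputable section

namespace Vale.Agent.P200d

open MvPolynomial

universe u

variable {K : Type u} [Field K] {p N : ℕ} [hp : Fact p.Prime] [CharP K p]

theorem domain_Dv [IsAlgClosed K] {f : Fin N → MvPolynomial (Fin N) K}
    (hf : ∀ t, (f t).IsHomogeneous p) (hnz : ∀ x : Fin N → K, (∀ t, eval x (f t) = 0) → x = 0)
    {m : ℕ} (hm : 0 < m) {v : Fin m → Fin N → K} (hv : LinearIndependent K v) :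
    IsDomain (Dv (p := p) f v) := by
  obtain ⟨k, rfl⟩ : ∃ k, m = k + 1 := ⟨m - 1, by omega⟩
  have := noZeroDivisors_Dv hf hv fun x y hx hy => eq_zero_of_mul_eq_zero hf hnz hv hx hy
  have := nontrivial_Dv hf hv
  exact NoZeroDivisors.to_isDomain _

theorem del_phi_zero (f : Fin N → MvPolynomial (Fin N) K) (a b : Fin N)
    (h : ∀ t, ∀ α ∈ (f t).support, α b ≠ 0 → α a = 0) : del a (phi (p := p) f b) = 0 := by
  rw [phi, map_neg, map_sum, neg_eq_zero]
  refine Finset.sum_eq_zero fun t _ => ?_
  rw [map_sum]
  refine Finset.sum_eq_zero fun α hα => ?_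
  split_ifs with hc
  · obtain ⟨hval, hlev⟩ := lev_lowExp (p := p) hc.2.1 hc.2.2
    have hab : a ≠ b := fun e => hc.2.1 (e ▸ h t α hα hc.2.1)
    rw [Derivation.map_smul, del_vX a t (by omega)]
    have h0 : (lowExp (p := p) b α a : ℕ) = 0 := by rw [hval, if_neg hab, h t α hα hc.2.1]
    simp [h0]
  · exact map_zero _

theorem phiv_single (f : Fin N → MvPolynomial (Fin N) K) (a : Fin N) :
    phiv (p := p) f (Pi.single a (1 : K)) = phi f a := by
  classical
  rw [phiv, Finset.sum_eq_single a]
  · rw [Pi.single_eq_same, one_smul]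
  · intro k _ hk; rw [Pi.single_eq_of_ne hk, zero_smul]
  · simp

omit hp [CharP K p] in
/-- Commuting independent rows from derivations dual to their entries. -/
theorem rows_independent {D : Type*} [DivisionRing D] {c : ℕ} (e : Fin c → Fin c → D)
    (δ : Fin c → Fin c → D →+ D) (hmul : ∀ j l x y, δ j l (x * y) = δ j l x * y + x * δ j l y)
    (hδ : ∀ j l i k, δ j l (e i k) = if i = j ∧ k = l then 1 else 0) :
    LinearIndependent D e := by
  classical
  rw [Fintype.linearIndependent_iff]
  intro g hg j
  by_contra hj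
  let D' : Subfield D :=
    { carrier := {x | ∀ l, δ j l x = 0}
      one_mem' := fun l => by
        have h := hmul j l 1 1
        rw [mul_one, mul_one, one_mul] at h
        exact add_eq_left.1 h.symm
      mul_mem' := fun {a b} ha hb l => by rw [hmul, ha l, hb l, zero_mul, mul_zero, add_zero]
      zero_mem' := fun l => map_zero _
      add_mem' := fun {a b} ha hb l => by rw [map_add, ha l, hb l, add_zero]
      neg_mem' := fun {a} ha l => by rw [map_neg, ha l, neg_zero]
      inv_mem' := fun a ha l => by
        rcases eq_or_ne a 0 with rfl | h0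
        · rw [inv_zero]; exact map_zero _
        · have h1 : δ j l 1 = 0 := by
            have h := hmul j l 1 1
            rw [mul_one, mul_one, one_mul] at h
            exact add_eq_left.1 h.symm
          have h := hmul j l a a⁻¹
          rw [mul_inv_cancel₀ h0, h1, ha l, zero_mul, zero_add] at h
          exact (mul_eq_zero.1 h.symm).resolve_left h0 }
  let e' : {i : Fin c // i ≠ j} → Fin c → D' := fun i k => ⟨e i k, fun l => by
    rw [hδ, if_neg fun h => i.2 h.1]⟩
  let φ : (Fin c → D') →ₗ[D'ᵐᵒᵖ] ({i : Fin c // i ≠ j} → D') :=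
    { toFun := fun u i => ∑ k, e' i k * u k
      map_add' := fun u w => by funext i; simp [mul_add, Finset.sum_add_distrib]
      map_smul' := fun a u => by
        funext i
        simp [MulOpposite.smul_eq_mul_unop, Finset.sum_mul, mul_assoc] }
  have hker : LinearMap.ker φ ≠ ⊥ := by
    have : Module.Finite D'ᵐᵒᵖ D' :=
      Module.Finite.equiv (MulOpposite.opLinearEquiv D'ᵐᵒᵖ (M := D')).symm
    refine LinearMap.ker_ne_bot_of_finrank_lt ?_
    have hfr : Module.finrank D'ᵐᵒᵖ D' = 1 :=
      (MulOpposite.opLinearEquiv D'ᵐᵒᵖ (M := D')).finrank_eq.trans (Module.finrank_self _)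
    rw [Module.finrank_pi_fintype, Module.finrank_pi_fintype, hfr]
    simp only [Finset.sum_const, Finset.card_univ, smul_eq_mul, mul_one, Fintype.card_fin]
    have h := Fintype.card_subtype_compl (fun i : Fin c => i = j)
    simp only [Fintype.card_subtype_eq, Fintype.card_fin] at h
    change Fintype.card {i : Fin c // i ≠ j} = c - 1 at h
    have := j.pos
    omega
  obtain ⟨u, hu, hu0⟩ := (Submodule.ne_bot_iff _).1 hker
  have hzero : ∀ i : {i : Fin c // i ≠ j}, ∑ k, e i k * (u k : D) = 0 := by
    intro i
    have h := congrArg Subtype.val (congrFun hu i)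
    simpa [φ, e'] using h
  have hj0 : g j * ∑ k, e j k * (u k : D) = 0 := by
    have h : ∑ i, g i * ∑ k, e i k * (u k : D) = 0 := by
      simp only [Finset.mul_sum, ← mul_assoc]
      rw [Finset.sum_comm]
      refine Finset.sum_eq_zero fun k _ => ?_
      rw [← Finset.sum_mul]
      have := congrFun hg k
      simp only [Finset.sum_apply, Pi.smul_apply, smul_eq_mul, Pi.zero_apply] at this
      rw [this, zero_mul]
    rwa [Finset.sum_eq_single j (fun i _ hi => by rw [hzero ⟨i, hi⟩, mul_zero]) (by simp)] at h
  have hj1 := (mul_eq_zero.1 hj0).resolve_left hj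
  refine hu0 (funext fun l => Subtype.ext ?_)
  have h := congrArg (δ j l) hj1
  rw [map_sum, map_zero, Finset.sum_eq_single l] at h
  · rw [hmul, hδ, if_pos ⟨rfl, rfl⟩, one_mul, (u l).2 l, mul_zero, add_zero] at h
    exact h
  · intro k _ hk
    rw [hmul, hδ, if_neg fun h => hk h.2, zero_mul, (u k).2 l, mul_zero, add_zero]
  · simp

/-- The system of twisted roots. -/
theorem exists_system [IsAlgClosed K] {c : ℕ} (Fb : Fin c → MvPolynomial (Fin c) K)
    (hF : ∀ t, (Fb t).IsHomogeneous p) (hnz : ∀ x : Fin c → K, (∀ t, eval x (Fb t) = 0) → x = 0) :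
    ∃ (D : Type u) (_ : DivisionRing D) (_ : Algebra K D) (e g : Fin c → Fin c → D),
      (∀ i j k l, i ≠ j → e i k * e j l = e j l * e i k) ∧
      (∀ (i : Fin c) (x : Fin c → K), (∑ k, x k • e i k) ^ p = ∑ t, eval x (Fb t) • g i t) ∧
      LinearIndependent D e := by
  classical
  rcases Nat.eq_zero_or_pos c with rfl | hc
  · exact ⟨K, inferInstance, inferInstance, fun i => i.elim0, fun i => i.elim0, fun i => i.elim0,
      fun i => i.elim0, linearIndependent_empty_type⟩
  let q : Fin c × Fin c ≃ Fin (c * c) := finProdFinEquiv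
  let f : Fin (c * c) → MvPolynomial (Fin (c * c)) K := fun t =>
    rename (fun k => q ((q.symm t).1, k)) (Fb (q.symm t).2)
  have hf : ∀ t, (f t).IsHomogeneous p := fun t => (hF _).rename_isHomogeneous
  have hev : ∀ (x : Fin (c * c) → K) i s, eval x (f (q (i, s))) = eval (fun k => x (q (i, k))) (Fb s) := by
    intro x i s
    simp only [f, Equiv.symm_apply_apply, eval_rename]
    rfl
  have hnzf : ∀ x : Fin (c * c) → K, (∀ t, eval x (f t) = 0) → x = 0 := by
    intro x hx
    funext a
    obtain ⟨⟨i, k⟩, rfl⟩ := q.surjective a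
    exact congrFun (hnz (fun k => x (q (i, k))) fun s => by rw [← hev]; exact hx _) k
  let v : Fin (c * c) → Fin (c * c) → K := fun a => Pi.single a 1
  have hv : LinearIndependent K v := by
    convert (Pi.basisFun K (Fin (c * c))).linearIndependent using 1
    funext a; simp [v]
  have : IsDomain (Dv (p := p) f v) := domain_Dv hf hnzf (Nat.mul_pos hc hc) hv
  have : Module.Finite (Lf K p (c * c)) (Dv (p := p) f v) :=
    Module.Finite.of_basis (bcBasis f (Lf K p (c * c)) hf v hv)
  let instD : DivisionRing (Dv (p := p) f v) := divisionRingOfFiniteDimensional (Lf K p (c * c)) _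
  refine ⟨Dv (p := p) f v, instD, algKD f v, fun i k => el f v (q (i, k)),
    fun i t => gT f v (q (i, t)), fun i j k l hij => ?_, fun i x => ?_, ?_⟩
  · refine el_comm _ _ ?_
    simp only [v, delv_single, phiv_single]
    have hz : ∀ {i j : Fin c}, i ≠ j → ∀ k l,
        del (q (i, k)) (phi (p := p) f (q (j, l))) = 0 := by
      intro i j hij k l
      refine del_phi_zero f _ _ fun t α hα hb => ?_
      obtain ⟨⟨i', s⟩, rfl⟩ := q.surjective t
      simp only [f, Equiv.symm_apply_apply] at hα
      rw [support_rename_of_injective (fun a b h => (Prod.mk.inj (q.injective h)).2)] at hα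
      obtain ⟨β, -, rfl⟩ := Finset.mem_image.1 hα
      refine Finsupp.mapDomain_of_notMem_range _ _ fun h => ?_
      obtain ⟨k', hk'⟩ := h
      apply hb
      refine Finsupp.mapDomain_of_notMem_range _ _ fun h => hij ?_
      obtain ⟨l', hl'⟩ := h
      exact ((Prod.mk.inj (q.injective hk')).1).symm.trans (Prod.mk.inj (q.injective hl')).1
    rw [hz hij k l, hz (Ne.symm hij) l k, sub_zero]
  · let X' : Fin (c * c) → K := fun a => if (q.symm a).1 = i then x (q.symm a).2 else 0
    have hsum : ∀ {M : Type u} [AddCommGroup M] [Module K M] (F : Fin (c * c) → M),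
        ∑ a, X' a • F a = ∑ k, x k • F (q (i, k)) := by
      intro M _ _ F
      rw [← q.sum_comp, Fintype.sum_prod_type]
      simp [X', ite_smul]
    have hw : ∑ a, X' a • v a = X' := by
      funext b; simp [v, Finset.sum_apply, Pi.single_apply]
    have h := el_pow (v := v) hf X'
    rw [hsum (el f v), hw] at h
    rw [h, ← q.sum_comp, Fintype.sum_prod_type, Finset.sum_eq_single i]
    · refine Finset.sum_congr rfl fun t _ => ?_
      rw [hev, show (fun k => X' (q (i, k))) = x from funext fun k => by simp [X']]
    · intro i' _ hi'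
      refine Finset.sum_eq_zero fun t _ => ?_
      rw [hev, show (fun k => X' (q (i', k))) = 0 from funext fun k => by simp [X', hi'],
        eval_zero, constantCoeff_eq, (hF t).coeff_eq_zero (by simpa using hp.1.ne_zero.symm), zero_smul]
    · simp
  · refine @rows_independent (Dv (p := p) f v) instD c _
      (fun j l => (dD f v (q (j, l))).toAddMonoidHom) (fun j l x y => dD_mul _ x y) fun j l i k => ?_
    show dD f v (q (j, l)) (el f v (q (i, k))) = _
    rw [dD_el]
    simp only [v, Pi.single_apply, q.apply_eq_iff_eq, Prod.mk.injEq, @eq_comm _ j, @eq_comm _ l]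
    split_ifs
    · exact map_one _
    · exact map_zero _

end Vale.Agent.P200d
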