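import Vale.Agent.P200d.Lift
import Vale.Agent.P200d.Pencil

/-!
Regularity in one direction fewer makes the operators of a hyperplane bijective on homology.
-/

noncomputable section

namespace Vale.Agent.P200d

open MvPolynomial TensorProduct

universe u

variable {K : Type u} [Field K] {p N : ℕ} [hp : Fact p.Prime] [CharP K p]
  {f : Fin N → MvPolynomial (Fin N) K} {m : ℕ} {v w : Fin (m + 1) → Fin N → K}
  {C D : Fin (m + 1) → Fin (m + 1) → K}

omit hp [CharP K p] in
theorem evz_algebraMap (c : Base K p N (m + 1)) :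
    evz (algebraMap (Base K p N (m + 1)) (A1 K p N) c) =
      algebraMap (Base K p N (m + 1)) (Z0 K p N) (subst D c) := by
  show evz (keep K p N m c) = kill K p N (m + 1) (subst D c)
  rw [evz_keep, kill_subst]

variable (f) in
/-- The specialisation. -/
def spU (hD : ∀ k, w k = ∑ j, D k j • v j) : Uw (p := p) f w →+* Bv (p := p) f v :=
  bcMap (m := m + 1) (b := m + 1) (v := w) (w := v) (C := D) (p := p) (A := A1 K p N)
    (A' := Z0 K p N) f hD evz (evz_algebraMap (D := D))

variable (f) in
/-- The map of the twisted algebra into the deformed one. -/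
def psiU (hC : ∀ k, v k = ∑ j, C k j • w j) : alg (p := p) f v →+* Uw (p := p) f w :=
  (inR f (A1 K p N) w).comp (algIn f hC)

variable (hC : ∀ k, v k = ∑ j, C k j • w j) (hD : ∀ k, w k = ∑ j, D k j • v j)

theorem spU_psiU (x : alg (p := p) f v) :
    spU f hD (psiU f hC x) = inR f (Z0 K p N) v x := by
  have e : algIn f hD (algIn f hC x) = x := Subtype.ext (by rw [coe_algIn, coe_algIn])
  rw [psiU, RingHom.comp_apply, spU, bcMap_inR, e]

theorem spU_inL (a : A1 K p N) : spU f hD (inL f (A1 K p N) w a) = inL f (Z0 K p N) v (evz a) := by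
  rw [inL_apply, spU, bcMap_tmul, map_one, map_one, mul_one]

omit hp [CharP K p] in
theorem evz_zA : evz (zA : A1 K p N) = 0 := by
  show Polynomial.eval 0 (Polynomial.X : Polynomial (Z0 K p N)) = 0
  simp

theorem spU_zU : spU f hD (zU (p := p) f w) = 0 := by
  rw [zU, spU_inL, evz_zA, map_zero]

theorem epsU_inL (a : A1 K p N) : epsU f w (inL f (A1 K p N) w a) = epsZ (evz a) := by
  rw [inL_apply, epsU, augBC_tmul, map_one, mul_one]
  rfl

theorem epsU_psiU (x : alg (p := p) f v) : epsU f w (psiU f hC x) = epsAlg f v x := by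
  rw [psiU, RingHom.comp_apply, epsU_inR, coe_algIn]
  rfl

include hC hD in
theorem spU_surjective : Function.Surjective (spU (p := p) f hD) := by
  intro x
  obtain ⟨y, rfl⟩ := inR_surjective x
  exact ⟨psiU f hC y, spU_psiU hC hD y⟩

/-- The constants of the deformed ring. -/
def cst (K : Type u) [Field K] (p N : ℕ) : K →+* A1 K p N := cz.comp (Z0.of.comp MvPolynomial.C)

omit hp [CharP K p] in
theorem epsZ_evz_cst (x : K) : epsZ (evz (cst K p N x)) = x := by
  show MvPolynomial.constantCoeff (Polynomial.eval (0 : MvPolynomial (PVar p N) K)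
    (Polynomial.C (MvPolynomial.C x))) = x
  rw [Polynomial.eval_C, constantCoeff_C]

theorem psiU_zeta (k : Fin (m + 1)) :
    psiU f hC (algebraMap (Base K p N (m + 1)) (alg (p := p) f v) (X (Sum.inr k))) =
      zU f w * inL f (A1 K p N) w (cst K p N (C k (Fin.last m) ^ p)) := by
  classical
  rw [psiU, RingHom.comp_apply, algIn_algebraMap, inR_algebraMap, zU, ← map_mul]
  congr 1
  show A1.of (eval₂Hom (Polynomial.C.comp (Z0.of.comp MvPolynomial.C))
      (Sum.elim (fun t => Polynomial.C (Z0.of (X t)))
        fun j => if j = Fin.last m then (Polynomial.X : Polynomial (Z0 K p N)) else 0)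
      (subst C (X (Sum.inr k)))) = A1.of Polynomial.X * A1.of (Polynomial.C (Z0.of (MvPolynomial.C _)))
  rw [← map_mul]
  congr 1
  simp [subst, smul_eq_C_mul, mul_comm]

variable (hf : ∀ t, (f t).IsHomogeneous p) (hw : LinearIndependent K w)
  (hv : LinearIndependent K v)

include hC hf hw hv in
theorem spU_ker (u : Uw (p := p) f w) (hu : spU f hD u = 0) : ∃ u', u = zU f w * u' := by
  classical
  set bU := bcBasis f (A1 K p N) hf w hw
  set bv := bcBasis f (Z0 K p N) hf v hv
  let φ : (Idx p N (m + 1) → Z0 K p N) →ₗ[Z0 K p N] (Idx p N (m + 1) → Z0 K p N) :=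
    bv.equivFun.toLinearMap ∘ₗ Fintype.linearCombination (Z0 K p N) fun x => spU f hD (bU x)
  have hsp : ∀ u, spU f hD u = ∑ x, evz (bU.repr u x) • spU f hD (bU x) := by
    intro u
    conv_lhs => rw [← bU.sum_repr u]
    rw [map_sum]
    exact Finset.sum_congr rfl fun x _ => bcMap_smul f hD evz (fun c => evz_algebraMap (D := D) c) _ _
  have hsurj : Function.Surjective φ := by
    intro y
    obtain ⟨u, hu⟩ := spU_surjective hC hD (bv.equivFun.symm y)
    refine ⟨fun x => evz (bU.repr u x), ?_⟩
    show bv.equivFun (Fintype.linearCombination (Z0 K p N) _ _) = y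
    rw [Fintype.linearCombination_apply, ← hsp, hu, LinearEquiv.apply_symm_apply]
  have hinj : Function.Injective φ := OrzechProperty.injective_of_surjective_endomorphism φ hsurj
  have h0 : (fun x => evz (bU.repr u x)) = 0 := hinj (by
    show bv.equivFun (Fintype.linearCombination (Z0 K p N) _ _) = φ 0
    rw [Fintype.linearCombination_apply, ← hsp, hu, map_zero, map_zero])
  have hdiv : ∀ x, ∃ a : A1 K p N, bU.repr u x = zA * a := by
    intro x
    suffices H : ∀ q : Polynomial (Z0 K p N), q.eval 0 = 0 → ∃ a, q = Polynomial.X * a from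
      H _ (congrFun h0 x)
    intro q hq
    exact Polynomial.X_dvd_iff.2 (by rwa [Polynomial.coeff_zero_eq_eval_zero])
  choose a ha using hdiv
  refine ⟨∑ x, a x • bU x, ?_⟩
  conv_lhs => rw [← bU.sum_repr u]
  rw [Finset.mul_sum]
  refine Finset.sum_congr rfl fun x _ => ?_
  rw [ha, ← smul_smul, smul_eq_inL]
  rfl

include hf hw in
theorem zU_reg (u : Uw (p := p) f w) (hu : zU f w * u = 0) : u = 0 := by
  set bU := bcBasis f (A1 K p N) hf w hw
  have h1 : (zA : A1 K p N) • u = 0 := by rw [smul_eq_inL]; exact hu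
  refine bU.repr.map_eq_zero_iff.1 (Finsupp.ext fun x => ?_)
  have h2 := congrArg (fun y => bU.repr y x) h1
  simp only [map_smul, map_zero, Finsupp.smul_apply, Finsupp.zero_apply, smul_eq_mul] at h2
  suffices H : ∀ q : Polynomial (Z0 K p N), Polynomial.X * q = 0 → q = 0 from H _ h2
  intro q hq
  exact (mul_eq_zero.1 hq).resolve_left Polynomial.X_ne_zero

variable {M : Type u} [AddCommGroup M] [Module (Bv (p := p) f v) M] [Module.Finite (Bv (p := p) f v) M]

include hC hf hw in
theorem finite_restrict [Module (Bv (p := p) f (ini w)) M]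
    (hM : ∀ (b : Bv (p := p) f (ini w)) (x : M), b • x = spU f hD (jU f w b) • x) :
    Module.Finite (Bv (p := p) f (ini w)) M := by
  classical
  obtain ⟨r, g, hg⟩ := Module.Finite.exists_fin (R := Bv (p := p) f v) (M := M)
  set T := spU f hD (TU (p := p) f w)
  set S : Submodule (Bv (p := p) f (ini w)) M :=
    Submodule.span _ (Set.range fun q : Fin p × Fin r => T ^ (q.1 : ℕ) • g q.2)
  have hT : ∀ (n : ℕ) a, T ^ n • g a ∈ S := by
    intro n
    induction n using Nat.strong_induction_on with
    | _ n ih =>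
      intro a
      by_cases hn : n < p
      · exact Submodule.subset_span ⟨(⟨n, hn⟩, a), rfl⟩
      · have e : T ^ p = spU f hD (jU f w (piU f w)) := by
          rw [← map_pow, TU_pow hf, map_add, spU_zU, add_zero]
        rw [show n = p + (n - p) by omega, pow_add, e, ← smul_smul, ← hM]
        exact Submodule.smul_mem _ _ (ih (n - p) (by have := hp.1.pos; omega) a)
  refine ⟨⟨Finset.univ.image fun q : Fin p × Fin r => T ^ (q.1 : ℕ) • g q.2, ?_⟩⟩
  rw [Finset.coe_image, Finset.coe_univ, Set.image_univ, eq_top_iff]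
  rintro x -
  show x ∈ S
  have hx : x ∈ Submodule.span (Bv (p := p) f v) (Set.range g) := by rw [hg]; trivial
  obtain ⟨c, rfl⟩ := (Submodule.mem_span_range_iff_exists_fun _).1 hx
  refine sum_mem fun a _ => ?_
  obtain ⟨u, hu⟩ := spU_surjective hC hD (c a)
  obtain ⟨d, rfl⟩ := ore_surjective hf hw u
  rw [← hu, oreEval, Finsupp.sum, map_sum, Finset.sum_smul]
  refine sum_mem fun n _ => ?_
  rw [map_mul, map_pow, ← smul_smul, ← hM]
  exact Submodule.smul_mem _ _ (hT n a)

variable {P : MRes (Bv (p := p) f v) M} (F : Lifted P)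

/-- The deformation of a lifted resolution along a hyperplane. -/
def deform : Deform P (Uw (p := p) f w) where
  sp := spU f hD
  sp_surj := spU_surjective hC hD
  z := zU f w
  z_comm u := inL_commute f _ u
  z_reg := zU_reg hf hw
  z_ker := spU_ker hC hD hf hw hv
  L i := (F.L i).map (psiU f hC)
  L_sp i := by
    rw [← F.L_eq i, Matrix.map_map]
    exact Matrix.ext fun a b => spU_psiU hC hD _
  S i := Matrix.of fun a b => ∑ k, inL f (A1 K p N) w (cst K p N (C k (Fin.last m) ^ p)) *
    psiU f hC (F.σ i k a b)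
  L_L i := by
    rw [← Matrix.map_mul]
    refine Matrix.ext fun a b => ?_
    simp only [Matrix.map_apply, Matrix.of_apply, F.L_L, map_sum, map_mul, psiU_zeta,
      Finset.mul_sum, mul_assoc]

include hC hD hf hw hv in
theorem step_hbij {N' : ℕ}
    (IH : ∀ (M' : Type u) [AddCommGroup M'] [Module (Bv (p := p) f (ini w)) M']
      [Module.Finite (Bv (p := p) f (ini w)) M'], Reg (augSet (epsB f (ini w))) N' M') :
    HBij F.dbar (fun i => ∑ k, C k (Fin.last m) ^ p • F.sbar i k) (N' + 1) := by
  classical
  set G := deform hC hD hf hw hv F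
  set e := epsU (p := p) f w
  have hL : ∀ i, (G.L i).map e = F.dbar i := fun i =>
    Matrix.ext fun a b => epsU_psiU hC (F.L i a b)
  have hS : ∀ i, (G.S i).map e = ∑ k, C k (Fin.last m) ^ p • F.sbar i k := fun i => by
    refine Matrix.ext fun a b => ?_
    show e (∑ k, inL f (A1 K p N) w (cst K p N (C k (Fin.last m) ^ p)) * psiU f hC (F.σ i k a b)) = _
    simp only [map_sum, map_mul, Matrix.sum_apply, Matrix.smul_apply, Lifted.sbar, Matrix.map_apply,
      smul_eq_mul, e, epsU_psiU, epsU_inL, epsZ_evz_cst]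
  letI : Module (Uw (p := p) f w) M := Module.compHom M (spU f hD)
  letI : Module (Bv (p := p) f (ini w)) M := Module.compHom M ((spU f hD).comp (jU f w))
  have := finite_restrict hC hD hf hw (M := M) fun b x => rfl
  have hreg : Reg (augSet e) (N' + 1) M :=
    (oreData hf hw).reg_succ (fun b x => rfl) (IH M)
  have hs : Function.Surjective e := fun x =>
    ⟨inL f (A1 K p N) w (cst K p N x), by
      rw [epsU_inL, epsZ_evz_cst]⟩
  have hb := fun i hi => G.bijective e
    (show e (zU f w) = 0 by rw [zU, epsU_inL, evz_zA, map_zero]) hs (spU_zU hD) (fun u x => rfl)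
    hreg i hi
  refine ⟨fun i => ?_, fun i hi b hb' => ?_, fun i hi a ha hab => ?_⟩
  · rw [← hL, ← hL, ← hS, ← hS, ← Matrix.map_mul, ← Matrix.map_mul, G.L_S]
  · have h := (hb i hi).1 b (by rw [hL]; exact hb')
    simp only [hL, hS] at h
    exact h
  · have h := (hb i hi).2 a (by rw [hL]; exact ha) (by simp only [hL, hS]; exact hab)
    simp only [hL] at h
    exact h

end Vale.Agent.P200d
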