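import Vale.Agent.P200d.Induct

/-!
One direction: the specialised algebra is a tower of Ore extensions.
-/

noncomputable section

namespace Vale.Agent.P200d

open MvPolynomial

universe u

/-- Regularity transfers along a bijective homomorphism. -/
theorem reg_of_bijective {R R' : Type u} [Ring R] [Ring R'] {K : Type*} [Semiring K] (j : R' →+* R)
    (hj : Function.Bijective j) (ε : R →+* K) {M : Type u} [AddCommGroup M] [Module R M]
    [Module R' M] (hM : ∀ b (x : M), b • x = j b • x) {N : ℕ}
    (h : Reg (augSet (ε.comp j)) N M) : Reg (augSet ε) N M := by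
  intro P i hi a ha
  have hfree : letI := Module.compHom R j; Module.Free R' R := by
    letI := Module.compHom R j
    let E : R' →ₗ[R'] R := { toFun := j, map_add' := map_add j, map_smul' := fun b c => map_mul j b c }
    exact Module.Free.of_equiv (LinearEquiv.ofBijective E hj)
  let P' := P.restrict j hM hfree
  have hjG : ∀ k (x : P.G k), x ∈ jG (augSet (ε.comp j)) (P'.G k) ↔ x ∈ jG (augSet ε) (P.G k) := by
    intro k x
    have e : {y : P'.G k | ∃ b ∈ augSet (ε.comp j), ∃ g : P'.G k, b • g = y} =
        {y : P.G k | ∃ r ∈ augSet ε, ∃ g : P.G k, r • g = y} := by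
      ext y
      constructor
      · rintro ⟨b, hb, g, rfl⟩; exact ⟨j b, hb, g, rfl⟩
      · rintro ⟨r, hr, g, rfl⟩
        obtain ⟨b, rfl⟩ := hj.2 r
        exact ⟨b, hr, g, rfl⟩
    unfold jG
    rw [← e]
    rfl
  obtain ⟨b, hb⟩ : ∃ b : P.G (i + 1 + 1),
      a - P.d (i + 1) b ∈ jG (augSet (ε.comp j)) (P'.G (i + 1)) := h P' i hi a ((hjG i _).2 ha)
  exact ⟨b, (hjG (i + 1) _).1 hb⟩

variable {K : Type u} [Field K] {p N : ℕ} [hp : Fact p.Prime] [CharP K p]
  (f : Fin N → MvPolynomial (Fin N) K) (v : Fin 1 → Fin N → K)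

/-- The image of a polynomial in the coefficient variables. -/
def toRs : MvPolynomial (PVar p N) K →ₐ[K] Pol K p N := aeval (rX K)

theorem toRs_mem (P : MvPolynomial (PVar p N) K) : toRs P ∈ Rs K p N := by
  induction P using MvPolynomial.induction_on with
  | C a => rw [← algebraMap_eq, AlgHom.commutes]; exact Subalgebra.algebraMap_mem _ a
  | add a b ha hb => rw [map_add]; exact add_mem ha hb
  | mul_X a s ha => rw [map_mul, toRs, aeval_X]; exact mul_mem ha (rX_mem s)

/-- Polynomials in the coefficient variables inside the twisted algebra. -/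
def polyAlg : MvPolynomial (PVar p N) K →+* alg (p := p) f v :=
  ((mlt.comp toRs).codRestrict (alg (p := p) f v) fun P => mlt_mem_alg f v (toRs_mem P)).toRingHom

/-- Polynomials in the coefficient variables inside the specialised algebra. -/
def polyB : MvPolynomial (PVar p N) K →+* Bv (p := p) f v :=
  (inR f (Z0 K p N) v).comp (polyAlg f v)

/-- The generator. -/
def Tv : Bv (p := p) f v := inR f (Z0 K p N) v ⟨lop f (v 0), lop_mem_alg f v 0⟩

/-- The linear form as a polynomial. -/
def piP : MvPolynomial (PVar p N) K :=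
  ∑ t, eval (v 0) (f t) • X ⟨(t, fun _ => 0), by simpa [lev] using hp.1.one_lt⟩

variable {f} {v}

theorem coe_polyAlg (P : MvPolynomial (PVar p N) K) :
    (polyAlg f v P : Op K p N) = mlt (toRs P) := rfl

theorem toRs_piP : toRs (piP (p := p) f v) = Fv f (v 0) := by
  simp only [piP, Fv, map_sum, map_smul]
  refine Finset.sum_congr rfl fun t _ => ?_
  rw [toRs, aeval_X]
  rfl

theorem Tv_pow (hf : ∀ t, (f t).IsHomogeneous p) :
    Tv (p := p) f v ^ p = polyB f v (piP f v) := by
  have e : (⟨lop f (v 0), lop_mem_alg f v 0⟩ : alg (p := p) f v) ^ p =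
      polyAlg f v (piP f v) + algebraMap (Base K p N 1) (alg (p := p) f v) (X (Sum.inr 0)) :=
    Subtype.ext (by
      simp only [SubmonoidClass.coe_pow, AddMemClass.coe_add, coe_polyAlg, toRs_piP]
      show lop f (v 0) ^ p = mlt _ + mlt (base f v (X (Sum.inr 0)))
      rw [lop_pow f hf, base, aeval_X, Sum.elim_inr, map_add])
  rw [Tv, ← map_pow, e, map_add, polyB, RingHom.comp_apply, inR_algebraMap, kill_eq]
  have : kill K p N 1 (X (Sum.inr 0)) = 0 := by
    show Z0.of (eval₂Hom MvPolynomial.C (Sum.elim X fun _ => 0) (X (Sum.inr 0))) = 0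
    simp
  rw [this, map_zero, add_zero]

theorem polyB_expand (q : MvPolynomial (PVar p N) K) :
    polyB f v (expand p q) = inL f (Z0 K p N) v (Z0.of q) := by
  have e : polyAlg f v (expand p q) =
      algebraMap (Base K p N 1) (alg (p := p) f v) (rename Sum.inl q) := by
    refine Subtype.ext ?_
    rw [coe_polyAlg]
    show mlt (toRs (expand p q)) = mlt (base f v (rename Sum.inl q))
    congr 1
    rw [base, aeval_rename, toRs, aeval_expand]
    rfl
  rw [polyB, RingHom.comp_apply, e, inR_algebraMap, kill_eq]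
  congr 1
  show Z0.of (eval₂Hom MvPolynomial.C (Sum.elim X fun _ => 0) (rename Sum.inl q)) = _
  rw [eval₂Hom_rename]
  exact congrArg _ (eval₂_eta q)

/-- The monomial of a small multi-index. -/
def xP (b : PVar p N → Fin p) : MvPolynomial (PVar p N) K := ∏ s, X s ^ (b s : ℕ)

omit [CharP K p] in
theorem poly_decomp (P : MvPolynomial (PVar p N) K) :
    ∃ q : (PVar p N → Fin p) → MvPolynomial (PVar p N) K, P = ∑ b, expand p (q b) * xP b := by
  classical
  induction P using MvPolynomial.induction_on' with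
  | monomial d a =>
    refine ⟨Pi.single (fun s => ⟨d s % p, Nat.mod_lt _ hp.1.pos⟩)
      (monomial (Finsupp.equivFunOnFinite.symm fun s => d s / p) a), ?_⟩
    rw [Finset.sum_eq_single (fun s => (⟨d s % p, Nat.mod_lt _ hp.1.pos⟩ : Fin p))]
    · rw [Pi.single_eq_same, expand_monomial, xP, monomial_eq, monomial_eq, mul_assoc]
      congr 1
      rw [Finsupp.prod_fintype _ _ fun s => pow_zero _,
        Finsupp.prod_fintype _ _ fun s => pow_zero _]
      rw [← Finset.prod_mul_distrib]
      refine Finset.prod_congr rfl fun s _ => ?_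
      rw [← pow_add]
      congr 1
      simp only [Finsupp.smul_apply, Finsupp.coe_equivFunOnFinite_symm, smul_eq_mul]
      exact (Nat.div_add_mod (d s) p).symm
    · intro b _ hb
      simp [Pi.single_eq_of_ne hb]
    · simp
  | add a b ha hb =>
    obtain ⟨q, hq⟩ := ha
    obtain ⟨q', hq'⟩ := hb
    refine ⟨q + q', ?_⟩
    simp only [Pi.add_apply, map_add, add_mul, Finset.sum_add_distrib]
    rw [← hq, ← hq']

variable (hf : ∀ t, (f t).IsHomogeneous p) (hv : LinearIndependent K v)

include hf hv in
theorem polyB_pow_indep (P : Fin p → MvPolynomial (PVar p N) K)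
    (h : ∑ i, polyB f v (P i) * Tv f v ^ (i : ℕ) = 0) : ∀ i, P i = 0 := by
  classical
  choose q hq using fun i => poly_decomp (P i)
  set bB := bcBasis f (Z0 K p N) hf v hv
  have hterm : ∀ (i : Fin p) b, polyB f v (expand p (q i b) * xP b) * Tv f v ^ (i : ℕ) =
      Z0.of (q i b) • bB (b, fun _ => i) := by
    intro i b
    rw [map_mul, polyB_expand, smul_eq_inL, mul_assoc, bcBasis_apply, ← inR_apply]
    congr 1
    rw [polyB, RingHom.comp_apply, Tv, ← map_pow, ← map_mul]
    congr 1
    refine Subtype.ext ?_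
    simp only [MulMemClass.coe_mul, SubmonoidClass.coe_pow, coe_polyAlg]
    show mlt (toRs (xP b)) * lop f (v 0) ^ (i : ℕ) = gen f v (b, fun _ => i)
    simp [gen, lmon, xb, xP, toRs, map_prod]
  have hsum : ∑ i, ∑ b, Z0.of (q i b) • bB (b, fun _ => i) = 0 := by
    rw [← h]
    refine Finset.sum_congr rfl fun i _ => ?_
    conv_rhs => rw [hq i, map_sum, Finset.sum_mul]
    exact Finset.sum_congr rfl fun b _ => (hterm i b).symm
  intro i
  rw [hq i]
  refine Finset.sum_eq_zero fun b _ => ?_
  have e : Z0.of (q i b) = 0 := by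
    have := congrArg (fun u => bB.repr u (b, fun _ => i)) hsum
    simp only [map_sum, map_smul, Module.Basis.repr_self, Finsupp.finsetSum_apply,
      Finsupp.smul_apply, Finsupp.single_apply, map_zero, Finsupp.zero_apply, smul_eq_mul] at this
    rw [Finset.sum_eq_single i, Finset.sum_eq_single b] at this
    · simpa using this
    · intro b' _ hb'; simp [hb']
    · simp
    · intro i' _ hi'
      refine Finset.sum_eq_zero fun b' _ => ?_
      rw [if_neg, mul_zero]
      intro e
      exact hi' (congrFun (Prod.mk.inj e).2 0)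
    · simp
  rw [show q i b = 0 from e, map_zero, zero_mul]

/-- A variable set, closed under lowering away from the eliminated variable. -/
def Good (s0 : PVar p N) (S : Finset (PVar p N)) : Prop :=
  s0 ∉ S ∧ ∀ s ∈ S, ∀ s', lev s'.1.2 < lev s.1.2 → s' = s0 ∨ s' ∈ S

variable (f) (v) in
/-- The subring of a variable set. -/
def subR (S : Finset (PVar p N)) : Subring (Bv (p := p) f v) :=
  Subring.closure (insert (Tv f v) (polyB f v '' (supported K (S : Set (PVar p N)) : Set _)))

theorem Tv_mem (S : Finset (PVar p N)) : Tv f v ∈ subR f v S :=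
  Subring.subset_closure (Or.inl rfl)

theorem polyB_mem {S : Finset (PVar p N)} {P : MvPolynomial (PVar p N) K}
    (hP : P ∈ supported K (S : Set (PVar p N))) : polyB f v P ∈ subR f v S :=
  Subring.subset_closure (Or.inr ⟨P, hP, rfl⟩)

theorem subR_mono {S S' : Finset (PVar p N)} (h : S ⊆ S') : subR f v S ≤ subR (p := p) f v S' :=
  Subring.closure_mono (Set.insert_subset_insert (Set.image_mono
    (supported_mono (Finset.coe_subset.2 h))))

variable (v) in
/-- Polynomials allowed as derivatives. -/
def extP (f : Fin N → MvPolynomial (Fin N) K) (S : Finset (PVar p N)) :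
    Subalgebra K (MvPolynomial (PVar p N) K) :=
  Algebra.adjoin K (insert (piP (p := p) f v) (X '' (S : Set (PVar p N))))

theorem supported_le_extP (S : Finset (PVar p N)) :
    supported K (S : Set (PVar p N)) ≤ extP v f S :=
  Algebra.adjoin_mono (Set.subset_insert _ _)

variable {t0 : Fin N} (ht0 : eval (v 0) (f t0) ≠ 0) {s0 : PVar p N}
  (hs0 : s0.1 = (t0, fun _ => 0))

include ht0 hs0 in
theorem X_s0_mem {S : Finset (PVar p N)}
    (h : ∀ s : PVar p N, lev s.1.2 = 0 → s = s0 ∨ s ∈ S) : X s0 ∈ extP v f S := by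
  classical
  have hz : ∀ t : Fin N, lev (p := p) (fun _ : Fin N => (0 : Fin p)) + 1 < p := fun t => by
    simpa [lev] using hp.1.one_lt
  have hs : s0 = ⟨(t0, fun _ => 0), hz t0⟩ := Subtype.ext hs0
  have e : piP (p := p) f v = eval (v 0) (f t0) • X s0 +
      ∑ t ∈ Finset.univ.erase t0, eval (v 0) (f t) • X (⟨(t, fun _ => 0), hz t⟩ : PVar p N) := by
    rw [hs, piP, ← Finset.add_sum_erase _ _ (Finset.mem_univ t0)]
  have : X s0 = (eval (v 0) (f t0))⁻¹ • (piP (p := p) f v -
      ∑ t ∈ Finset.univ.erase t0, eval (v 0) (f t) • X (⟨(t, fun _ => 0), hz t⟩ : PVar p N)) := by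
    rw [e, add_sub_cancel_right, smul_smul, inv_mul_cancel₀ ht0, one_smul]
  rw [this]
  refine Subalgebra.smul_mem _ (sub_mem (Algebra.subset_adjoin (Set.mem_insert _ _))
    (sum_mem fun t ht => Subalgebra.smul_mem _ ?_ _)) _
  refine Algebra.subset_adjoin (Or.inr ⟨_, ?_, rfl⟩)
  refine (h ⟨(t, fun _ => 0), hz t⟩ (by simp [lev])).resolve_left fun e => ?_
  rw [hs] at e
  exact Finset.ne_of_mem_erase ht (congrArg (fun q : PVar p N => q.1.1) e)

include ht0 hs0 in
theorem bracket_var {S : Finset (PVar p N)} (s : PVar p N)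
    (hlow : ∀ s', lev s'.1.2 < lev s.1.2 → s' = s0 ∨ s' ∈ S) :
    ∃ Q ∈ extP v f S, Tv f v * polyB f v (X s) = polyB f v (X s) * Tv f v + polyB f v Q := by
  classical
  obtain ⟨Q, hQ, hQe⟩ : ∃ Q ∈ extP v f S, toRs Q = delv (v 0) (toRs (X s)) := by
    refine ⟨∑ k, v 0 k • (if h : (s.1.2 k : ℕ) = 0 then 0 else
      ((s.1.2 k : ℕ) : MvPolynomial (PVar p N) K) *
        X ⟨(s.1.1, low k s.1.2), by have := lev_low h; have := s.2; show lev (low k s.1.2) + 1 < p; omega⟩),
      sum_mem fun k _ => Subalgebra.smul_mem _ ?_ _, ?_⟩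
    · split_ifs with h
      · exact zero_mem _
      · refine mul_mem (natCast_mem _ _) ?_
        have hl := lev_low h
        have hlt : lev (low k s.1.2) < lev s.1.2 := by omega
        rcases hlow _ (show lev (⟨(s.1.1, low k s.1.2), by
            have := s.2; show lev (low k s.1.2) + 1 < p; omega⟩ : PVar p N).1.2 < _ from hlt) with h' | h'
        · rw [h']
          exact X_s0_mem ht0 hs0 fun s' hs' => hlow s' (by omega)
        · exact Algebra.subset_adjoin (Or.inr ⟨_, h', rfl⟩)
    · have hX : toRs (X s) = vX K s.1.1 s.1.2 := by rw [toRs, aeval_X]; rfl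
      rw [hX, delv_apply, map_sum]
      refine Finset.sum_congr rfl fun k _ => ?_
      rw [map_smul, del_vX k _ (by have := s.2; omega)]
      congr 1
      split_ifs with h
      · simp [h]
      · rw [map_mul, map_natCast, toRs, aeval_X]
        rfl
  refine ⟨Q, hQ, ?_⟩
  rw [Tv, polyB, RingHom.comp_apply, RingHom.comp_apply, ← map_mul, ← map_mul, ← map_add]
  congr 1
  refine Subtype.ext ?_
  simp only [MulMemClass.coe_mul, AddMemClass.coe_add, coe_polyAlg]
  rw [lop_mlt, hQe]

include ht0 hs0 in
theorem bracket_poly {S : Finset (PVar p N)} (hS : Good s0 S) {P : MvPolynomial (PVar p N) K}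
    (hP : P ∈ supported K (S : Set (PVar p N))) :
    ∃ Q ∈ extP v f S, Tv f v * polyB f v P = polyB f v P * Tv f v + polyB f v Q := by
  classical
  induction hP using Algebra.adjoin_induction with
  | mem x hx =>
    obtain ⟨s, hs, rfl⟩ := hx
    exact bracket_var ht0 hs0 s (hS.2 s hs)
  | algebraMap a =>
    refine ⟨0, zero_mem _, ?_⟩
    rw [map_zero, add_zero, Tv, polyB, RingHom.comp_apply, ← map_mul, ← map_mul]
    congr 1
    refine Subtype.ext ?_
    simp only [MulMemClass.coe_mul, coe_polyAlg, AlgHom.commutes]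
    exact (Algebra.commutes a _).symm
  | add x y _ _ hx hy =>
    obtain ⟨Q, hQ, hx⟩ := hx
    obtain ⟨Q', hQ', hy⟩ := hy
    refine ⟨Q + Q', add_mem hQ hQ', ?_⟩
    rw [map_add, mul_add, hx, hy, add_mul, map_add]
    abel
  | mul x y hx' hy' hx hy =>
    obtain ⟨Q, hQ, hx⟩ := hx
    obtain ⟨Q', hQ', hy⟩ := hy
    refine ⟨Q * y + x * Q', add_mem (mul_mem hQ (supported_le_extP S hy'))
      (mul_mem (supported_le_extP S hx') hQ'), ?_⟩
    rw [map_mul, ← mul_assoc, hx, add_mul, mul_assoc, hy, mul_add, map_add, map_mul, map_mul]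
    simp only [mul_assoc]
    abel

/-- The elements in normal form. -/
def normalForm (f : Fin N → MvPolynomial (Fin N) K) (v : Fin 1 → Fin N → K) (S : Finset (PVar p N))
    (u : Bv (p := p) f v) : Prop :=
  ∃ c : ℕ →₀ MvPolynomial (PVar p N) K, (∀ n, c n ∈ supported K (S : Set (PVar p N))) ∧
    c.sum (fun n P => polyB f v P * Tv f v ^ n) = u

theorem normalForm_add {S : Finset (PVar p N)} {a b : Bv (p := p) f v} (ha : normalForm f v S a)
    (hb : normalForm f v S b) : normalForm f v S (a + b) := by
  classical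
  obtain ⟨c, hc, rfl⟩ := ha
  obtain ⟨d, hd, rfl⟩ := hb
  exact ⟨c + d, fun n => by rw [Finsupp.add_apply]; exact add_mem (hc n) (hd n),
    Finsupp.sum_add_index' (by simp) (by simp [add_mul])⟩

theorem normalForm_term {S : Finset (PVar p N)} {P : MvPolynomial (PVar p N) K}
    (hP : P ∈ supported K (S : Set (PVar p N))) (n : ℕ) :
    normalForm f v S (polyB f v P * Tv f v ^ n) := by
  classical
  refine ⟨Finsupp.single n P, fun k => ?_, Finsupp.sum_single_index (by simp)⟩
  rw [Finsupp.single_apply]
  split_ifs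
  exacts [hP, zero_mem _]

include hf in
theorem extP_mul_normalForm {S : Finset (PVar p N)} {Q : MvPolynomial (PVar p N) K}
    (hQ : Q ∈ extP v f S) : ∀ u, normalForm f v S u → normalForm f v S (polyB f v Q * u) := by
  classical
  have key : ∀ {Q}, (∀ P ∈ supported K (S : Set (PVar p N)), ∀ n,
      normalForm f v S (polyB (p := p) f v Q * (polyB f v P * Tv f v ^ n))) →
      ∀ u, normalForm f v S u → normalForm f v S (polyB f v Q * u) := by
    rintro Q h u ⟨c, hc, rfl⟩
    rw [Finsupp.sum, Finset.mul_sum]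
    refine Finset.sum_induction _ _ (fun a b => normalForm_add) ?_ fun n _ => h _ (hc n) n
    exact ⟨0, fun n => by simp, by simp⟩
  induction hQ using Algebra.adjoin_induction with
  | mem x hx =>
    refine key fun P hP n => ?_
    rcases hx with rfl | ⟨s, hs, rfl⟩
    · rw [← mul_assoc, ← map_mul, mul_comm, map_mul, mul_assoc, ← Tv_pow hf, ← pow_add]
      exact normalForm_term hP _
    · rw [← mul_assoc, ← map_mul]
      exact normalForm_term (mul_mem (Algebra.subset_adjoin ⟨s, hs, rfl⟩) hP) n
  | algebraMap a =>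
    refine key fun P hP n => ?_
    rw [← mul_assoc, ← map_mul]
    exact normalForm_term (mul_mem (Subalgebra.algebraMap_mem _ a) hP) n
  | add x y _ _ hx hy =>
    intro u hu
    rw [map_add, add_mul]
    exact normalForm_add (hx u hu) (hy u hu)
  | mul x y _ _ hx hy =>
    intro u hu
    rw [map_mul, mul_assoc]
    exact hx _ (hy u hu)

include hf ht0 hs0 in
theorem subR_normalForm {S : Finset (PVar p N)} (hS : Good s0 S) {u : Bv (p := p) f v}
    (hu : u ∈ subR f v S) : normalForm f v S u := by
  classical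
  have h0 : normalForm (p := p) f v S 0 := ⟨0, fun n => by simp, by simp⟩
  have hneg : ∀ a, normalForm (p := p) f v S a → normalForm f v S (-a) := by
    rintro _ ⟨c, hc, rfl⟩
    refine ⟨-c, fun n => by rw [Finsupp.neg_apply]; exact neg_mem (hc n), ?_⟩
    rw [Finsupp.sum_neg_index (by simp), Finsupp.sum, Finsupp.sum, ← Finset.sum_neg_distrib]
    simp
  have h1 : normalForm (p := p) f v S 1 := by
    simpa using normalForm_term (f := f) (v := v) (S := S) (one_mem _) 0
  suffices H : ∀ w, normalForm f v S w → normalForm f v S (u * w) by simpa using H 1 h1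
  induction hu using Subring.closure_induction with
  | mem x hx =>
    rcases hx with rfl | ⟨Q, hQ, rfl⟩
    · rintro w ⟨c, hc, rfl⟩
      rw [Finsupp.sum, Finset.mul_sum]
      refine Finset.sum_induction _ _ (fun a b => normalForm_add) h0 fun n _ => ?_
      obtain ⟨Q, hQ, hQe⟩ := bracket_poly ht0 hs0 hS (hc n)
      rw [← mul_assoc, hQe, add_mul, mul_assoc, ← pow_succ']
      exact normalForm_add (normalForm_term (hc n) _)
        (extP_mul_normalForm hf hQ _ (by simpa using normalForm_term (f := f) (v := v) (one_mem _) n))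
    · exact extP_mul_normalForm hf (supported_le_extP S hQ)
  | zero => intro w _; rw [zero_mul]; exact h0
  | one => intro w hw; rwa [one_mul]
  | add a b _ _ ha hb => intro w hw; rw [add_mul]; exact normalForm_add (ha w hw) (hb w hw)
  | neg a _ ha => intro w hw; rw [neg_mul]; exact hneg _ (ha w hw)
  | mul a b _ _ ha hb => intro w hw; rw [mul_assoc]; exact ha _ (hb w hw)

include hf hv ht0 hs0 in
theorem normalForm_unique (c : ℕ →₀ MvPolynomial (PVar p N) K)
    (hc : ∀ n, c n ∈ supported K {s : PVar p N | s ≠ s0})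
    (h : c.sum (fun n P => polyB f v P * Tv f v ^ n) = 0) : c = 0 := by
  classical
  have hz : ∀ t : Fin N, lev (p := p) (fun _ : Fin N => (0 : Fin p)) + 1 < p := fun t => by
    simpa [lev] using hp.1.one_lt
  have hs : s0 = ⟨(t0, fun _ => 0), hz t0⟩ := Subtype.ext hs0
  let P : Fin p → MvPolynomial (PVar p N) K := fun i =>
    ∑ n ∈ c.support, if n % p = i then c n * piP f v ^ (n / p) else 0
  have hP : ∀ i, P i = 0 := by
    refine polyB_pow_indep hf hv P ?_
    rw [← h, Finsupp.sum]
    simp only [P, map_sum, Finset.sum_mul]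
    rw [Finset.sum_comm]
    refine Finset.sum_congr rfl fun n _ => ?_
    rw [Finset.sum_eq_single ⟨n % p, Nat.mod_lt _ hp.1.pos⟩]
    · rw [if_pos rfl, map_mul, map_pow, ← Tv_pow hf, ← pow_mul, mul_assoc, ← pow_add,
        Nat.div_add_mod]
    · intro i _ hi
      rw [if_neg (fun e => hi (Fin.ext e.symm)), map_zero, zero_mul]
    · simp
  let g : PVar p N → Polynomial (MvPolynomial (PVar p N) K) := fun s =>
    if s = s0 then Polynomial.C (C (eval (v 0) (f t0))⁻¹) * (Polynomial.X -
      ∑ t ∈ Finset.univ.erase t0, Polynomial.C (eval (v 0) (f t) • X ⟨(t, fun _ => 0), hz t⟩))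
    else Polynomial.C (X s)
  let E : MvPolynomial (PVar p N) K →ₐ[K] Polynomial (MvPolynomial (PVar p N) K) := aeval g
  have hEc : ∀ Q ∈ supported K {s : PVar p N | s ≠ s0}, E Q = Polynomial.C Q := by
    intro Q hQ
    induction hQ using Algebra.adjoin_induction with
    | mem x hx =>
      obtain ⟨s, hs', rfl⟩ := hx
      simp only [E, aeval_X, g, if_neg (show s ≠ s0 from hs')]
    | algebraMap a => rw [AlgHom.commutes]; rfl
    | add x y _ _ hx hy => rw [map_add, hx, hy, map_add]
    | mul x y _ _ hx hy => rw [map_mul, hx, hy, map_mul]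
  have hEpi : E (piP f v) = Polynomial.X := by
    rw [piP, map_sum, ← Finset.add_sum_erase _ _ (Finset.mem_univ t0)]
    have e : ∑ t ∈ Finset.univ.erase t0, E (eval (v 0) (f t) • X ⟨(t, fun _ => 0), hz t⟩) =
        ∑ t ∈ Finset.univ.erase t0, Polynomial.C (eval (v 0) (f t) • X ⟨(t, fun _ => 0), hz t⟩) := by
      refine Finset.sum_congr rfl fun t ht => hEc _ (Subalgebra.smul_mem _ ?_ _)
      refine Algebra.subset_adjoin ⟨_, fun e => Finset.ne_of_mem_erase ht ?_, rfl⟩
      rw [hs] at e
      exact congrArg (fun q : PVar p N => q.1.1) e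
    rw [e, map_smul]
    simp only [E, aeval_X, g, if_pos hs.symm, Algebra.smul_def]
    rw [← mul_assoc, show algebraMap K (Polynomial (MvPolynomial (PVar p N) K)) (eval (v 0) (f t0)) =
        Polynomial.C (C (eval (v 0) (f t0))) from rfl, ← Polynomial.C_mul, ← C_mul,
      mul_inv_cancel₀ ht0, C_1, Polynomial.C_1, one_mul, sub_add_cancel]
  refine Finsupp.ext fun n => ?_
  by_contra hn
  have h1 := congrArg (fun Q => (E Q).coeff (n / p)) (hP ⟨n % p, Nat.mod_lt _ hp.1.pos⟩)
  simp only [P, map_sum, Polynomial.finsetSum_coeff, map_zero, Polynomial.coeff_zero] at h1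
  rw [Finset.sum_eq_single n] at h1
  · rw [if_pos rfl, map_mul, map_pow, hEpi, hEc _ (hc n), Polynomial.coeff_C_mul_X_pow, if_pos rfl] at h1
    exact hn h1
  · intro n' _ hn'
    split_ifs with e
    · rw [map_mul, map_pow, hEpi, hEc _ (hc n'), Polynomial.coeff_C_mul_X_pow, if_neg]
      intro e'
      apply hn'
      rw [← Nat.mod_add_div n' p, ← Nat.mod_add_div n p, e, e']
    · rw [map_zero, Polynomial.coeff_zero]
  · intro h
    exact absurd (Finsupp.notMem_support_iff.1 h) hn

end Vale.Agent.P200d
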