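import Vale.Agent.P200d.Tower

/-!
The Ore steps of the tower and the regularity for one direction.
-/

noncomputable section

namespace Vale.Agent.P200d

open MvPolynomial

universe u

variable {K : Type u} [Field K] {p N : ℕ} [hp : Fact p.Prime] [CharP K p]
  {f : Fin N → MvPolynomial (Fin N) K} {v : Fin 1 → Fin N → K}

theorem epsB_Tv : epsB f v (Tv (p := p) f v) = 0 := by
  rw [Tv, epsB_inR]
  exact epsAlg_lop f v 0

theorem epsB_polyB (P : MvPolynomial (PVar p N) K) : epsB f v (polyB f v P) = constantCoeff P := by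
  rw [polyB, RingHom.comp_apply, epsB_inR, coe_polyAlg, mlt_apply, mul_one]
  induction P using MvPolynomial.induction_on with
  | C a => rw [← algebraMap_eq, AlgHom.commutes]; simp [algebraMap_eq]
  | add a b ha hb => rw [map_add, map_add, map_add, ha, hb]
  | mul_X a s ha => rw [map_mul, map_mul, map_mul, toRs, aeval_X]; simp [rX]

theorem Tv_comm_C (a : K) :
    Tv (p := p) f v * polyB f v (C a) = polyB f v (C a) * Tv f v := by
  rw [Tv, polyB, RingHom.comp_apply, ← map_mul, ← map_mul]
  congr 1
  refine Subtype.ext ?_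
  simp only [MulMemClass.coe_mul, coe_polyAlg, ← algebraMap_eq, AlgHom.commutes]
  exact (Algebra.commutes a _).symm

variable (f) (v) in
/-- The augmentation of a subring. -/
def epsS (S : Finset (PVar p N)) : subR f v S →+* K := (epsB f v).comp (subR f v S).subtype

variable (f) (v) in
/-- The constants in the bottom subring. -/
def constR : K →+* subR (p := p) f v ∅ :=
  ((polyB f v).comp C).codRestrict (subR (p := p) f v ∅) fun a =>
    polyB_mem (Subalgebra.algebraMap_mem _ a)

variable (hf : ∀ t, (f t).IsHomogeneous p) (hv : LinearIndependent K v)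
  {t0 : Fin N} (ht0 : eval (v 0) (f t0) ≠ 0) {s0 : PVar p N} (hs0 : s0.1 = (t0, fun _ => 0))

theorem coe_oreEval {R' : Type u} [Ring R'] {S : Finset (PVar p N)} (j : R' →+* subR f v S)
    (T : subR f v S) (c : ℕ →₀ R') :
    ((oreEval j T c : subR f v S) : Bv (p := p) f v) =
      c.sum fun k b => (j b : Bv (p := p) f v) * (T : Bv (p := p) f v) ^ k := by
  simp [oreEval, Finsupp.sum]

include hf hv ht0 hs0 in
theorem ore_bottom : OreData (constR f v) (RingHom.id K) (epsS f v ∅)
    ⟨Tv (p := p) f v, Tv_mem ∅⟩ where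
  compat a := by
    show epsB f v (polyB f v (C a)) = a
    rw [epsB_polyB, constantCoeff_C]
  aug := epsB_Tv
  bij := by
    classical
    have hev : ∀ c : ℕ →₀ K,
        ((oreEval (constR f v) ⟨Tv (p := p) f v, Tv_mem ∅⟩ c : subR f v ∅) : Bv (p := p) f v) =
        (c.mapRange C C_0).sum (fun n P => polyB f v P * Tv f v ^ n) := by
      intro c
      rw [coe_oreEval, Finsupp.sum_mapRange_index (by simp)]
      rfl
    refine ⟨fun c c' h => ?_, fun u => ?_⟩
    · have h0 : ((oreEval (constR f v) ⟨Tv (p := p) f v, Tv_mem ∅⟩ (c - c') : subR f v ∅) : Bv (p := p) f v) = 0 := by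
        have e := oreEval_add (j := constR (p := p) f v) (T := ⟨Tv (p := p) f v, Tv_mem ∅⟩) (c - c') c'
        rw [sub_add_cancel] at e
        rw [add_eq_right.1 (e.symm.trans h), ZeroMemClass.coe_zero]
      rw [hev] at h0
      have h1 := normalForm_unique hf hv ht0 hs0 ((c - c').mapRange C C_0)
        (fun n => by rw [Finsupp.mapRange_apply]; exact Subalgebra.algebraMap_mem _ _) h0
      refine sub_eq_zero.1 (Finsupp.ext fun n => ?_)
      have := DFunLike.congr_fun h1 n
      simpa [sub_eq_zero] using this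
    · obtain ⟨c, hc, he⟩ := subR_normalForm hf ht0 hs0
        (S := ∅) ⟨by simp, by simp⟩ u.2
      refine ⟨c.mapRange constantCoeff (map_zero _), Subtype.ext ?_⟩
      show ((oreEval (constR f v) _ _ : subR f v ∅) : Bv (p := p) f v) = u
      rw [hev, ← he]
      congr 1
      refine Finsupp.ext fun n => ?_
      have := hc n
      rw [Finset.coe_empty, supported_empty, Algebra.mem_bot] at this
      obtain ⟨a, ha⟩ := this
      rw [Finsupp.mapRange_apply, Finsupp.mapRange_apply, ← ha, algebraMap_eq, constantCoeff_C]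
  ad a := ⟨0, Subtype.ext (by
    rw [map_zero, add_zero]
    exact Tv_comm_C a)⟩

include hf in
theorem extP_mem {S : Finset (PVar p N)} {Q : MvPolynomial (PVar p N) K} (hQ : Q ∈ extP v f S) :
    polyB f v Q ∈ subR f v S := by
  induction hQ using Algebra.adjoin_induction with
  | mem x hx =>
    rcases hx with rfl | ⟨s, hs, rfl⟩
    · rw [← Tv_pow hf]; exact pow_mem (Tv_mem S) p
    · exact polyB_mem (Algebra.subset_adjoin ⟨s, hs, rfl⟩)
  | algebraMap a => exact polyB_mem (Subalgebra.algebraMap_mem _ a)
  | add x y _ _ hx hy => rw [map_add]; exact add_mem hx hy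
  | mul x y _ _ hx hy => rw [map_mul]; exact mul_mem hx hy

include hf ht0 hs0 in
theorem step_ad {S : Finset (PVar p N)} (s : PVar p N)
    (hlow : ∀ s', lev s'.1.2 < lev s.1.2 → s' = s0 ∨ s' ∈ S) {u : Bv (p := p) f v}
    (hu : u ∈ subR f v S) : polyB f v (X s) * u - u * polyB f v (X s) ∈ subR f v S := by
  induction hu using Subring.closure_induction with
  | mem x hx =>
    rcases hx with rfl | ⟨P, hP, rfl⟩
    · obtain ⟨Q, hQ, hQe⟩ := bracket_var ht0 hs0 s hlow
      rw [hQe, sub_add_cancel_left]
      exact neg_mem (extP_mem hf hQ)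
    · rw [← map_mul, ← map_mul, mul_comm, sub_self]; exact zero_mem _
  | zero => simp
  | one => simp
  | add a b _ _ ha hb => rw [mul_add, add_mul, add_sub_add_comm]; exact add_mem ha hb
  | neg a _ ha =>
    have := neg_mem ha
    rwa [neg_sub, ← neg_sub_neg, ← mul_neg, ← neg_mul] at this
  | mul a b ha' hb' ha hb =>
    have e : polyB f v (X s) * (a * b) - a * b * polyB f v (X s) =
        (polyB f v (X s) * a - a * polyB f v (X s)) * b +
          a * (polyB f v (X s) * b - b * polyB f v (X s)) := by
      simp only [sub_mul, mul_sub, mul_assoc]; abel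
    rw [e]
    exact add_mem (mul_mem ha hb') (mul_mem ha' hb)

omit [CharP K p] in
theorem var_coeff_zero {S : Set (PVar p N)} {s : PVar p N} (hs : s ∉ S) (n : ℕ)
    (c : ℕ → MvPolynomial (PVar p N) K) (hc : ∀ l, c l ∈ supported K S)
    (h : ∑ l ∈ Finset.range n, X s ^ l * c l = 0) : ∀ l < n, c l = 0 := by
  classical
  let E : MvPolynomial (PVar p N) K →ₐ[K] Polynomial (MvPolynomial (PVar p N) K) :=
    aeval fun t => if t = s then Polynomial.X else Polynomial.C (X t)
  have hE : ∀ Q ∈ supported K S, E Q = Polynomial.C Q := by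
    intro Q hQ
    induction hQ using Algebra.adjoin_induction with
    | mem x hx =>
      obtain ⟨t, ht, rfl⟩ := hx
      simp [E, show t ≠ s from fun e => hs (e ▸ ht)]
    | algebraMap a => rw [AlgHom.commutes]; rfl
    | add x y _ _ hx hy => rw [map_add, hx, hy, map_add]
    | mul x y _ _ hx hy => rw [map_mul, hx, hy, map_mul]
  intro l hl
  have h1 := congrArg (fun Q => (E Q).coeff l) h
  simp only [map_sum, map_mul, map_pow, E, aeval_X, if_true, Polynomial.finsetSum_coeff, map_zero,
    Polynomial.coeff_zero] at h1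
  rw [Finset.sum_eq_single l] at h1
  · rw [show aeval _ (c l) = Polynomial.C (c l) from hE _ (hc l), Polynomial.X_pow_mul,
      Polynomial.coeff_C_mul_X_pow, if_pos rfl] at h1
    exact h1
  · intro l' _ hl'
    rw [show aeval _ (c l') = Polynomial.C (c l') from hE _ (hc l'), Polynomial.X_pow_mul,
      Polynomial.coeff_C_mul_X_pow, if_neg (Ne.symm hl')]
  · intro hl'; exact absurd (Finset.mem_range.2 hl) hl'

include hf hv ht0 hs0 in
theorem left_unique {S : Finset (PVar p N)} (hS : Good s0 S) {s : PVar p N} (hs : s ∉ S)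
    (hss : s ≠ s0) (n : ℕ) (b : ℕ → subR f v S)
    (h : ∑ l ∈ Finset.range n, polyB f v (X s) ^ l * (b l : Bv (p := p) f v) = 0) :
    ∀ l < n, b l = 0 := by
  classical
  choose c hc he using fun l => subR_normalForm hf ht0 hs0 hS (b l).2
  let d : ℕ →₀ MvPolynomial (PVar p N) K :=
    ∑ l ∈ Finset.range n, (c l).mapRange (X s ^ l * ·) (mul_zero _)
  have hd : ∀ k, d k = ∑ l ∈ Finset.range n, X s ^ l * c l k := fun k => by
    simp [d, Finsupp.finsetSum_apply]
  have h0 : d.sum (fun n P => polyB f v P * Tv f v ^ n) = 0 := by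
    rw [← h]
    show (∑ l ∈ Finset.range n, (c l).mapRange (X s ^ l * ·) (mul_zero _)).sum _ = _
    rw [← Finsupp.sum_finsetSum_index (by simp) (by simp [add_mul])]
    refine Finset.sum_congr rfl fun l _ => ?_
    rw [Finsupp.sum_mapRange_index (by simp), ← he l, Finsupp.mul_sum]
    simp [mul_assoc]
  have hne : ∀ {P}, P ∈ supported K (S : Set (PVar p N)) → P ∈ supported K {t : PVar p N | t ≠ s0} :=
    fun h => supported_mono (fun t ht => show t ≠ s0 from fun e => hS.1 (e ▸ ht)) h
  have hd0 := normalForm_unique hf hv ht0 hs0 d (fun k => by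
    rw [hd]
    exact sum_mem fun l _ => mul_mem (pow_mem (Algebra.subset_adjoin
      (Set.mem_image_of_mem _ (show s ∈ {t : PVar p N | t ≠ s0} from hss))) _)
      (hne (hc l k))) h0
  intro l hl
  refine Subtype.ext ?_
  rw [← he l, ZeroMemClass.coe_zero]
  refine Finset.sum_eq_zero fun k _ => ?_
  have hk : ∑ l ∈ Finset.range n, X s ^ l * c l k = 0 := by rw [← hd, hd0]; rfl
  have hz : c l k = 0 := var_coeff_zero (fun h => hs h) n (fun l => c l k) (fun l => hc l k) hk l hl
  simp [hz]

variable {S : Finset (PVar p N)} (hS : Good s0 S) {s : PVar p N} (hs : s ∉ S) (hss : s ≠ s0)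
  (hlow : ∀ s', lev s'.1.2 < lev s.1.2 → s' = s0 ∨ s' ∈ S)

variable (f) (v) in
/-- The inclusion of a subring in the next one. -/
def jS (S : Finset (PVar p N)) (s : PVar p N) : subR f v S →+* subR f v (insert s S) :=
  Subring.inclusion (subR_mono (Finset.subset_insert s S))

variable (f) (v) in
/-- The variable added. -/
def rS (S : Finset (PVar p N)) (s : PVar p N) : subR f v (insert s S) :=
  ⟨polyB f v (X s), polyB_mem (Algebra.subset_adjoin ⟨s, Finset.mem_insert_self s S, rfl⟩)⟩

include hf ht0 hs0 hlow in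
theorem jS_ad (b : subR f v S) :
    ∃ b', rS f v S s * jS f v S s b = jS f v S s b * rS f v S s + jS f v S s b' :=
  ⟨⟨_, step_ad hf ht0 hs0 s hlow b.2⟩, Subtype.ext (add_sub_cancel _ _).symm⟩

include hf ht0 hs0 hlow in
theorem right_form (n : ℕ) (b : subR f v S) : ∃ c : ℕ → subR f v S, c n = b ∧
    (b : Bv (p := p) f v) * polyB f v (X s) ^ n =
      ∑ l ∈ Finset.range (n + 1), polyB f v (X s) ^ l * (c l : Bv (p := p) f v) := by
  classical
  induction n with
  | zero => exact ⟨fun _ => b, rfl, by simp⟩
  | succ n ih =>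
    obtain ⟨c, hcn, hce⟩ := ih
    set r := polyB f v (X s)
    let c' : ℕ → subR f v S := fun l => ⟨_, step_ad hf ht0 hs0 s hlow (c l).2⟩
    refine ⟨fun l => (if l = 0 then 0 else c (l - 1)) - (if l ≤ n then c' l else 0), ?_, ?_⟩
    · simp [hcn]
    · rw [pow_succ, ← mul_assoc, hce, Finset.sum_mul]
      simp only [AddSubgroupClass.coe_sub, mul_sub, Finset.sum_sub_distrib]
      rw [Finset.sum_range_succ' (fun l => r ^ l * ((if l = 0 then 0 else c (l - 1) : subR f v S) : Bv (p := p) f v)),
        Finset.sum_range_succ (fun l => r ^ l * ((if l ≤ n then c' l else 0 : subR f v S) : Bv (p := p) f v))]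
      simp only [Nat.succ_ne_zero, if_false, if_true, ZeroMemClass.coe_zero, mul_zero, add_zero,
        Nat.add_sub_cancel, show ¬ n + 1 ≤ n from by omega]
      rw [← Finset.sum_sub_distrib]
      refine Finset.sum_congr rfl fun l hl => ?_
      rw [if_pos (show l ≤ n from Nat.lt_succ_iff.1 (Finset.mem_range.1 hl))]
      show r ^ l * (c l : Bv (p := p) f v) * r =
        r ^ (l + 1) * (c l : Bv (p := p) f v) - r ^ l * (r * (c l : Bv (p := p) f v) - c l * r)
      rw [mul_sub, pow_succ, mul_assoc, mul_assoc]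
      abel

variable (f) (v) in
/-- The normal forms of the next step, inside the algebra. -/
def stepForm (S : Finset (PVar p N)) (s : PVar p N) (x : Bv (p := p) f v) : Prop :=
  ∃ c : ℕ →₀ subR f v S, c.sum (fun k b => (b : Bv (p := p) f v) * polyB f v (X s) ^ k) = x

theorem stepForm_add {a b : Bv (p := p) f v} (ha : stepForm f v S s a) (hb : stepForm f v S s b) :
    stepForm f v S s (a + b) := by
  obtain ⟨c, rfl⟩ := ha
  obtain ⟨d, rfl⟩ := hb
  exact ⟨c + d, Finsupp.sum_add_index' (by simp) (by simp [add_mul])⟩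

theorem stepForm_single (k : ℕ) (b : subR (p := p) f v S) :
    stepForm f v S s ((b : Bv (p := p) f v) * polyB f v (X s) ^ k) :=
  ⟨Finsupp.single k b, Finsupp.sum_single_index (by simp)⟩

theorem stepForm_zero : stepForm (p := p) f v S s 0 := ⟨0, Finsupp.sum_zero_index⟩

theorem stepForm_left (b : subR (p := p) f v S) {x : Bv (p := p) f v} (hx : stepForm f v S s x) :
    stepForm f v S s (b * x) := by
  obtain ⟨c, rfl⟩ := hx
  rw [Finsupp.sum, Finset.mul_sum]
  refine Finset.sum_induction _ _ (fun a b => stepForm_add) stepForm_zero fun k _ => ?_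
  rw [← mul_assoc]
  exact stepForm_single k (b * c k)

include hf ht0 hs0 hlow in
theorem stepForm_var {x : Bv (p := p) f v} (hx : stepForm f v S s x) :
    stepForm f v S s (polyB f v (X s) * x) := by
  obtain ⟨c, rfl⟩ := hx
  rw [Finsupp.sum, Finset.mul_sum]
  refine Finset.sum_induction _ _ (fun a b => stepForm_add) stepForm_zero fun k _ => ?_
  have hb := step_ad hf ht0 hs0 s hlow (c k).2
  set r := polyB f v (X s)
  have e : r * ((c k : Bv (p := p) f v) * r ^ k) = (c k : Bv (p := p) f v) * r ^ (k + 1) +
      ((⟨_, hb⟩ : subR f v S) : Bv (p := p) f v) * r ^ k := by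
    show _ = _ + (r * (c k : Bv (p := p) f v) - c k * r) * r ^ k
    rw [sub_mul, pow_succ', ← mul_assoc, ← mul_assoc]
    abel
  rw [e]
  exact stepForm_add (stepForm_single _ _) (stepForm_single _ _)

include hf ht0 hs0 hlow in
theorem stepForm_all {x : Bv (p := p) f v} (hx : x ∈ subR f v (insert s S)) :
    stepForm f v S s x := by
  suffices H : ∀ y, stepForm f v S s y → stepForm f v S s (x * y) by
    simpa using H 1 (by simpa using stepForm_single (f := f) (v := v) (S := S) (s := s) 0 1)
  induction hx using Subring.closure_induction with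
  | mem x hx =>
    rcases hx with rfl | ⟨P, hP, rfl⟩
    · exact fun y hy => stepForm_left ⟨_, Tv_mem S⟩ hy
    · induction hP using Algebra.adjoin_induction with
      | mem q hq =>
        obtain ⟨t, ht, rfl⟩ := hq
        rcases Finset.mem_insert.1 ht with rfl | ht
        · exact fun y hy => stepForm_var hf ht0 hs0 hlow hy
        · exact fun y hy => stepForm_left
            ⟨_, polyB_mem (Algebra.subset_adjoin ⟨t, ht, rfl⟩)⟩ hy
      | algebraMap a => exact fun y hy => stepForm_left ⟨_, polyB_mem (Subalgebra.algebraMap_mem _ a)⟩ hy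
      | add P Q _ _ hP hQ =>
        intro y hy; rw [map_add, add_mul]; exact stepForm_add (hP y hy) (hQ y hy)
      | mul P Q _ _ hP hQ =>
        intro y hy; rw [map_mul, mul_assoc]; exact hP _ (hQ y hy)
  | zero => intro y _; rw [zero_mul]; exact stepForm_zero
  | one => intro y hy; rwa [one_mul]
  | add a b _ _ ha hb => intro y hy; rw [add_mul]; exact stepForm_add (ha y hy) (hb y hy)
  | neg a _ ha =>
    intro y hy
    obtain ⟨c, hc⟩ := ha y hy
    refine ⟨-c, ?_⟩
    rw [Finsupp.sum_neg_index (by simp), neg_mul, ← hc]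
    simp [Finsupp.sum]
  | mul a b _ _ ha hb => intro y hy; rw [mul_assoc]; exact ha _ (hb y hy)

include hf hv ht0 hs0 hS hs hss hlow in
theorem step_unique (n : ℕ) (d : ℕ → subR f v S)
    (hd : ∑ k ∈ Finset.range n, (d k : Bv (p := p) f v) * polyB f v (X s) ^ k = 0) :
    ∀ k < n, d k = 0 := by
  classical
  induction n with
  | zero => intro k hk; omega
  | succ n ih =>
    choose cf hcf hce using fun k => right_form hf ht0 hs0 hlow k (d k)
    let e : ℕ → subR f v S := fun l => ∑ k ∈ Finset.range (n + 1), if l ≤ k then cf k l else 0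
    have he : ∑ l ∈ Finset.range (n + 1), polyB f v (X s) ^ l * (e l : Bv (p := p) f v) = 0 := by
      rw [← hd]
      simp only [e, AddSubmonoidClass.coe_finsetSum, Finset.mul_sum]
      rw [Finset.sum_comm]
      refine Finset.sum_congr rfl fun k hk => ?_
      rw [hce k]
      symm
      refine Finset.sum_subset_zero_on_sdiff ?_ (fun l hl => ?_) fun l hl => ?_
      · exact Finset.range_subset_range.2 (by have := Finset.mem_range.1 hk; omega)
      · rw [if_neg, ZeroMemClass.coe_zero, mul_zero]
        simp only [Finset.mem_sdiff, Finset.mem_range] at hl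
        omega
      · rw [if_pos (Nat.lt_succ_iff.1 (Finset.mem_range.1 hl))]
    have hn0 := left_unique hf hv ht0 hs0 hS hs hss (n + 1) e he n (Nat.lt_succ_self n)
    have hdn : d n = 0 := by
      rw [← hn0, ← hcf n]
      simp only [e]
      rw [Finset.sum_eq_single n]
      · rw [if_pos le_rfl]
      · intro k hk hkn; rw [if_neg]; have := Finset.mem_range.1 hk; omega
      · simp
    rw [Finset.sum_range_succ, hdn, ZeroMemClass.coe_zero, zero_mul, add_zero] at hd
    intro k hk
    rcases Nat.lt_succ_iff_lt_or_eq.1 hk with hk | rfl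
    exacts [ih hd k hk, hdn]

omit hp [CharP K p] in
theorem coe_oreEval_incl {E : Type*} [Ring E] {A B : Subring E} (h : A ≤ B) (T : B) (c : ℕ →₀ A) :
    ((oreEval (Subring.inclusion h) T c : B) : E) = c.sum fun k b => (b : E) * (T : E) ^ k := by
  simp [oreEval, Finsupp.sum]

theorem step_oreEval (c : ℕ →₀ subR (p := p) f v S) :
    ((oreEval (jS f v S s) (rS f v S s) c : subR f v (insert s S)) : Bv (p := p) f v) =
      c.sum fun k b => (b : Bv (p := p) f v) * polyB f v (X s) ^ k := by
  unfold jS rS
  exact coe_oreEval_incl _ _ c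

include hf hv ht0 hs0 hS hs hss hlow in
theorem ore_step : OreData (jS f v S s) (epsS f v S) (epsS f v (insert s S)) (rS (p := p) f v S s) where
  compat b := by
    unfold epsS jS
    simp only [RingHom.comp_apply, Subring.subtype_apply, Subring.coe_inclusion]
  aug := by
    show epsB f v (polyB f v (X s)) = 0
    rw [epsB_polyB, constantCoeff_X]
  ad := jS_ad hf ht0 hs0 hlow
  bij := by
    classical
    refine ⟨fun c c' h => ?_, fun u => ?_⟩
    · refine Finsupp.ext fun k => sub_eq_zero.1 ?_
      have h0 : (c - c').sum (fun k b => (b : Bv (p := p) f v) * polyB f v (X s) ^ k) = 0 := by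
        have e := oreEval_add (j := jS f v S s) (T := rS (p := p) f v S s) (c - c') c'
        rw [sub_add_cancel] at e
        rw [← step_oreEval, add_eq_right.1 (e.symm.trans h), ZeroMemClass.coe_zero]
      by_cases hk : k ∈ (c - c').support
      · obtain ⟨n, hn⟩ : ∃ n, ∀ i ∈ (c - c').support, i < n :=
          ⟨(c - c').support.sup id + 1, fun i hi => Nat.lt_succ_of_le (Finset.le_sup (f := id) hi)⟩
        refine step_unique hf hv ht0 hs0 hS hs hss hlow n (fun i => (c - c') i) ?_ k (hn k hk)
        rw [← h0, Finsupp.sum]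
        refine (Finset.sum_subset (fun i hi => Finset.mem_range.2 (hn i hi)) fun i _ hi => ?_).symm
        rw [Finsupp.notMem_support_iff.1 hi, ZeroMemClass.coe_zero, zero_mul]
      · exact Finsupp.notMem_support_iff.1 hk
    · obtain ⟨c, hc⟩ := stepForm_all hf ht0 hs0 hlow u.2
      exact ⟨c, Subtype.ext ((step_oreEval c).trans hc)⟩

end Vale.Agent.P200d
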