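import Vale.Agent.P200d.Frame

/-!
Monomial models for ideals containing a regular sequence of forms of degree `p`.
-/

noncomputable section

namespace Vale.Agent.P200d

open MvPolynomial Vale.Agent.P200 Vale.Agent.P200b

universe u

variable {K D : Type*} [Field K] [DivisionRing D] [Algebra K D] {n c e : ℕ}
  {f : Fin c → MvPolynomial (Fin n) K}

/-- The commuting forms in reversed order. -/
def PFrame.rev (P : PFrame K D n c e f) : Frame K D n 0 (fun i : Fin 0 => i.elim0) where
  G u := P.F.G u.rev
  comm u t hut j k := by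
    have h := P.F.comm u.rev t.rev (fun h => hut (Fin.rev_injective h)) j k
    simpa [ex] using h
  span := by
    rw [show (Set.range fun u : Fin n => P.F.G u.rev) = Set.range P.F.G from
      Fin.rev_surjective.range_comp P.F.G]
    exact P.F.span
  sq s hs := absurd hs (Nat.not_lt_zero _)

omit [Field K] in
theorem sx_zero_c {n : ℕ} (s : Fin n) (a : Fin n →₀ ℕ) : sx 0 s a = 0 := by simp [sx, par, ex]

theorem M_pow (F : Frame K D n 0 (fun i : Fin 0 => i.elim0)) (s : Fin n) :
    ∀ k : ℕ, F.g s ^ k = F.M (Finsupp.single s k)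
  | 0 => by rw [pow_zero, Finsupp.single_zero, F.M_zero]
  | k + 1 => by rw [pow_succ, M_pow F s k, F.M_mul, sx_zero_c, pow_zero, one_smul, Finsupp.single_add]

/-- The part of the degree in the first variables. -/
def zl (c : ℕ) (a : Fin n →₀ ℕ) : ℕ :=
  ∑ u ∈ Finset.univ.filter (fun u : Fin n => u.1 + c < n), a u

theorem pow_mem_lead (P : PFrame K D n c e f) (he : 0 < e) (I : Ideal (MvPolynomial (Fin n) K))
    (hf : ∀ t, (f t).IsHomogeneous e) (hfI : ∀ t, f t ∈ I) (s : Fin n) (hs : s.rev.1 < c) :
    Finsupp.single s e ∈ P.rev.lead I := by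
  classical
  set F := P.rev
  obtain ⟨a, z0, hz0, hsq⟩ := P.pow s.rev hs
  have hg : ∀ u, F.g u = P.F.g u.rev := fun u => rfl
  let Z : Submodule D (Ex n e → D) :=
    ⨅ b : Ex n e, ⨅ _ : zl c b.1 = 0, LinearMap.ker (LinearMap.proj b)
  have hz : ∑ u ∈ Finset.univ.filter (fun u : Fin n => c ≤ u.1), z0 u * P.F.g u ∈ Z.map (F.L e) := by
    refine Submodule.sum_mem _ fun u hu => ?_
    simp only [Finset.mem_filter, Finset.mem_univ, true_and] at hu
    obtain ⟨b, hb⟩ : z0 u ∈ LinearMap.range (F.L (e - 1)) := by rw [F.range_L]; exact hz0 u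
    rw [← hb, F.L_apply, Finset.sum_mul]
    refine Submodule.sum_mem _ fun w _ => ?_
    have hd : (w.1 + Finsupp.single u.rev 1).degree = e := by
      rw [map_add, Finsupp.degree_single, w.2]; omega
    have hm : F.M w.1 * P.F.g u = F.M (w.1 + Finsupp.single u.rev 1) := by
      have h := F.M_mul w.1 u.rev
      rw [sx_zero_c, pow_zero, one_smul, hg, Fin.rev_rev] at h
      exact h
    rw [smul_mul, hm]
    refine Submodule.smul_mem _ _ ⟨Pi.single ⟨_, hd⟩ 1, ?_, ?_⟩
    · simp only [Z, SetLike.mem_coe, Submodule.mem_iInf, LinearMap.mem_ker, LinearMap.proj_apply]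
      intro x hx
      refine Pi.single_eq_of_ne ?_ _
      rintro rfl
      have h1 : u.rev ∈ Finset.univ.filter (fun v : Fin n => v.1 + c < n) := by
        simp only [Finset.mem_filter, Finset.mem_univ, true_and, Fin.val_rev]
        omega
      have h2 := Finset.single_le_sum (f := fun v : Fin n => (w.1 + Finsupp.single u.rev 1 : Fin n →₀ ℕ) v)
        (fun v _ => Nat.zero_le _) h1
      simp only [Finsupp.add_apply, Finsupp.single_eq_same] at h2
      simp only [zl, Finsupp.add_apply] at hx
      omega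
    · show Fintype.linearCombination D (fun a : Ex n e => F.M a.1) _ = _
      rw [Fintype.linearCombination_apply_single, one_smul]
  obtain ⟨z, hzZ, hzL⟩ := hz
  have h2 : (Finsupp.single s e).degree = e := Finsupp.degree_single _ _
  let v : Ex n e → D := Pi.single ⟨_, h2⟩ 1 - z
  have hzero : zl c (Finsupp.single s e) = 0 := by
    refine Finset.sum_eq_zero fun u hu => ?_
    simp only [Finset.mem_filter] at hu
    refine Finsupp.single_eq_of_ne (fun h => ?_)
    subst h
    rw [Fin.val_rev] at hs
    omega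
  simp only [Z, Submodule.mem_iInf, SetLike.mem_coe, LinearMap.mem_ker, LinearMap.proj_apply] at hzZ
  refine (F.mem_lead I (e := e) ⟨_, h2⟩).2 ⟨v, ?_, ?_, ?_⟩
  · show F.L e v ∈ idD D I e
    rw [map_sub, hzL, F.L_single, one_smul, ← M_pow, hg, hsq, add_sub_cancel_right]
    exact Submodule.sum_mem _ fun t _ =>
      Submodule.smul_mem _ _ (Submodule.subset_span ⟨_, ⟨hfI t, hf t⟩, rfl⟩)
  · simp only [v, Pi.sub_apply, Pi.single_eq_same, hzZ (⟨_, h2⟩ : Ex n e) hzero, sub_zero]
    exact one_ne_zero
  · intro x hx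
    have hdeg : zdeg 0 x.1 = zdeg 0 (Finsupp.single s e) := by
      have h : ∀ a : Fin n →₀ ℕ, zdeg 0 a = a.degree := fun a => by
        rw [zdeg, Finsupp.degree_eq_sum, Finset.filter_true_of_mem fun u _ => Nat.zero_le _]
      rw [h, h, x.2, h2]
    have hx0 : zl c x.1 = 0 := by
      simp only [Vale.Agent.P200b.wt, Prod.Lex.toLex_lt_toLex] at hx
      rcases hx with h | h
      · exact absurd hdeg h.ne
      · obtain ⟨i, hi, hlt⟩ := h.2
        have his : i = s := by
          by_contra hne
          change x.1 i < (Finsupp.single s e : Fin n →₀ ℕ) i at hlt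
          simp only [Finsupp.single_eq_of_ne hne] at hlt
          exact Nat.not_lt_zero _ hlt
        subst his
        refine Finset.sum_eq_zero fun u hu => ?_
        simp only [Finset.mem_filter] at hu
        rw [Fin.val_rev] at hs
        have hlt' : u < i := by rw [Fin.lt_def]; omega
        have h3 := hi u hlt'
        change x.1 u = (Finsupp.single i e : Fin n →₀ ℕ) u at h3
        simp only [Finsupp.single_eq_of_ne hlt'.ne] at h3
        exact h3
    simp only [v, Pi.sub_apply, hzZ _ hx0, sub_zero]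
    exact Pi.single_eq_of_ne (fun h => by subst h; exact lt_irrefl _ hx) _

/-- Upward closed exponent sets with the Hilbert function of a given ideal. -/
theorem exists_upset {K : Type u} [Field K] {p : ℕ} [hp : Fact p.Prime] [CharP K p] {n c : ℕ}
    (hc : c ≤ n) (f : Fin c → MvPolynomial (Fin n) K) (hf : ∀ i, (f i).IsHomogeneous p)
    (hreg : IsRegSeq f) (I : Ideal (MvPolynomial (Fin n) K)) (hfI : ∀ i, f i ∈ I) :
    ∃ U : Set (Fin n →₀ ℕ), (∀ a ∈ U, ∀ b, a ≤ b → b ∈ U) ∧
      (∀ i : Fin c, Finsupp.single (Fin.castLE hc i) p ∈ U) ∧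
      ∀ d, {a ∈ U | a.degree = d}.ncard = Module.finrank K (piece I d) := by
  have hs : StrongReg f := strongReg_of_isRegSeq f (fun _ => p) (fun _ => hp.1.pos) hf hreg
  obtain ⟨D, instD, instA, ⟨P⟩⟩ := exists_pframe hc f hf hs
  set Ω : Set (Fin n →₀ ℕ) := P.rev.lead I
  refine ⟨{a | Finsupp.equivMapDomain Fin.revPerm a ∈ Ω}, fun a ha b hab =>
    P.rev.lead_upper I ha fun v => by simp only [Finsupp.equivMapDomain_apply]; exact hab _,
    fun i => ?_, fun d => ?_⟩
  · show Finsupp.equivMapDomain Fin.revPerm (Finsupp.single (Fin.castLE hc i) p) ∈ Ω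
    rw [Finsupp.equivMapDomain_single]
    refine pow_mem_lead P hp.1.pos I hf hfI _ ?_
    have := i.2
    simp only [Fin.revPerm_apply, Fin.rev_rev, Fin.val_castLE]
    omega
  · refine Eq.trans ?_ (P.rev.ncard_lead I d)
    refine Set.ncard_congr (fun a _ => Finsupp.equivMapDomain Fin.revPerm a) ?_ ?_ ?_
    · rintro a ⟨ha, hd⟩
      refine ⟨ha, ?_⟩
      rw [Finsupp.equivMapDomain_eq_mapDomain, Finsupp.degree_mapDomain]
      exact hd
    · intro a b _ _ h
      exact (Finsupp.domCongr Fin.revPerm).injective h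
    · rintro b ⟨hb, hd⟩
      refine ⟨Finsupp.equivMapDomain Fin.revPerm b, ⟨?_, ?_⟩, ?_⟩
      · show Finsupp.equivMapDomain Fin.revPerm (Finsupp.equivMapDomain Fin.revPerm b) ∈ Ω
        convert hb
        ext v; simp [Finsupp.equivMapDomain_apply]
      · rw [Finsupp.equivMapDomain_eq_mapDomain, Finsupp.degree_mapDomain]
        exact hd
      · ext v; simp [Finsupp.equivMapDomain_apply]

end Vale.Agent.P200d
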