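import Vale.Agent.P200d.Hoch

/-!
Commuting derivations and twisted differential operators attached to forms of degree `p` in
characteristic `p`.
-/

noncomputable section

namespace Vale.Agent.P200d

open MvPolynomial

/-- A variable: a form index and a multi-index. -/
abbrev Var (p N : ℕ) : Type := Fin N × (Fin N → Fin p)

/-- All variables: multi-index variables, coordinates and central parameters. -/
abbrev VS (p N : ℕ) : Type := Var p N ⊕ (Fin N ⊕ Fin N)

/-- The polynomial ring in all variables. -/
abbrev Pol (K : Type*) [CommSemiring K] (p N : ℕ) : Type _ := MvPolynomial (VS p N) K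

/-- The algebra of operators. -/
abbrev Op (K : Type*) [CommRing K] (p N : ℕ) : Type _ := Module.End K (Pol K p N)

variable {K : Type*} [Field K] {p N : ℕ}

/-- The order of a multi-index. -/
def lev (β : Fin N → Fin p) : ℕ := ∑ j, (β j : ℕ)

/-- Lowering one entry. -/
def low (k : Fin N) (β : Fin N → Fin p) : Fin N → Fin p :=
  Function.update β k ⟨(β k : ℕ) - 1, lt_of_le_of_lt (Nat.sub_le _ _) (β k).2⟩

theorem low_apply_ne {k j : Fin N} (h : j ≠ k) (β : Fin N → Fin p) : low k β j = β j :=
  Function.update_of_ne h _ _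

theorem low_self (k : Fin N) (β : Fin N → Fin p) : (low k β k : ℕ) = β k - 1 := by
  simp [low]

theorem lev_low {k : Fin N} {β : Fin N → Fin p} (h : (β k : ℕ) ≠ 0) : lev (low k β) + 1 = lev β := by
  unfold lev
  rw [← Finset.add_sum_erase _ _ (Finset.mem_univ k), ← Finset.add_sum_erase _ _ (Finset.mem_univ k),
    low_self, Finset.sum_congr rfl fun j hj => by rw [low_apply_ne (Finset.ne_of_mem_erase hj)]]
  omega

theorem low_comm (j k : Fin N) (β : Fin N → Fin p) : low j (low k β) = low k (low j β) := by
  by_cases h : j = k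
  · rw [h]
  · funext i
    by_cases hi : i = j
    · subst hi
      rw [low_apply_ne (Ne.symm (fun e => h e.symm))]
      exact Fin.ext (by rw [low_self, low_self, low_apply_ne h])
    · by_cases hk : i = k
      · subst hk
        rw [low_apply_ne hi]
        exact Fin.ext (by rw [low_self, low_self, low_apply_ne hi])
      · rw [low_apply_ne hi, low_apply_ne hk, low_apply_ne hk, low_apply_ne hi]

/-- The variable attached to a form index and a multi-index. -/
def vX (K : Type*) [CommSemiring K] (t : Fin N) (β : Fin N → Fin p) : Pol K p N := X (Sum.inl (t, β))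

/-- The coordinate variables. -/
def yX (K : Type*) [CommSemiring K] (p : ℕ) (j : Fin N) : Pol K p N := X (Sum.inr (Sum.inl j))

/-- The central parameters. -/
def zX (K : Type*) [CommSemiring K] (p : ℕ) (j : Fin N) : Pol K p N := X (Sum.inr (Sum.inr j))

/-- The values of a derivation on the variables. -/
def dgen (k : Fin N) : VS p N → Pol K p N :=
  Sum.elim (fun s => if lev s.2 < p then ((s.2 k : ℕ) : Pol K p N) * vX K s.1 (low k s.2) else 0)
    (Sum.elim (fun j => if j = k then 1 else 0) (fun _ => 0))

/-- The partial derivative. -/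
def del (k : Fin N) : Derivation K (Pol K p N) (Pol K p N) := mkDerivation K (dgen k)

theorem del_vX (k t : Fin N) {β : Fin N → Fin p} (h : lev β < p) :
    del k (vX K t β) = ((β k : ℕ) : Pol K p N) * vX K t (low k β) :=
  (mkDerivation_X _ _ _).trans (if_pos h)

theorem del_vX_big (k t : Fin N) {β : Fin N → Fin p} (h : ¬ lev β < p) :
    del k (vX K t β) = 0 :=
  (mkDerivation_X _ _ _).trans (if_neg h)

theorem lev_low_le (k : Fin N) (β : Fin N → Fin p) : lev (low k β) ≤ lev β := by
  by_cases h : (β k : ℕ) = 0
  · refine Finset.sum_le_sum fun j _ => ?_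
    by_cases hj : j = k
    · subst hj; rw [low_self]; omega
    · rw [low_apply_ne hj]
  · have := lev_low h; omega

theorem del_yX (k j : Fin N) : del k (yX K p j) = if j = k then 1 else 0 := mkDerivation_X _ _ _

theorem del_zX (k j : Fin N) : del k (zX K p j) = 0 := mkDerivation_X _ _ _

theorem del_comm_gen (j k : Fin N) (s : VS p N) :
    del j (del k (X s)) = del k (del j (X s : Pol K p N)) := by
  rcases s with ⟨t, β⟩ | s | s
  · show del j (del k (vX K t β)) = del k (del j (vX K t β))
    by_cases hβ : lev β < p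
    swap
    · rw [del_vX_big k t hβ, del_vX_big j t hβ, map_zero, map_zero]
    rw [del_vX k t hβ, del_vX j t hβ, Derivation.leibniz, Derivation.leibniz, Derivation.map_natCast,
      Derivation.map_natCast, smul_zero, smul_zero, add_zero, add_zero, smul_eq_mul, smul_eq_mul,
      del_vX j t (lt_of_le_of_lt (lev_low_le k β) hβ), del_vX k t (lt_of_le_of_lt (lev_low_le j β) hβ),
      low_comm]
    by_cases h : j = k
    · rw [h]
    · rw [low_apply_ne h, low_apply_ne (Ne.symm h)]
      ring
  · show del j (del k (yX K p s)) = del k (del j (yX K p s))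
    rw [del_yX, del_yX]
    split_ifs <;> simp
  · show del j (del k (zX K p s)) = del k (del j (zX K p s))
    rw [del_zX, del_zX, map_zero, map_zero]

theorem del_comm (j k : Fin N) (r : Pol K p N) : del j (del k r) = del k (del j r) := by
  induction r using MvPolynomial.induction_on with
  | C a =>
    rw [← algebraMap_eq, Derivation.map_algebraMap, Derivation.map_algebraMap, map_zero, map_zero]
  | add x y hx hy => simp [map_add, hx, hy]
  | mul_X q s hq =>
    simp only [Derivation.leibniz, map_add, smul_eq_mul, hq, del_comm_gen j k s]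
    ring

/-- The derivation along a vector. -/
def delv (w : Fin N → K) : Derivation K (Pol K p N) (Pol K p N) := ∑ k, w k • del k

theorem delv_apply (w : Fin N → K) (r : Pol K p N) : delv w r = ∑ k, w k • del k r := by
  rw [delv, ← Derivation.coeFnAddMonoidHom_apply, map_sum, Finset.sum_apply]
  rfl

theorem delv_comm (v w : Fin N → K) (r : Pol K p N) : delv v (delv w r) = delv w (delv v r) := by
  simp only [delv_apply, map_sum, Derivation.map_smul, Finset.smul_sum]
  rw [Finset.sum_comm]
  refine Finset.sum_congr rfl fun k _ => Finset.sum_congr rfl fun j _ => ?_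
  rw [del_comm j k, smul_comm]

theorem delv_single (k : Fin N) (r : Pol K p N) : delv (Pi.single k 1) r = del k r := by
  rw [delv_apply, Finset.sum_eq_single k]
  · simp
  · intro j _ hj; simp [hj]
  · simp

/-- The monomial of a vector. -/
def wpow (w : Fin N → K) (β : Fin N → Fin p) : K := ∏ j, w j ^ (β j : ℕ)

theorem wpow_low (w : Fin N → K) {k : Fin N} {β : Fin N → Fin p} (h : (β k : ℕ) ≠ 0) :
    w k * wpow w (low k β) = wpow w β := by
  unfold wpow
  rw [← Finset.mul_prod_erase _ _ (Finset.mem_univ k), ← mul_assoc, low_self, ← pow_succ',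
    ← Finset.mul_prod_erase _ (fun j => w j ^ (β j : ℕ)) (Finset.mem_univ k),
    show (β k : ℕ) - 1 + 1 = β k by omega,
    Finset.prod_congr rfl fun j hj => by rw [low_apply_ne (Finset.ne_of_mem_erase hj)]]

variable [hp : Fact p.Prime]

instance neZero_p : NeZero p := ⟨hp.1.ne_zero⟩

/-- The variable of order zero. -/
def tX (K : Type*) [CommSemiring K] (p : ℕ) [NeZero p] (t : Fin N) : Pol K p N :=
  vX K t (fun _ => 0)

theorem del_tX (k t : Fin N) : del k (tX K p t) = 0 := by
  rw [tX, del_vX k t (by simpa [lev] using hp.1.pos)]; simp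

theorem delv_pow_vX (w : Fin N → K) (t : Fin N) : ∀ (i : ℕ) (β : Fin N → Fin p), lev β = i →
    i < p → (delv w)^[i] (vX K t β) = ((i.factorial : K) * wpow w β) • tX K p t := by
  intro i
  induction i with
  | zero =>
    intro β hβ _
    have h0 : β = fun _ => 0 := funext fun j => Fin.ext (by
      simpa using (Finset.sum_eq_zero_iff.1 hβ j (Finset.mem_univ j)))
    subst h0
    simp [wpow, tX]
  | succ i ih =>
    intro β hβ hi
    rw [Function.iterate_succ_apply, delv_apply]
    have hlin : ∀ (m : ℕ) (g : Fin N → Pol K p N),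
        (delv w)^[m] (∑ k, g k) = ∑ k, (delv w)^[m] (g k) := by
      intro m
      induction m with
      | zero => intro g; rfl
      | succ m ihm => intro g; simp only [Function.iterate_succ_apply, map_sum, ihm]
    have hsm : ∀ (m : ℕ) (c : K) (g : Pol K p N), (delv w)^[m] (c • g) = c • (delv w)^[m] g := by
      intro m
      induction m with
      | zero => intro c g; rfl
      | succ m ihm => intro c g; rw [Function.iterate_succ_apply, Function.iterate_succ_apply, Derivation.map_smul, ihm]
    rw [hlin]
    have hterm : ∀ k, (delv w)^[i] (w k • del k (vX K t β)) =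
        ((i.factorial : K) * (β k : ℕ) * wpow w β) • tX K p t := by
      intro k
      rw [del_vX k t (by omega), ← map_natCast (algebraMap K (Pol K p N)), ← Algebra.smul_def, smul_smul, hsm]
      by_cases hk : (β k : ℕ) = 0
      · simp [hk]
      · rw [ih _ (by have := lev_low hk; omega) (by omega), smul_smul, ← wpow_low w hk]
        congr 1
        ring
    simp only [hterm, ← Finset.sum_smul]
    congr 1
    simp only [← Finset.mul_sum, ← Finset.sum_mul, ← Nat.cast_sum]
    rw [show ∑ k, (β k : ℕ) = i + 1 from hβ, Nat.factorial_succ]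
    push_cast
    ring

/-- The variables of order at most `p - 2`. -/
def lowSet (p N : ℕ) : Set (VS p N) := {s | ∃ t β, lev β + 1 < p ∧ s = Sum.inl (t, β)}

/-- The coefficient ring. -/
def Rs (K : Type*) [Field K] (p N : ℕ) : Subalgebra K (Pol K p N) := supported K (lowSet p N)

theorem vX_mem_Rs {t : Fin N} {β : Fin N → Fin p} (h : lev β + 1 < p) : vX K t β ∈ Rs K p N :=
  Algebra.subset_adjoin ⟨_, ⟨t, β, h, rfl⟩, rfl⟩

theorem tX_mem_Rs (t : Fin N) : tX K p t ∈ Rs K p N :=
  vX_mem_Rs (by simpa [lev] using hp.1.one_lt)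

theorem del_mem_Rs (k : Fin N) {r : Pol K p N} (hr : r ∈ Rs K p N) : del k r ∈ Rs K p N := by
  induction hr using Algebra.adjoin_induction with
  | mem x hx =>
    obtain ⟨_, ⟨t, β, hβ, rfl⟩, rfl⟩ := hx
    show del k (vX K t β) ∈ _
    rw [del_vX k t (by omega)]
    by_cases hk : (β k : ℕ) = 0
    · simp [hk]
    · exact mul_mem (natCast_mem _ _) (vX_mem_Rs (by have := lev_low hk; omega))
  | algebraMap a => rw [Derivation.map_algebraMap]; exact zero_mem _
  | add x y _ _ hx hy => rw [map_add]; exact add_mem hx hy
  | mul x y hx hy hx' hy' =>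
    rw [Derivation.leibniz]
    exact add_mem (mul_mem hx hy') (mul_mem hy hx')

theorem delv_mem_Rs (w : Fin N → K) {r : Pol K p N} (hr : r ∈ Rs K p N) : delv w r ∈ Rs K p N := by
  rw [delv_apply]
  exact sum_mem fun k _ => Subalgebra.smul_mem _ (del_mem_Rs k hr) _

variable (f : Fin N → MvPolynomial (Fin N) K)

/-- A variable occurring in an exponent. -/
def pick (k0 : Fin N) (α : Fin N →₀ ℕ) : Fin N :=
  if h : α.support.Nonempty then h.choose else k0

/-- The multi-index obtained by lowering an exponent. -/
def lowExp (k : Fin N) (α : Fin N →₀ ℕ) : Fin N → Fin p :=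
  fun j => Fin.ofNat p (if j = k then α j - 1 else α j)

/-- The potentials. -/
def phi (k : Fin N) : Pol K p N :=
  -∑ t, ∑ α ∈ (f t).support,
    if pick k α = k ∧ α k ≠ 0 ∧ α.degree = p then (coeff α (f t)) • vX K t (lowExp k α) else 0

/-- The potential along a vector. -/
def phiv (w : Fin N → K) : Pol K p N := ∑ k, w k • phi f k

/-- The parameter along a vector. -/
def zv (w : Fin N → K) : Pol K p N := ∑ k, w k • zX K p k

/-- The central values. -/
def zeta (k : Fin N) : Pol K p N := zX K p k ^ p + phi f k ^ p

/-- The central value along a vector. -/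
def zetav (w : Fin N → K) : Pol K p N := ∑ k, w k ^ p • zeta f k

/-- The linear form attached to a vector. -/
def Fv (w : Fin N → K) : Pol K p N := ∑ t, eval w (f t) • tX K p t

theorem lev_lowExp {k : Fin N} {α : Fin N →₀ ℕ} (hk : α k ≠ 0) (hd : α.degree = p) :
    (∀ j, (lowExp (p := p) k α j : ℕ) = if j = k then α j - 1 else α j) ∧
      lev (lowExp (p := p) k α) + 1 = p := by
  have hdeg : ∑ j, α j = p := by rw [← Finsupp.degree_eq_sum, hd]
  have hlt : ∀ j, (if j = k then α j - 1 else α j) < p := by
    intro j
    have h1 : α k ≤ p := hdeg ▸ Finset.single_le_sum (fun i _ => Nat.zero_le _) (Finset.mem_univ k)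
    split_ifs with h
    · subst h; omega
    · have := Finset.sum_le_sum_of_subset (f := fun i => α i)
        (Finset.subset_univ ({j, k} : Finset (Fin N)))
      rw [Finset.sum_pair h, hdeg] at this
      omega
  have hval : ∀ j, (lowExp (p := p) k α j : ℕ) = if j = k then α j - 1 else α j := fun j => by
    simp only [lowExp, Fin.ofNat, Nat.mod_eq_of_lt (hlt j)]
  refine ⟨hval, ?_⟩
  unfold lev
  rw [Finset.sum_congr rfl fun j _ => hval j, ← Finset.add_sum_erase _ _ (Finset.mem_univ k),
    if_pos rfl, Finset.sum_congr rfl fun j hj => if_neg (Finset.ne_of_mem_erase hj)]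
  change α k - 1 + ∑ x ∈ Finset.univ.erase k, α x + 1 = p
  have hh : α k + ∑ x ∈ Finset.univ.erase k, α x = ∑ x, α x :=
    Finset.add_sum_erase _ (fun j => α j) (Finset.mem_univ k)
  omega

theorem pick_mem (k0 : Fin N) {α : Fin N →₀ ℕ} (h : α ≠ 0) : α (pick k0 α) ≠ 0 := by
  have hne : α.support.Nonempty := Finsupp.support_nonempty_iff.2 h
  rw [pick, dif_pos hne]
  exact Finsupp.mem_support_iff.1 hne.choose_spec

theorem pick_indep (k0 k1 : Fin N) {α : Fin N →₀ ℕ} (h : α ≠ 0) : pick k0 α = pick k1 α := by
  have hne : α.support.Nonempty := Finsupp.support_nonempty_iff.2 h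
  rw [pick, pick, dif_pos hne, dif_pos hne]

theorem delv_phiv [CharP K p] (hf : ∀ t, (f t).IsHomogeneous p) (w : Fin N → K) :
    (delv w)^[p - 1] (phiv (p := p) f w) = Fv f w := by
  classical
  let L : Module.End K (Pol K p N) := ((delv w : Derivation K (Pol K p N) (Pol K p N)) : _ →ₗ[K] _) ^ (p - 1)
  have hL : ∀ x, L x = (delv w)^[p - 1] x := fun x => by simp [L, Module.End.coe_pow]
  have hw : (((p - 1).factorial : ℕ) : K) = -1 := by
    have h : ZMod.castHom dvd_rfl K (((p - 1).factorial : ℕ) : ZMod p) = ZMod.castHom dvd_rfl K (-1) :=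
      congrArg _ (ZMod.wilsons_lemma p)
    rwa [map_natCast, map_neg, map_one] at h
  rw [← hL, phiv, Fv]
  simp only [phi, Finset.smul_sum, smul_neg, Finset.sum_neg_distrib, map_sum, map_neg]
  rw [Finset.sum_comm, ← Finset.sum_neg_distrib]
  refine Finset.sum_congr rfl fun t _ => ?_
  rw [Finset.sum_comm, ← Finset.sum_neg_distrib, eval_eq' w (f t), Finset.sum_smul]
  refine Finset.sum_congr rfl fun α hα => ?_
  have hd : α.degree = p := by
    rw [Finsupp.degree_eq_weight_one]
    exact hf t (mem_support_iff.1 hα)
  have hne : α ≠ 0 := fun h => by rw [h, map_zero] at hd; exact hp.1.ne_zero hd.symm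
  rw [Finset.sum_eq_single (pick t α)]
  · have hk := pick_mem t hne
    rw [if_pos ⟨pick_indep _ _ hne, hk, hd⟩, smul_smul, map_smul, hL]
    obtain ⟨hval, hlev⟩ := lev_lowExp (p := p) hk hd
    rw [delv_pow_vX w t (p - 1) _ (by omega) (by have := hp.1.pos; omega), smul_smul, hw, ← neg_smul]
    congr 1
    have e : w (pick t α) * wpow w (lowExp (p := p) (pick t α) α) = ∏ i, w i ^ α i := by
      unfold wpow
      rw [← Finset.mul_prod_erase _ _ (Finset.mem_univ (pick t α)), ← mul_assoc, hval, if_pos rfl,
        ← pow_succ', show α (pick t α) - 1 + 1 = α (pick t α) by omega,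
        ← Finset.mul_prod_erase _ (fun i => w i ^ α i) (Finset.mem_univ (pick t α))]
      congr 1
      exact Finset.prod_congr rfl fun j hj => by rw [hval, if_neg (Finset.ne_of_mem_erase hj)]
    rw [← e]
    ring
  · intro k _ hk
    rw [if_neg (fun h => hk (by rw [← h.1]; exact pick_indep _ _ hne)), smul_zero, map_zero]
  · simp

theorem delv_phi_mem (w : Fin N → K) (k : Fin N) : delv w (phi f k) ∈ Rs K p N := by
  rw [phi, map_neg, map_sum]
  refine neg_mem (sum_mem fun t _ => ?_)
  rw [map_sum]
  refine sum_mem fun α _ => ?_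
  split_ifs with h
  · rw [Derivation.map_smul, delv_apply]
    refine Subalgebra.smul_mem _ (sum_mem fun j _ => Subalgebra.smul_mem _ ?_ _) _
    rw [del_vX j t (by have := (lev_lowExp (p := p) h.2.1 h.2.2).2; omega)]
    by_cases hj : (lowExp (p := p) k α j : ℕ) = 0
    · simp [hj]
    · have := lev_low hj
      have := (lev_lowExp (p := p) h.2.1 h.2.2).2
      exact mul_mem (natCast_mem _ _) (vX_mem_Rs (by omega))
  · rw [map_zero]; exact zero_mem _

theorem delv_zv (v w : Fin N → K) : delv v (zv (p := p) w) = 0 := by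
  simp [zv, delv_apply, del_zX]

/-! ### Operators -/

/-- Multiplication operators. -/
def mlt : Pol K p N →ₐ[K] Op K p N := Algebra.lmul K (Pol K p N)

theorem mlt_apply (r x : Pol K p N) : mlt r x = r * x := rfl

theorem mlt_injective : Function.Injective (mlt (K := K) (p := p) (N := N)) :=
  Algebra.lmul_injective

/-- A derivation as an operator. -/
def dop (w : Fin N → K) : Op K p N := (delv w : Derivation K (Pol K p N) (Pol K p N))

/-- The twisted operator attached to a vector. -/
def lop (w : Fin N → K) : Op K p N := dop w + mlt (phiv f w + zv w)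

theorem dop_mlt (w : Fin N → K) (r : Pol K p N) :
    dop w * mlt r = mlt r * dop w + mlt (delv w r) := by
  refine LinearMap.ext fun x => ?_
  show delv w (r * x) = r * delv w x + delv w r * x
  rw [Derivation.leibniz, smul_eq_mul, smul_eq_mul]
  ring

theorem lop_mlt (w : Fin N → K) (r : Pol K p N) :
    lop (p := p) f w * mlt r = mlt r * lop f w + mlt (delv w r) := by
  rw [lop, add_mul, dop_mlt, mul_add, ← map_mul, ← map_mul, mul_comm r (phiv f w + zv w)]
  abel

theorem dop_comm (v w : Fin N → K) : dop (p := p) v * dop w = dop w * dop v :=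
  LinearMap.ext fun x => delv_comm v w x

theorem lop_lop (v w : Fin N → K) :
    lop (p := p) f v * lop f w = lop f w * lop f v + mlt (delv v (phiv f w) - delv w (phiv f v)) := by
  simp only [lop, add_mul, mul_add, dop_mlt, dop_comm v w, map_sub, map_add, delv_zv, map_zero,
    add_zero, ← map_mul, mul_comm (phiv f w), mul_comm (zv (p := p) w)]
  abel

theorem curv_mem (v w : Fin N → K) :
    delv v (phiv (p := p) f w) - delv w (phiv f v) ∈ Rs K p N := by
  refine sub_mem ?_ ?_ <;>
    · rw [phiv, map_sum]
      exact sum_mem fun k _ => by rw [Derivation.map_smul]; exact Subalgebra.smul_mem _ (delv_phi_mem f _ k) _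

theorem adm_pow_dop (w : Fin N → K) (r : Pol K p N) :
    ∀ k, (adm (dop w) ^ k) (mlt r) = mlt ((delv w)^[k] r) := by
  intro k
  induction k with
  | zero => rfl
  | succ k ih => rw [adm_pow_succ, ih, Function.iterate_succ_apply', dop_mlt]; abel

variable [CharP K p]

instance charP_op : CharP (Op K p N) p :=
  charP_of_injective_ringHom (f := algebraMap K (Op K p N)) (RingHom.injective _) p

theorem dop_pow_p (w : Fin N → K) : dop (p := p) (N := N) w ^ p = 0 := by
  have hcomm : ∀ r : Pol K p N, dop w ^ p * mlt r = mlt r * dop w ^ p + mlt ((delv w)^[p] r) := by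
    intro r
    have h := adm_pow_dop w r p
    let Ll : AddMonoid.End (Op K p N) := AddMonoidHom.mulLeft (dop w)
    let Rl : AddMonoid.End (Op K p N) := AddMonoidHom.mulRight (dop w)
    have hc : Commute Ll Rl :=
      AddMonoidHom.ext fun z => (mul_assoc (dop w) z (dop w)).symm
    have : CharP (AddMonoid.End (Op K p N)) p := by
      refine charP_of_injective_ringHom (f := Module.toAddMonoidEnd (Op K p N) (Op K p N)) ?_ p
      intro u v huv
      have h : u * 1 = v * 1 := DFunLike.congr_fun huv 1
      rwa [mul_one, mul_one] at h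
    rw [show adm (dop w) = Ll - Rl from rfl, sub_pow_char_of_commute _ hc] at h
    have hl : ∀ (i : ℕ) (z : Op K p N),
        (Ll ^ i) z = dop w ^ i * z := by
      intro i
      induction i with
      | zero => intro z; simp
      | succ i ih => intro z; rw [pow_succ', pow_succ', mul_assoc, ← ih]; rfl
    have hr : ∀ (i : ℕ) (z : Op K p N),
        (Rl ^ i) z = z * dop w ^ i := by
      intro i
      induction i with
      | zero => intro z; simp
      | succ i ih => intro z; rw [pow_succ', pow_succ, ← mul_assoc, ← ih]; rfl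
    rw [show (Ll ^ p - Rl ^ p) (mlt r) =
      dop w ^ p * mlt r - mlt r * dop w ^ p by rw [← hl, ← hr]; rfl] at h
    rw [← h]; abel
  have hgen : ∀ s : VS p N, (delv w)^[p] (X s : Pol K p N) = 0 := by
    have hz : ∀ m, (delv w : Derivation K (Pol K p N) (Pol K p N))^[m] 0 = 0 := by
      intro m
      induction m with
      | zero => rfl
      | succ m ih => rw [Function.iterate_succ_apply, map_zero, ih]
    intro s
    rcases s with ⟨t, β⟩ | s | s
    · show (delv w)^[p] (vX K t β) = 0
      by_cases hl : lev β < p
      · obtain ⟨d, hd⟩ : ∃ d, p = d + 1 + lev β := ⟨p - lev β - 1, by omega⟩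
        rw [congrArg (Nat.iterate ⇑(delv (p := p) w)) hd]
        rw [Function.iterate_add_apply, delv_pow_vX w t _ β rfl hl, Function.iterate_succ_apply,
          Derivation.map_smul, delv_apply]
        simp [del_tX, hz]
      · obtain ⟨d, hd⟩ : ∃ d, p = d + 1 := ⟨p - 1, by have := hp.1.two_le; omega⟩
        rw [congrArg (Nat.iterate ⇑(delv (p := p) w)) hd]
        rw [Function.iterate_succ_apply]
        simp [delv_apply, del_vX_big _ t hl, hz]
    · show (delv w)^[p] (yX K p s) = 0
      obtain ⟨d, hd⟩ : ∃ d, p = d + 2 := ⟨p - 2, by have := hp.1.two_le; omega⟩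
      rw [congrArg (Nat.iterate ⇑(delv (p := p) w)) hd]
      rw [Function.iterate_succ_apply, Function.iterate_succ_apply]
      simp [delv_apply, del_yX, apply_ite, hz]
    · show (delv w)^[p] (zX K p s) = 0
      obtain ⟨d, hd⟩ : ∃ d, p = d + 1 := ⟨p - 1, by have := hp.1.two_le; omega⟩
      rw [congrArg (Nat.iterate ⇑(delv (p := p) w)) hd]
      rw [Function.iterate_succ_apply]
      simp [delv_apply, del_zX, hz]
  refine LinearMap.ext fun x => ?_
  induction x using MvPolynomial.induction_on with
  | C a =>
    obtain ⟨d, hd⟩ : ∃ d, p = d + 1 := ⟨p - 1, by have := hp.1.two_le; omega⟩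
    rw [congrArg (fun i => dop (p := p) w ^ i) hd, pow_succ, Module.End.mul_apply]
    show (dop w ^ d) (delv w (C a)) = 0
    rw [← algebraMap_eq, Derivation.map_algebraMap, map_zero]
  | add x y hx hy => simp [map_add, hx, hy]
  | mul_X q s hq =>
    have h := LinearMap.congr_fun (hcomm (X s)) q
    rw [hgen, map_zero, add_zero, Module.End.mul_apply, Module.End.mul_apply, mlt_apply, mlt_apply,
      hq] at h
    rw [mul_comm q, h]
    simp

theorem lop_pow (hf : ∀ t, (f t).IsHomogeneous p) (w : Fin N → K) :
    lop (p := p) f w ^ p = mlt (Fv f w + zetav f w) := by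
  rw [lop, add_pow_hoch (p := p) (dop w) (mlt (phiv f w + zv w)) fun k => by
    rw [adm_pow_dop, Commute, SemiconjBy, ← map_mul, ← map_mul, mul_comm]]
  rw [dop_pow_p, zero_add, adm_pow_dop, ← map_pow, ← map_add]
  congr 1
  let L : Module.End K (Pol K p N) :=
    ((delv w : Derivation K (Pol K p N) (Pol K p N)) : _ →ₗ[K] _) ^ (p - 1)
  have hL : ∀ x, L x = (delv w)^[p - 1] x := fun x => by simp [L, Module.End.coe_pow]
  have h0 : (delv w)^[p - 1] (zv (p := p) w) = 0 := by
    obtain ⟨d, hd⟩ : ∃ d, p - 1 = d + 1 := ⟨p - 2, by have := hp.1.two_le; omega⟩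
    rw [hd, Function.iterate_succ_apply, delv_zv]
    have hz : ∀ m, (delv w : Derivation K (Pol K p N) (Pol K p N))^[m] 0 = 0 := by
      intro m
      induction m with
      | zero => rfl
      | succ m ih => rw [Function.iterate_succ_apply, map_zero, ih]
    exact hz d
  rw [← hL, map_add, hL, hL, h0, add_zero, delv_phiv f hf, add_comm]
  congr 1
  rw [add_pow_char, phiv, zv, zetav, sum_pow_char, sum_pow_char, ← Finset.sum_add_distrib]
  refine Finset.sum_congr rfl fun k _ => ?_
  rw [zeta, smul_pow, smul_pow, smul_add, add_comm]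

end Vale.Agent.P200d
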